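import Vale.Agent.P155.E.Tools

/-!
# P155, block E: Markov inequality, union bounds, moments of the height
-/

namespace Vale.Agent.P155.E

open Finset Skel J

theorem Pr_eq_avg (V : Finset Pt) (p : Conf → Prop) [DecidablePred p] :
    Pr V p = avg (DD V) (fun ω => if p ω then (1 : ℝ) else 0) := by
  unfold Pr
  rw [Ex_eq_avg]
  apply avg_congr
  intro ω _
  simp only [Set.indicator_apply, Set.mem_ofPred_eq]

theorem Pr_mono {V : Finset Pt} {p q : Conf → Prop} (h : ∀ ω ∈ DD V, p ω → q ω) :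
    Pr V p ≤ Pr V q := by
  classical
  rw [Pr_eq_avg, Pr_eq_avg]
  apply avg_mono
  intro ω hω
  split_ifs with h1 h2
  · exact le_rfl
  · exact absurd (h ω hω h1) h2
  · exact zero_le_one
  · exact le_rfl

theorem Pr_nonneg (V : Finset Pt) (p : Conf → Prop) : 0 ≤ Pr V p := by
  classical
  rw [Pr_eq_avg]
  apply avg_nonneg
  intro ω _
  split_ifs <;> norm_num

theorem Pr_le_one (V : Finset Pt) (p : Conf → Prop) : Pr V p ≤ 1 := by
  classical
  rw [Pr_eq_avg]
  apply avg_le_const zero_le_one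
  intro ω _
  split_ifs <;> norm_num

theorem Pr_or_le (V : Finset Pt) (p q : Conf → Prop) :
    Pr V (fun ω => p ω ∨ q ω) ≤ Pr V p + Pr V q := by
  classical
  rw [Pr_eq_avg, Pr_eq_avg, Pr_eq_avg, ← avg_add]
  apply avg_mono
  intro ω _
  by_cases h1 : p ω <;> by_cases h2 : q ω <;> simp [h1, h2]

theorem Pr_exists_le {ι : Type*} (V : Finset Pt) (I : Finset ι) (p : ι → Conf → Prop) :
    Pr V (fun ω => ∃ i ∈ I, p i ω) ≤ ∑ i ∈ I, Pr V (p i) := by
  classical
  have e : ∀ i, Pr V (p i) = avg (DD V) (fun ω => if p i ω then (1 : ℝ) else 0) :=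
    fun i => Pr_eq_avg V (p i)
  rw [Pr_eq_avg]
  simp only [e]
  rw [← avg_sum]
  apply avg_mono
  intro ω _
  by_cases h : ∃ i ∈ I, p i ω
  · rw [if_pos h]
    obtain ⟨i, hi, hp⟩ := h
    have : (if p i ω then (1 : ℝ) else 0) ≤ ∑ i ∈ I, (if p i ω then (1 : ℝ) else 0) :=
      Finset.single_le_sum (f := fun i => if p i ω then (1 : ℝ) else 0)
        (fun i _ => by split_ifs <;> norm_num) hi
    rwa [if_pos hp] at this
  · rw [if_neg h]
    apply Finset.sum_nonneg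
    intro i _
    split_ifs <;> norm_num

/-- union bound with a uniform bound -/
theorem Pr_exists_le_card {ι : Type*} (V : Finset Pt) (I : Finset ι) (p : ι → Conf → Prop) {b : ℝ}
    (h : ∀ i ∈ I, Pr V (p i) ≤ b) : Pr V (fun ω => ∃ i ∈ I, p i ω) ≤ I.card * b := by
  refine (Pr_exists_le V I p).trans ?_
  calc ∑ i ∈ I, Pr V (p i) ≤ ∑ _i ∈ I, b := Finset.sum_le_sum h
    _ = I.card * b := by rw [Finset.sum_const, nsmul_eq_mul]

/-- Markov's inequality -/
theorem markov (V : Finset Pt) (g : Conf → ℝ) (hg : ∀ ω ∈ DD V, 0 ≤ g ω) {t : ℝ} (ht : 0 < t) :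
    Pr V (fun ω => t < g ω) ≤ t⁻¹ * Ex V g := by
  classical
  rw [Pr_eq_avg, Ex_eq_avg, ← avg_mul_left]
  apply avg_mono
  intro ω hω
  split_ifs with h
  · rw [inv_mul_eq_div, le_div_iff₀ ht]
    linarith
  · have := hg ω hω
    positivity

/-- one-copy functions -/
theorem Ex_fst (V : Finset Pt) (g : (Pt → Pt) → ℝ) : Ex V (fun ω => g ω.1) = Ex1 V g := by
  unfold Ex Ex1 DD Z
  rw [Finset.card_product, Finset.sum_product]
  simp only [Finset.sum_const, nsmul_eq_mul, smul_eq_mul]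
  rw [← Finset.mul_sum]
  rcases Nat.eq_zero_or_pos (PM V).card with h | h
  · simp [h]
  · have h' : ((PM V).card : ℝ) ≠ 0 := by positivity
    push_cast
    field_simp

theorem Ex_snd (V : Finset Pt) (g : (Pt → Pt) → ℝ) : Ex V (fun ω => g ω.2) = Ex1 V g := by
  unfold Ex Ex1 DD Z
  rw [Finset.card_product, Finset.sum_product]
  simp only [Finset.sum_const, nsmul_eq_mul, smul_eq_mul]
  rcases Nat.eq_zero_or_pos (PM V).card with h | h
  · simp [h]
  · have h' : ((PM V).card : ℝ) ≠ 0 := by positivity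
    push_cast
    field_simp

/-! ## Moments of the height -/

theorem pow_le_cosh (z : ℝ) (k : ℕ) : z ^ (2 * k) ≤ (2 * k).factorial * Real.cosh z := by
  have h1 : ∀ z : ℝ, 0 ≤ z → z ^ (2 * k) ≤ (2 * k).factorial * Real.cosh z := by
    intro z hz
    have h2 := Real.pow_div_factorial_le_exp z hz (2 * k)
    have h3 : Real.cosh z = ∑' n : ℕ, z ^ (2 * n) / (2 * n).factorial := Real.cosh_eq_tsum z
    have h4 : z ^ (2 * k) / (2 * k).factorial ≤ Real.cosh z := by
      rw [h3]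
      have hs : Summable (fun n : ℕ => z ^ (2 * n) / ((2 * n).factorial : ℝ)) :=
        (Real.hasSum_cosh z).summable
      exact hs.le_tsum k (fun j _ => by positivity)
    rw [div_le_iff₀ (by positivity)] at h4
    linarith
  have h5 := h1 |z| (abs_nonneg z)
  rw [Real.cosh_abs] at h5
  have : |z| ^ (2 * k) = z ^ (2 * k) := by
    rw [pow_mul, pow_mul, sq_abs]
  rwa [this] at h5

theorem moment_high (hC : C_height) (q : ℕ) : ∃ C : ℝ, 0 ≤ C ∧ ∀ (R : ℕ) (T : Temp), Fits T R →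
    ∀ x : Pt, Ex T.V (fun ω => (h ω x : ℝ) ^ (4 * q)) ≤ C * (Real.log (R + 2)) ^ (4 * q) := by
  obtain ⟨c, hc, C, hC⟩ := hC
  refine ⟨|C| * (4 * q).factorial * (c⁻¹) ^ (4 * q), by positivity, ?_⟩
  intro R T hR x
  have hlog : 0 < Real.log ((R : ℝ) + 2) := Real.log_pos (by
    have : (0 : ℝ) ≤ R := Nat.cast_nonneg R
    linarith)
  have h1 := hC R T hR x
  set l := Real.log ((R : ℝ) + 2) with hl
  have h2 : ∀ ω : Conf, (h ω x : ℝ) ^ (4 * q) ≤
      ((4 * q).factorial * (c⁻¹) ^ (4 * q) * l ^ (4 * q)) * Real.cosh (c / l * (h ω x : ℝ)) := by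
    intro ω
    have h3 := pow_le_cosh (c / l * (h ω x : ℝ)) (2 * q)
    have e : 2 * (2 * q) = 4 * q := by ring
    rw [e, mul_pow] at h3
    have h4 : (0 : ℝ) < (c / l) ^ (4 * q) := by positivity
    have h5 : (h ω x : ℝ) ^ (4 * q) = ((c / l) ^ (4 * q))⁻¹ * ((c / l) ^ (4 * q) * (h ω x : ℝ) ^ (4 * q)) := by
      field_simp
    rw [h5]
    calc ((c / l) ^ (4 * q))⁻¹ * ((c / l) ^ (4 * q) * (h ω x : ℝ) ^ (4 * q))
        ≤ ((c / l) ^ (4 * q))⁻¹ * ((4 * q).factorial * Real.cosh (c / l * (h ω x : ℝ))) :=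
          mul_le_mul_of_nonneg_left h3 (by positivity)
      _ = _ := by
          rw [div_pow]
          have : c ^ (4 * q) ≠ 0 := by positivity
          have : l ^ (4 * q) ≠ 0 := by positivity
          rw [inv_pow]
          field_simp
  calc Ex T.V (fun ω => (h ω x : ℝ) ^ (4 * q))
      ≤ Ex T.V (fun ω => ((4 * q).factorial * (c⁻¹) ^ (4 * q) * l ^ (4 * q)) *
          Real.cosh (c / l * (h ω x : ℝ))) := Ex_mono (fun ω _ => h2 ω)
    _ = ((4 * q).factorial * (c⁻¹) ^ (4 * q) * l ^ (4 * q)) *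
          Ex T.V (fun ω => Real.cosh (c / l * (h ω x : ℝ))) := avg_mul_left _ _ _
    _ ≤ ((4 * q).factorial * (c⁻¹) ^ (4 * q) * l ^ (4 * q)) * |C| :=
          mul_le_mul_of_nonneg_left (h1.trans (le_abs_self C)) (by positivity)
    _ = _ := by ring

/-- The conditional fourth moments are small with overwhelming probability. -/
theorem moment_cond (hC : C_height) {δ p : ℝ} (hδ : 0 < δ) : ∃ C : ℝ, 0 ≤ C ∧
    ∀ (R : ℕ) (T : Temp), 1 ≤ R → Fits T R → ∀ (X : Expl), IsExpl T.V X → ∀ x : Pt,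
    Pr T.V (fun ω => (R : ℝ) ^ δ < cEx T.V X (fun ω' => (h ω' x : ℝ) ^ 4) ω) ≤
      C * (R : ℝ) ^ (-p) := by
  obtain ⟨q, hq⟩ := exists_nat_ge ((|p| + 1) / δ)
  have hq1 : |p| + 1 ≤ δ * (q + 1) := by
    rw [div_le_iff₀ hδ] at hq
    nlinarith
  obtain ⟨C, hC0, hC⟩ := moment_high hC (q + 1)
  -- log (R+2)^(4(q+1)) ≤ C' R
  have hlogb : ∃ C' : ℝ, 0 ≤ C' ∧ ∀ R : ℕ, 1 ≤ R →
      (Real.log ((R : ℝ) + 2)) ^ (4 * (q + 1)) ≤ C' * R := by
    refine ⟨(4 * (q + 1)).factorial * 3, by positivity, ?_⟩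
    intro R hR
    have hR' : (1 : ℝ) ≤ R := by exact_mod_cast hR
    have hl : 0 ≤ Real.log ((R : ℝ) + 2) := Real.log_nonneg (by linarith)
    have := Real.pow_div_factorial_le_exp (Real.log ((R : ℝ) + 2)) hl (4 * (q + 1))
    rw [Real.exp_log (by linarith), div_le_iff₀ (by positivity)] at this
    calc (Real.log ((R : ℝ) + 2)) ^ (4 * (q + 1)) ≤ (R + 2) * (4 * (q + 1)).factorial := this
      _ ≤ (3 * R) * (4 * (q + 1)).factorial :=
          mul_le_mul_of_nonneg_right (by linarith) (by positivity)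
      _ = _ := by ring
  obtain ⟨C', hC'0, hC'⟩ := hlogb
  refine ⟨C * C', by positivity, ?_⟩
  intro R T hR hf X hX x
  have hR' : (1 : ℝ) ≤ R := by exact_mod_cast hR
  have hR0 : (0 : ℝ) < R := by linarith
  have hpos : ∀ ω : Conf, 0 ≤ cEx T.V X (fun ω' => (h ω' x : ℝ) ^ 4) ω :=
    fun ω => cEx_nonneg (fun ω' _ => by positivity)
  have h1 : Pr T.V (fun ω => (R : ℝ) ^ δ < cEx T.V X (fun ω' => (h ω' x : ℝ) ^ 4) ω) ≤
      Pr T.V (fun ω => ((R : ℝ) ^ δ) ^ (q + 1) <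
        (cEx T.V X (fun ω' => (h ω' x : ℝ) ^ 4) ω) ^ (q + 1)) := by
    apply Pr_mono
    intro ω _ hω
    exact pow_lt_pow_left₀ hω (by positivity) (by omega)
  have h2 := markov T.V (fun ω => (cEx T.V X (fun ω' => (h ω' x : ℝ) ^ 4) ω) ^ (q + 1))
    (fun ω _ => by have := hpos ω; positivity) (t := ((R : ℝ) ^ δ) ^ (q + 1)) (by positivity)
  have h3 : Ex T.V (fun ω => (cEx T.V X (fun ω' => (h ω' x : ℝ) ^ 4) ω) ^ (q + 1)) ≤
      Ex T.V (fun ω => (h ω x : ℝ) ^ (4 * (q + 1))) := by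
    rw [← Ex_cEx hX (fun ω => (h ω x : ℝ) ^ (4 * (q + 1)))]
    apply Ex_mono
    intro ω _
    refine (avg_pow_le (atom T.V X ω) (fun ω' => (h ω' x : ℝ) ^ 4) (fun _ _ => by positivity)
      (q + 1) (by omega)).trans (le_of_eq ?_)
    apply avg_congr
    intro ω' _
    rw [← pow_mul]
  have h4 := hC R T hf x
  have h5 := hC' R hR
  refine h1.trans (h2.trans ?_)
  calc (((R : ℝ) ^ δ) ^ (q + 1))⁻¹ *
        Ex T.V (fun ω => (cEx T.V X (fun ω' => (h ω' x : ℝ) ^ 4) ω) ^ (q + 1))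
      ≤ (((R : ℝ) ^ δ) ^ (q + 1))⁻¹ * (C * (C' * R)) := by
        apply mul_le_mul_of_nonneg_left _ (by positivity)
        exact h3.trans (h4.trans (mul_le_mul_of_nonneg_left h5 hC0))
    _ = C * C' * ((R : ℝ) ^ (-(δ * (q + 1))) * R) := by
        rw [← Real.rpow_natCast ((R : ℝ) ^ δ) (q + 1), ← Real.rpow_mul hR0.le,
          Real.rpow_neg hR0.le]
        push_cast
        ring
    _ ≤ C * C' * (R : ℝ) ^ (-p) := by
        apply mul_le_mul_of_nonneg_left _ (by positivity)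
        nth_rewrite 2 [← Real.rpow_one (R : ℝ)]
        rw [← Real.rpow_add hR0]
        apply Real.rpow_le_rpow_of_exponent_le hR'
        linarith [le_abs_self p]

end Vale.Agent.P155.E
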