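import Vale.Agent.P155.E.SDFull
import Vale.Agent.P155.H924.DGood
import Vale.Agent.P155.C276.Kbd
import Vale.Agent.P155.B.Mono
import Vale.Agent.P155.B.DomMain
import Vale.Agent.P155.A4.Main

/-!
# P155, block E: `E_SD` from the exponential moments of the height alone
-/

namespace Vale.Agent.P155.E

open Skel

theorem b_mono' : B_mono := B3.b_mono SW.a_swap A4.a_le B1b.B_plane Dom.b_dom

theorem d_good' : D_good :=
  H924.dGood b_mono' (C276.c_local B1b.B_plane Dom.b_dom)

/-- only `C_height` (block C) is missing -/
theorem e_sd_of_height (hCh : C_height) : E_SD :=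
  e_sd_full d_good' hCh A4.a_one A4.a_two A4.a_inv

end Vale.Agent.P155.E
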