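import Vale.Agent.P155.Skel

/-!
# P155, block E: internal interface

Nothing is assumed here: these are `Prop`s, proved by the owners of the sub-blocks.
Increments of the height: `X(f) = h f - h (f - e₁)`, `Y(f) = h f - h (f - e₂)`;
`X(f)` lives on the vertical edge `{f, f + e₂}`, `Y(f)` on the horizontal edge `{f, f + e₁}`.
-/

namespace Vale.Agent.P155.E

open Finset Skel

/-- The step-two Laplacian. -/
def lap2 (u : Pt → ℝ) (x : Pt) : ℝ :=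
  u (x.1 + 2, x.2) + u (x.1 - 2, x.2) + u (x.1, x.2 + 2) + u (x.1, x.2 - 2) - 4 * u x

/-- sign of a vertex or face: `+1` on black, `-1` on white points -/
def ss (v : Pt) : ℝ := if Even (v.1 + v.2) then 1 else -1

/-- white and black end point of the vertical edge `{v, v + e₂}` -/
def vW (v : Pt) : Pt := if White v then v else (v.1, v.2 + 1)
def vB (v : Pt) : Pt := if White v then (v.1, v.2 + 1) else v

/-- white and black end point of the horizontal edge `{v, v + e₁}` -/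
def hW (v : Pt) : Pt := if White v then v else (v.1 + 1, v.2)
def hB (v : Pt) : Pt := if White v then (v.1 + 1, v.2) else v

/-- indicators of the vertical and of the horizontal edge at `v` in the matching `m` -/
noncomputable def iv (m : Pt → Pt) (v : Pt) : ℝ :=
  by classical exact if m v = (v.1, v.2 + 1) then 1 else 0
noncomputable def ih (m : Pt → Pt) (v : Pt) : ℝ :=
  by classical exact if m v = (v.1 + 1, v.2) then 1 else 0

/-- Covariance of the indicators of the edges `wb` and `w'b'`, for the inverse `G(b,w)`. -/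
noncomputable def eCov (G : Pt → Pt → ℝ) (w b w' b' : Pt) : ℝ :=
  (if w = w' ∧ b = b' then K w b * G b w else 0) - K w b * K w' b' * G b w' * G b' w

/-- covariance of the increments `X(v)`, `X(v')` of one copy -/
noncomputable def cXX (G : Pt → Pt → ℝ) (v v' : Pt) : ℝ :=
  ss v * ss v' * eCov G (vW v) (vB v) (vW v') (vB v')

/-- covariance of the increments `Y(v)`, `X(v')` of one copy -/
noncomputable def cYX (G : Pt → Pt → ℝ) (v v' : Pt) : ℝ :=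
  - (ss v * ss v' * eCov G (hW v) (hB v) (vW v') (vB v'))

/-- One copy: covariance of `∑_{f ∈ box y ρ} lap2 h f` with `h y - h (y + 2ρ e₁)`. -/
noncomputable def coreSum (G : Pt → Pt → ℝ) (y : Pt) (ρ : ℕ) : ℝ :=
  - ∑ j ∈ Finset.Icc (1 : ℤ) (2 * ρ),
    ((∑ v ∈ Finset.Icc (-(ρ : ℤ)) ρ,
      (cXX G (y.1 + ρ + 2, y.2 + v) (y.1 + j, y.2) + 2 * cXX G (y.1 + ρ + 1, y.2 + v) (y.1 + j, y.2)
        + cXX G (y.1 + ρ, y.2 + v) (y.1 + j, y.2) - cXX G (y.1 - ρ + 1, y.2 + v) (y.1 + j, y.2)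
        - 2 * cXX G (y.1 - ρ, y.2 + v) (y.1 + j, y.2)
        - cXX G (y.1 - ρ - 1, y.2 + v) (y.1 + j, y.2))) +
     ∑ u ∈ Finset.Icc (-(ρ : ℤ)) ρ,
      (cYX G (y.1 + u, y.2 + ρ + 2) (y.1 + j, y.2) + 2 * cYX G (y.1 + u, y.2 + ρ + 1) (y.1 + j, y.2)
        + cYX G (y.1 + u, y.2 + ρ) (y.1 + j, y.2) - cYX G (y.1 + u, y.2 - ρ + 1) (y.1 + j, y.2)
        - 2 * cYX G (y.1 + u, y.2 - ρ) (y.1 + j, y.2)
        - cYX G (y.1 + u, y.2 - ρ - 1) (y.1 + j, y.2)))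

/-- the exploration of everything outside `box x n` -/
noncomputable abbrev XB (T : Temp) (x : Pt) (n : ℕ) : Expl := outside (Fk T.V 0) (box x n)

/-- conditional covariance -/
noncomputable def cCov (V : Finset Pt) (X : Expl) (g g' : Conf → ℝ) (ω : Conf) : ℝ :=
  cEx V X (fun ω' => g ω' * g' ω') ω - cEx V X g ω * cEx V X g' ω

/-- (owner helper862) POINTWISE near-harmonicity of the conditional mean height, only at the
centre of the box. (For small `n` it is trivial since `|lap2 h| ≤ 8`.) -/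
def E_point : Prop := ∀ A, IsPlane A → ∀ κ ε : ℝ, 0 < κ → κ < 1 / 10 → 0 < ε → ∃ C : ℝ,
  ∀ (T : Temp) (x : Pt) (n : ℕ), 1 ≤ n → 2 * n ≤ dF T.faceSet x → ∀ ω ∈ DD T.V,
  GoodM A T κ ε x n ω.1 → GoodM A T κ ε x n ω.2 →
  |lap2 (fun f => cEx T.V (XB T x n) (fun ω' => (h ω' f : ℝ)) ω) x| ≤
    C * (n : ℝ) ^ (-3 + 3 * κ + ε)

/-- (owners helper814, helper45) the plane constant -/
def E_const : Prop := ∀ A, IsPlane A → ∃ C : ℝ, ∀ (y : Pt) (ρ : ℕ), 1 ≤ ρ →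
  |coreSum (Kp A) y ρ + 4 / Real.pi| ≤ C * (ρ : ℝ) ^ (-(1 / 2) : ℝ)

/-- increments of the height -/
def E_incr : Prop := ∀ (V : Finset Pt), ∀ ω ∈ DD V, ∀ f : Pt,
  (h ω f : ℝ) - h ω (f.1 - 1, f.2) = ss f * (iv ω.1 f - iv ω.2 f) ∧
  (h ω f : ℝ) - h ω (f.1, f.2 - 1) = - (ss f * (ih ω.1 f - ih ω.2 f))

/-- the height outside the box is explored -/
def E_meas : Prop := ∀ (T : Temp) (x : Pt) (n : ℕ), ∀ ω ∈ DD T.V, ∀ ω' ∈ atom T.V (XB T x n) ω,
  ∀ f, n < dn x f → h ω' f = h ω f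

/-- vertices near deep faces are vertices of the graph -/
def E_in : Prop := ∀ (T : Temp) (v : Pt), 2 ≤ dF T.faceSet v → v ∈ T.V

/-- conditional covariances of increments in terms of the conditional inverse Kasteleyn matrices -/
def E_cov : Prop := ∀ (T : Temp) (x : Pt) (n : ℕ), 2 * n ≤ dF T.faceSet x → ∀ ω ∈ DD T.V,
  ∀ v v' : Pt, dn x v + 2 ≤ n → dn x v' + 2 ≤ n →
  cCov T.V (XB T x n) (fun ω' => ss v * (iv ω'.1 v - iv ω'.2 v))
      (fun ω' => ss v' * (iv ω'.1 v' - iv ω'.2 v')) ω =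
    cXX (Kinv (Vin T.V (box x n) ω.1)) v v' + cXX (Kinv (Vin T.V (box x n) ω.2)) v v' ∧
  cCov T.V (XB T x n) (fun ω' => - (ss v * (ih ω'.1 v - ih ω'.2 v)))
      (fun ω' => ss v' * (iv ω'.1 v' - iv ω'.2 v')) ω =
    cYX (Kinv (Vin T.V (box x n) ω.1)) v v' + cYX (Kinv (Vin T.V (box x n) ω.2)) v v'

/-- (owner helper613) local covariance: `E3`. -/
def E_three : Prop := ∀ κ a p : ℝ, 0 < κ → κ < 1 / 100 → 0 < a → 0 < p → ∃ C : ℝ,
  ∀ (R : ℕ) (T : Temp), 1 ≤ R → Fits T R → ∀ (x : Pt) (n : ℕ), (R : ℝ) ^ a ≤ n →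
  2 * n ≤ dF T.faceSet x → ∃ G : Set Conf, Pr T.V (fun ω => ω ∉ G) ≤ C * (R : ℝ) ^ (-p) ∧
  ∀ ω ∈ DD T.V, ω ∈ G → ∀ (H : ℝ) (ψ : Pt → ℝ), IsBump x ⌊(n : ℝ) ^ (1 - 3 * κ)⌋₊ H ψ →
  |cEx T.V (XB T x n) (fun ω' => hf ω' (lap ψ)) ω| ≤ C * H * (R : ℝ) ^ κ * (n : ℝ) ^ (-1 + κ) ∧
  (∀ y, cEx T.V (XB T x n) (fun ω' => (h ω' y : ℝ) ^ 4) ω ≤ C * (R : ℝ) ^ κ) ∧
  ∀ y, |cCov T.V (XB T x n) (fun ω' => hf ω' (lap ψ)) (fun ω' => (h ω' y : ℝ)) ω +
    2 / Real.pi * ψ y| ≤ C * H * (R : ℝ) ^ κ * (n : ℝ) ^ (-(1 / 20) : ℝ)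

end Vale.Agent.P155.E
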