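import Vale.Agent.P155.E.Tools

/-!
# P155, block E: second order expansion of the characteristic function under a finite average,
and fourth moments of linear combinations
-/

namespace Vale.Agent.P155.E

open Finset Skel J

theorem norm_exp_sub_le (x : ℝ) :
    ‖Complex.exp (Complex.I * x) - 1 - Complex.I * x‖ ≤ 2 * x ^ 2 := by
  have hI : ‖(Complex.I * x : ℂ)‖ = |x| := by simp
  rcases le_or_gt |x| 1 with h | h
  · have := Complex.norm_exp_sub_one_sub_id_le (x := Complex.I * x) (by rw [hI]; exact h)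
    rw [hI, sq_abs] at this
    nlinarith [sq_nonneg x]
  · have h1 : ‖Complex.exp (Complex.I * x) - 1‖ ≤ |x| := by
      have := Real.norm_exp_I_mul_ofReal_sub_one_le (x := x)
      simpa using this
    have h2 : ‖Complex.exp (Complex.I * x) - 1 - Complex.I * x‖ ≤ |x| + |x| := by
      refine (norm_sub_le _ _).trans ?_
      rw [hI]; linarith
    have h3 : |x| ≤ x ^ 2 := by
      rw [← sq_abs]
      nlinarith
    linarith

section avg
variable {α : Type*}

theorem avg_ofReal (s : Finset α) (g : α → ℝ) :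
    avg s (fun a => (g a : ℂ)) = ((avg s g : ℝ) : ℂ) := by
  unfold avg
  rw [Complex.real_smul, smul_eq_mul]
  push_cast
  rfl

theorem norm_exp_I' (x : ℝ) : ‖Complex.exp (Complex.I * x)‖ = 1 := by
  rw [mul_comm]; exact Complex.norm_exp_ofReal_mul_I x

/-- the expansion -/
theorem expand {s : Finset α} (hs : s.Nonempty) (Y X : α → ℝ) (b θ q : ℝ) (hX : avg s X = 0) :
    ‖avg s (fun a => (Y a : ℂ) * Complex.exp (Complex.I * θ * ((b + X a : ℝ) : ℂ))) +
      Complex.I * θ * q * avg s (fun a => Complex.exp (Complex.I * θ * ((b + X a : ℝ) : ℂ)))‖ ≤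
    |avg s Y| + |θ| * |avg s (fun a => Y a * X a) + q| +
      2 * θ ^ 2 * avg s (fun a => |Y a| * X a ^ 2) +
      2 * |θ| ^ 3 * |q| * avg s (fun a => X a ^ 2) := by
  set r : α → ℂ := fun a => Complex.exp (Complex.I * ((θ * X a : ℝ) : ℂ)) - 1 -
    Complex.I * ((θ * X a : ℝ) : ℂ) with hr
  have hrn : ∀ a, ‖r a‖ ≤ 2 * θ ^ 2 * X a ^ 2 := by
    intro a
    have := norm_exp_sub_le (θ * X a)
    calc ‖r a‖ ≤ 2 * (θ * X a) ^ 2 := this
      _ = _ := by ring
  have he : ∀ a, Complex.exp (Complex.I * θ * ((b + X a : ℝ) : ℂ)) =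
      Complex.exp (Complex.I * ((θ * b : ℝ) : ℂ)) *
      (1 + Complex.I * θ * ((X a : ℝ) : ℂ) + r a) := by
    intro a
    have e1 : (1 + Complex.I * θ * ((X a : ℝ) : ℂ) + r a) =
        Complex.exp (Complex.I * ((θ * X a : ℝ) : ℂ)) := by
      simp only [hr]; push_cast; ring
    rw [e1, ← Complex.exp_add]
    congr 1
    push_cast
    ring
  have h1 : avg s (fun a => (Y a : ℂ) * Complex.exp (Complex.I * θ * ((b + X a : ℝ) : ℂ))) =
      Complex.exp (Complex.I * ((θ * b : ℝ) : ℂ)) * (((avg s Y : ℝ) : ℂ) +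
        Complex.I * θ * ((avg s (fun a => Y a * X a) : ℝ) : ℂ) +
        avg s (fun a => (Y a : ℂ) * r a)) := by
    rw [← avg_ofReal, ← avg_ofReal, ← avg_cmul_left, ← avg_add, ← avg_add, ← avg_cmul_left]
    apply avg_congr
    intro a _
    rw [he]
    push_cast
    ring
  have h2 : avg s (fun a => Complex.exp (Complex.I * θ * ((b + X a : ℝ) : ℂ))) =
      Complex.exp (Complex.I * ((θ * b : ℝ) : ℂ)) * (1 + avg s r) := by
    have e1 : avg s (fun a => Complex.exp (Complex.I * θ * ((b + X a : ℝ) : ℂ))) =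
      Complex.exp (Complex.I * ((θ * b : ℝ) : ℂ)) * (avg s (fun _ => (1 : ℂ)) +
        Complex.I * θ * ((avg s X : ℝ) : ℂ) + avg s r) := by
      rw [← avg_ofReal, ← avg_cmul_left, ← avg_add, ← avg_add, ← avg_cmul_left]
      apply avg_congr
      intro a _
      rw [he]
    rw [e1, hX, avg_const hs]
    simp
  rw [h1, h2]
  have e : Complex.exp (Complex.I * ((θ * b : ℝ) : ℂ)) * (((avg s Y : ℝ) : ℂ) +
        Complex.I * θ * ((avg s (fun a => Y a * X a) : ℝ) : ℂ) +
        avg s (fun a => (Y a : ℂ) * r a)) +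
      Complex.I * θ * q * (Complex.exp (Complex.I * ((θ * b : ℝ) : ℂ)) * (1 + avg s r)) =
      Complex.exp (Complex.I * ((θ * b : ℝ) : ℂ)) * (((avg s Y : ℝ) : ℂ) +
        Complex.I * θ * ((avg s (fun a => Y a * X a) + q : ℝ) : ℂ) +
        avg s (fun a => (Y a : ℂ) * r a) + Complex.I * θ * q * avg s r) := by
    push_cast
    ring
  rw [e, norm_mul, norm_exp_I', one_mul]
  have n1 : ‖((avg s Y : ℝ) : ℂ)‖ = |avg s Y| := by rw [Complex.norm_real, Real.norm_eq_abs]
  have n2 : ‖Complex.I * θ * ((avg s (fun a => Y a * X a) + q : ℝ) : ℂ)‖ =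
      |θ| * |avg s (fun a => Y a * X a) + q| := by
    rw [norm_mul, norm_mul, Complex.norm_I, one_mul, Complex.norm_real, Complex.norm_real,
      Real.norm_eq_abs, Real.norm_eq_abs]
  have n3 : ‖avg s (fun a => (Y a : ℂ) * r a)‖ ≤ 2 * θ ^ 2 * avg s (fun a => |Y a| * X a ^ 2) := by
    refine (norm_avg_le s _).trans ?_
    rw [← avg_mul_left]
    apply avg_mono
    intro a _
    rw [norm_mul, Complex.norm_real, Real.norm_eq_abs]
    calc |Y a| * ‖r a‖ ≤ |Y a| * (2 * θ ^ 2 * X a ^ 2) :=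
          mul_le_mul_of_nonneg_left (hrn a) (abs_nonneg _)
      _ = _ := by ring
  have n4 : ‖Complex.I * θ * q * avg s r‖ ≤ 2 * |θ| ^ 3 * |q| * avg s (fun a => X a ^ 2) := by
    rw [norm_mul, norm_mul, norm_mul, Complex.norm_I, one_mul, Complex.norm_real, Complex.norm_real,
      Real.norm_eq_abs, Real.norm_eq_abs]
    have : ‖avg s r‖ ≤ 2 * θ ^ 2 * avg s (fun a => X a ^ 2) := by
      refine (norm_avg_le s _).trans ?_
      rw [← avg_mul_left]
      exact avg_mono (fun a _ => hrn a)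
    calc |θ| * |q| * ‖avg s r‖ ≤ |θ| * |q| * (2 * θ ^ 2 * avg s (fun a => X a ^ 2)) :=
          mul_le_mul_of_nonneg_left this (by positivity)
      _ = _ := by rw [← sq_abs θ]; ring
  calc _ ≤ ‖((avg s Y : ℝ) : ℂ)‖ + ‖Complex.I * θ * ((avg s (fun a => Y a * X a) + q : ℝ) : ℂ)‖ +
        ‖avg s (fun a => (Y a : ℂ) * r a)‖ + ‖Complex.I * θ * q * avg s r‖ := by
        refine (norm_add_le _ _).trans ?_
        refine add_le_add_left ?_ _
        refine (norm_add_le _ _).trans ?_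
        refine add_le_add_left ?_ _
        exact norm_add_le _ _
    _ ≤ _ := by rw [n1, n2]; linarith

/-- fourth moment of a linear combination -/
theorem avg_lin_four {ι : Type*} (s : Finset α) (B : Finset ι) (w : ι → ℝ) (g : ι → α → ℝ)
    {W M : ℝ} (hw : ∀ i ∈ B, |w i| ≤ W) (hM : ∀ i ∈ B, avg s (fun a => g i a ^ 4) ≤ M) :
    avg s (fun a => (∑ i ∈ B, w i * g i a) ^ 4) ≤ (B.card * W) ^ 4 * M := by
  have h1 : ∀ a ∈ s, (∑ i ∈ B, w i * g i a) ^ 4 ≤ (B.card : ℝ) ^ 3 * W ^ 4 * ∑ i ∈ B, g i a ^ 4 := by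
    intro a _
    have e1 : |∑ i ∈ B, w i * g i a| ≤ W * ∑ i ∈ B, |g i a| := by
      refine (Finset.abs_sum_le_sum_abs _ _).trans ?_
      rw [Finset.mul_sum]
      apply Finset.sum_le_sum
      intro i hi
      rw [abs_mul]
      exact mul_le_mul_of_nonneg_right (hw i hi) (abs_nonneg _)
    have e2 : (∑ i ∈ B, w i * g i a) ^ 4 ≤ (W * ∑ i ∈ B, |g i a|) ^ 4 := by
      rw [← Even.pow_abs (by decide : Even 4)]
      exact pow_le_pow_left₀ (abs_nonneg _) e1 4
    have e3 : (∑ i ∈ B, |g i a|) ^ 4 ≤ (B.card : ℝ) ^ 3 * ∑ i ∈ B, |g i a| ^ 4 := by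
      exact pow_sum_le_card_mul_sum_pow (fun i _ => abs_nonneg _) 3
    have e4 : ∀ i, |g i a| ^ 4 = g i a ^ 4 := fun i => by
      rw [Even.pow_abs (by decide : Even 4)]
    simp only [e4] at e3
    calc (∑ i ∈ B, w i * g i a) ^ 4 ≤ W ^ 4 * (∑ i ∈ B, |g i a|) ^ 4 := by
          rw [← mul_pow]; exact e2
      _ ≤ W ^ 4 * ((B.card : ℝ) ^ 3 * ∑ i ∈ B, g i a ^ 4) :=
          mul_le_mul_of_nonneg_left e3 (by positivity)
      _ = _ := by ring
  refine (avg_mono h1).trans ?_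
  rw [avg_mul_left, avg_sum]
  calc (B.card : ℝ) ^ 3 * W ^ 4 * ∑ i ∈ B, avg s (fun a => g i a ^ 4)
      ≤ (B.card : ℝ) ^ 3 * W ^ 4 * ∑ i ∈ B, M :=
        mul_le_mul_of_nonneg_left (Finset.sum_le_sum hM) (by positivity)
    _ = _ := by rw [Finset.sum_const, nsmul_eq_mul]; ring

end avg

end Vale.Agent.P155.E
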