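import Vale.Agent.P155.E.Supp
import Vale.Agent.P155.E.Taylor

/-!
# P155, block E: the local Schwinger–Dyson estimate on one atom
-/

namespace Vale.Agent.P155.E

open Finset Skel J

theorem pair_eq_box {ψ φ : Pt → ℝ} {x : Pt} {t n : ℕ} {H : ℝ} (hb : IsBump x t H ψ) (htn : t ≤ n) :
    pair ψ φ = ∑ y ∈ box x n, φ y * ψ y := by
  unfold pair
  rw [finsum_eq_box (x := x) (r := n)]
  · exact Finset.sum_congr rfl (fun y _ => mul_comm _ _)
  · intro f hf
    apply hb.1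
    intro hc
    apply hf
    rw [mem_box] at hc ⊢
    have : (t : ℤ) ≤ n := by exact_mod_cast htn
    exact ⟨by linarith [hc.1], by linarith [hc.2.1], by linarith [hc.2.2.1], by linarith [hc.2.2.2]⟩

theorem sd_atom (hI : E_incr) (hM : E_meas) {T : Temp} {R : ℕ} (hfit : Fits T R) {x : Pt} {n : ℕ}
    {ω : Conf} (hω : ω ∈ DD T.V) {ψ φ : Pt → ℝ} {t : ℕ} {H : ℝ} (hb : IsBump x t H ψ) (ht1 : 1 ≤ t)
    (htn : t + 1 ≤ n) {Φ : ℝ} (hΦ : 0 ≤ Φ) (hφ : ∀ y, |φ y| ≤ Φ) {Mo : ℝ} (hMo1 : 1 ≤ Mo)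
    (hMo : ∀ y, dn x y ≤ n → cEx T.V (XB T x n) (fun ω' => (h ω' y : ℝ) ^ 4) ω ≤ Mo)
    {e1 e2 : ℝ} (he1 : |cEx T.V (XB T x n) (fun ω' => hf ω' (lap ψ)) ω| ≤ e1)
    (he2 : ∀ y, dn x y ≤ n → |cCov T.V (XB T x n) (fun ω' => hf ω' (lap ψ)) (hR y) ω +
      2 / Real.pi * ψ y| ≤ e2) (θ : ℝ) {S : ℝ} (hS : (2 * (n : ℝ) + 1) ^ 2 * Φ = S) :
    ‖cEx T.V (XB T x n)
        (fun ω' => (hf ω' (lap ψ) : ℂ) * Complex.exp (Complex.I * θ * hf ω' φ)) ω +
      Complex.I * θ * (2 / Real.pi) * pair ψ φ * cEx T.V (XB T x n)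
        (fun ω' => Complex.exp (Complex.I * θ * hf ω' φ)) ω‖ ≤
    e1 + |θ| * (S * e2) + 400 * θ ^ 2 * H * S ^ 2 * Mo + 2 * |θ| ^ 3 * H * S ^ 3 * Mo := by
  have hH := bump_H hb
  have hS0 : 0 ≤ S := by rw [← hS]; positivity
  set s := atom T.V (XB T x n) ω with hs
  have hsne : s.Nonempty := ⟨ω, self_mem_atom hω⟩
  set Y : Conf → ℝ := fun ω' => hf ω' (lap ψ) with hY
  set A : Conf → ℝ := fun ω' => ∑ y ∈ box x n, φ y * hR y ω' with hA
  set X : Conf → ℝ := fun ω' => A ω' - avg s A with hX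
  set b : ℝ := hf ω φ + avg s A - A ω with hbdef
  set q : ℝ := 2 / Real.pi * pair ψ φ with hq
  have hX0 : avg s X = 0 := by
    simp only [hX]
    rw [avg_sub, avg_const hsne, sub_self]
  have hfe : ∀ ω' ∈ s, hf ω' φ = b + X ω' := by
    intro ω' hω'
    rw [hf_split hI hM hfit hω hω']
    simp only [hbdef, hX, hA, mul_sub, Finset.sum_sub_distrib]
    ring
  -- rewriting the statement
  have E1 : cEx T.V (XB T x n)
        (fun ω' => (hf ω' (lap ψ) : ℂ) * Complex.exp (Complex.I * θ * hf ω' φ)) ω =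
      avg s (fun a => (Y a : ℂ) * Complex.exp (Complex.I * θ * ((b + X a : ℝ) : ℂ))) := by
    rw [cEx_eq_avg]
    exact avg_congr (fun ω' hω' => by rw [hfe ω' hω'])
  have E2 : cEx T.V (XB T x n) (fun ω' => Complex.exp (Complex.I * θ * hf ω' φ)) ω =
      avg s (fun a => Complex.exp (Complex.I * θ * ((b + X a : ℝ) : ℂ))) := by
    rw [cEx_eq_avg]
    exact avg_congr (fun ω' hω' => by rw [hfe ω' hω'])
  have E3 : Complex.I * θ * (2 / Real.pi) * pair ψ φ = Complex.I * θ * ((q : ℝ) : ℂ) := by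
    rw [hq]; push_cast; ring
  rw [E1, E2, E3]
  refine (expand hsne Y X b θ q hX0).trans ?_
  -- moments
  have hcB : (((box x n).card : ℝ) * Φ) = S := by
    rw [card_box, ← hS]; push_cast; ring
  have hA4 : avg s (fun a => A a ^ 4) ≤ S ^ 4 * Mo := by
    have := avg_lin_four s (box x n) φ (fun y ω' => hR y ω') (W := Φ) (M := Mo)
      (fun y _ => hφ y) (fun y hy => hMo y (dn_le_iff.2 hy))
    rw [hcB] at this
    exact this
  have hY4 : avg s (fun a => Y a ^ 4) ≤ (50 * H) ^ 4 * Mo := by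
    have hYs : ∀ ω', Y ω' = ∑ y ∈ box x (t + 1), lap ψ y * hR y ω' := fun ω' =>
      hf_eq_sum (fun f hf' => bump_lap_zero hb hf') ω'
    have := avg_lin_four s (box x (t + 1)) (lap ψ) (fun y ω' => hR y ω')
      (W := 2 * H * ((t : ℝ)⁻¹) ^ 2) (M := Mo) (fun y _ => bump_lap hb y) (fun y hy => by
        apply hMo y
        have := dn_le_iff.2 hy
        omega)
    simp only [hYs]
    refine this.trans ?_
    apply mul_le_mul_of_nonneg_right _ (by linarith)
    apply pow_le_pow_left₀ (by positivity)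
    rw [card_box]
    have ht : (1 : ℝ) ≤ t := by exact_mod_cast ht1
    have ht0 : (t : ℝ) ≠ 0 := by positivity
    have h5 : (((2 * (t + 1) + 1) ^ 2 : ℕ) : ℝ) ≤ (5 * (t : ℝ)) ^ 2 := by
      push_cast
      apply pow_le_pow_left₀ (by positivity)
      linarith
    calc (((2 * (t + 1) + 1) ^ 2 : ℕ) : ℝ) * (2 * H * ((t : ℝ)⁻¹) ^ 2)
        ≤ (5 * (t : ℝ)) ^ 2 * (2 * H * ((t : ℝ)⁻¹) ^ 2) :=
          mul_le_mul_of_nonneg_right h5 (by positivity)
      _ = 50 * H := by field_simp; ring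
  have hsq : ∀ (g : Conf → ℝ) (D : ℝ), avg s (fun a => g a ^ 4) ≤ D ^ 4 * Mo →
      avg s (fun a => g a ^ 2) ≤ D ^ 2 * Mo := by
    intro g D hg
    have h1 : (avg s (fun a => g a ^ 2)) ^ 2 ≤ (D ^ 2 * Mo) ^ 2 := by
      refine (sq_avg_le s _).trans ?_
      have e : avg s (fun a => (g a ^ 2) ^ 2) = avg s (fun a => g a ^ 4) :=
        avg_congr (fun a _ => by ring)
      rw [e]
      refine hg.trans ?_
      have : D ^ 4 * Mo ≤ D ^ 4 * Mo ^ 2 :=
        mul_le_mul_of_nonneg_left (by nlinarith) (by positivity)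
      calc D ^ 4 * Mo ≤ D ^ 4 * Mo ^ 2 := this
        _ = _ := by ring
    exact le_of_sq_le_sq h1 (by positivity)
  have hY2 := hsq Y (50 * H) hY4
  have hA2 := hsq A S hA4
  have hX2 : avg s (fun a => X a ^ 2) ≤ S ^ 2 * Mo := by
    refine le_trans ?_ hA2
    have := var_le (X := XB T x n) hω A
    exact this
  have hX4 : avg s (fun a => X a ^ 4) ≤ (2 * S) ^ 4 * Mo := by
    have h1 : ∀ a ∈ s, X a ^ 4 ≤ 8 * A a ^ 4 + 8 * (avg s A) ^ 4 := by
      intro a _
      simp only [hX]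
      nlinarith [sq_nonneg (A a ^ 2 - (avg s A) ^ 2), sq_nonneg (A a + avg s A),
        sq_nonneg (A a - avg s A), sq_nonneg ((A a + avg s A) ^ 2),
        mul_self_nonneg (A a * avg s A), sq_nonneg (A a * (avg s A)),
        mul_nonneg (sq_nonneg (A a + avg s A)) (sq_nonneg (A a - avg s A)),
        mul_nonneg (sq_nonneg (A a + avg s A)) (sq_nonneg (A a)),
        mul_nonneg (sq_nonneg (A a + avg s A)) (sq_nonneg (avg s A))]
    have h2 : (avg s A) ^ 4 ≤ avg s (fun a => A a ^ 4) := by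
      calc (avg s A) ^ 4 = ((avg s A) ^ 2) ^ 2 := by ring
        _ ≤ (avg s (fun a => A a ^ 2)) ^ 2 := pow_le_pow_left₀ (sq_nonneg _) (sq_avg_le s A) 2
        _ ≤ avg s (fun a => (A a ^ 2) ^ 2) := sq_avg_le s _
        _ = _ := avg_congr (fun a _ => by ring)
    have h3 : avg s (fun a => 8 * A a ^ 4 + 8 * (avg s A) ^ 4) =
        8 * avg s (fun a => A a ^ 4) + 8 * (avg s A) ^ 4 := by
      rw [avg_add, avg_mul_left, avg_const hsne]
    have h4 := avg_mono h1
    rw [h3] at h4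
    calc avg s (fun a => X a ^ 4) ≤ 16 * (S ^ 4 * Mo) := by linarith
      _ = _ := by ring
  have hYX : avg s (fun a => |Y a| * X a ^ 2) ≤ 200 * H * S ^ 2 * Mo := by
    have h1 : avg s (fun a => |Y a| * X a ^ 2) = avg s (fun a => |Y a * X a ^ 2|) :=
      avg_congr (fun a _ => by rw [abs_mul, abs_of_nonneg (sq_nonneg (X a))])
    rw [h1]
    refine (avg_mul_abs_le s Y (fun a => X a ^ 2)).trans ?_
    have h2 : avg s (fun a => (X a ^ 2) ^ 2) ≤ (2 * S) ^ 4 * Mo := by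
      refine le_trans (le_of_eq ?_) hX4
      exact avg_congr (fun a _ => by ring)
    have hMo0 : 0 ≤ Mo := by linarith
    calc Real.sqrt (avg s (fun a => Y a ^ 2)) * Real.sqrt (avg s (fun a => (X a ^ 2) ^ 2))
        ≤ Real.sqrt ((50 * H) ^ 2 * Mo) * Real.sqrt ((2 * S) ^ 4 * Mo) :=
          mul_le_mul (Real.sqrt_le_sqrt hY2) (Real.sqrt_le_sqrt h2) (Real.sqrt_nonneg _)
            (Real.sqrt_nonneg _)
      _ = Real.sqrt ((200 * H * S ^ 2 * Mo) ^ 2) := by
          rw [← Real.sqrt_mul (by positivity)]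
          congr 1
          ring
      _ = 200 * H * S ^ 2 * Mo := Real.sqrt_sq (by positivity)
  -- the pairing
  have hpair := pair_eq_box (φ := φ) hb (show t ≤ n by omega)
  have hpabs : |q| ≤ H * S := by
    have h1 : |pair ψ φ| ≤ H * S := by
      rw [hpair]
      calc |∑ y ∈ box x n, φ y * ψ y| ≤ ∑ y ∈ box x n, |φ y * ψ y| :=
            Finset.abs_sum_le_sum_abs _ _
        _ ≤ ∑ y ∈ box x n, Φ * H := Finset.sum_le_sum (fun y _ => by
            rw [abs_mul]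
            exact mul_le_mul (hφ y) (bump_abs hb y) (abs_nonneg _) hΦ)
        _ = H * S := by rw [Finset.sum_const, nsmul_eq_mul, ← hcB]; ring
    rw [hq, abs_mul]
    have hpi : |2 / Real.pi| ≤ 1 := by
      rw [abs_of_pos (by positivity), div_le_one Real.pi_pos]
      linarith [Real.pi_gt_three]
    calc |2 / Real.pi| * |pair ψ φ| ≤ 1 * (H * S) :=
          mul_le_mul hpi h1 (abs_nonneg _) (by norm_num)
      _ = _ := one_mul _
  have hcov : |avg s (fun a => Y a * X a) + q| ≤ S * e2 := by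
    have h1 : avg s (fun a => Y a * X a) = ∑ y ∈ box x n, φ y *
        cCov T.V (XB T x n) Y (hR y) ω := by
      have e1 : avg s (fun a => Y a * X a) = cCov T.V (XB T x n) Y A ω := by
        unfold cCov
        rw [cEx_eq_avg, cEx_eq_avg, cEx_eq_avg]
        simp only [hX, mul_sub]
        rw [avg_sub, avg_mul_right]
      rw [e1]
      simp only [hA]
      rw [cCov_sum_right]
      exact Finset.sum_congr rfl (fun y _ => cCov_mul_right _ _ _)
    rw [h1, hq, hpair, Finset.mul_sum, ← Finset.sum_add_distrib]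
    refine (Finset.abs_sum_le_sum_abs _ _).trans ?_
    calc ∑ y ∈ box x n, |φ y * cCov T.V (XB T x n) Y (hR y) ω + 2 / Real.pi * (φ y * ψ y)|
        ≤ ∑ y ∈ box x n, Φ * e2 := by
          apply Finset.sum_le_sum
          intro y hy
          have e : φ y * cCov T.V (XB T x n) Y (hR y) ω + 2 / Real.pi * (φ y * ψ y) =
              φ y * (cCov T.V (XB T x n) Y (hR y) ω + 2 / Real.pi * ψ y) := by ring
          rw [e, abs_mul]
          exact mul_le_mul (hφ y) (he2 y (dn_le_iff.2 hy)) (abs_nonneg _) hΦ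
      _ = S * e2 := by rw [Finset.sum_const, nsmul_eq_mul, ← hcB]; ring
  have he1' : |avg s Y| ≤ e1 := he1
  have t2 : |θ| * |avg s (fun a => Y a * X a) + q| ≤ |θ| * (S * e2) :=
    mul_le_mul_of_nonneg_left hcov (abs_nonneg _)
  have t3 : 2 * θ ^ 2 * avg s (fun a => |Y a| * X a ^ 2) ≤ 400 * θ ^ 2 * H * S ^ 2 * Mo := by
    calc 2 * θ ^ 2 * avg s (fun a => |Y a| * X a ^ 2) ≤ 2 * θ ^ 2 * (200 * H * S ^ 2 * Mo) :=
          mul_le_mul_of_nonneg_left hYX (by positivity)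
      _ = _ := by ring
  have t4 : 2 * |θ| ^ 3 * |q| * avg s (fun a => X a ^ 2) ≤ 2 * |θ| ^ 3 * H * S ^ 3 * Mo := by
    calc 2 * |θ| ^ 3 * |q| * avg s (fun a => X a ^ 2)
        ≤ 2 * |θ| ^ 3 * (H * S) * (S ^ 2 * Mo) := by
          apply mul_le_mul _ hX2 (avg_nonneg (fun a _ => sq_nonneg _)) (by positivity)
          exact mul_le_mul_of_nonneg_left hpabs (by positivity)
      _ = _ := by ring
  linarith

end Vale.Agent.P155.E
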