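import Vale.Agent.P155.E.Parts

/-!
# P155, block E: conditional mean and covariances of `h(Δψ)` for a bump `ψ`, explicit bounds
-/

namespace Vale.Agent.P155.E

open Finset Skel J

variable {A : Pt → ℝ} {κ a C : ℝ} {R : ℕ} {T : Temp} {x : Pt} {n : ℕ} {ω : Conf}

theorem mean_bump (hI : E_incr) (hC0 : 0 ≤ C) (hC : ∀ (T : Temp) (x : Pt) (n : ℕ), 1 ≤ n →
    2 * n ≤ dF T.faceSet x → ∀ ω ∈ DD T.V, badI A T κ x n ω = 0 →
    |cEx T.V (XB T x n) (lh x) ω| ≤ C * (n : ℝ) ^ (-3 + 4 * κ))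
    (hκ : 0 < κ) (hR1 : 1 ≤ R) (hfit : Fits T R) (hdF : 2 * n ≤ dF T.faceSet x) (hω : ω ∈ DD T.V)
    (hG : Gd A T κ a R x n ω) {t m : ℕ} {H : ℝ} {ψ : Pt → ℝ} (hb : IsBump x t H ψ)
    (htm : t + m ≤ n) (ht2 : t + 2 ≤ n) (hma : (R : ℝ) ^ a ≤ m) (hm1 : 1 ≤ m) :
    |cEx T.V (XB T x n) (fun ω' => hf ω' (lap ψ)) ω| ≤
      (1 / 4) * ((2 * t + 1) ^ 2 * (H * ((C + 8) * (m : ℝ) ^ (-3 + 4 * κ)))) +
      (1 / 4) * ((2 * ((t + 2 : ℕ) : ℝ) + 1) ^ 2 *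
        ((2 * H * ((t : ℝ)⁻¹) ^ 4) * (R : ℝ) ^ (κ / 4))) := by
  have hH := bump_H hb
  rw [cEx_hf (x := x) (r := t + 1) (fun f hf' => bump_lap_zero hb hf'), parts (bump_fs hb)]
  have h1 : |∑ᶠ f, ψ f * lap2 (fun f => cEx T.V (XB T x n) (hR f) ω) f| ≤
      (2 * t + 1) ^ 2 * (H * ((C + 8) * (m : ℝ) ^ (-3 + 4 * κ))) := by
    apply E1.abs_finsum_le hb.1 (fun f _ => bump_abs hb f) _ hH
    intro f hfb
    rw [lap2_cEx]
    have hd := dn_le_iff.2 hfb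
    exact mean_lh hI hC0 hC hκ hR1 hfit hdF hω hG (by omega) hma hm1
  have h2 : |∑ᶠ f, D4 ψ f * cEx T.V (XB T x n) (hR f) ω| ≤
      (2 * ((t + 2 : ℕ) : ℝ) + 1) ^ 2 * ((2 * H * ((t : ℝ)⁻¹) ^ 4) * (R : ℝ) ^ (κ / 4)) := by
    apply E1.abs_finsum_le (fun f hf' => bump_D4_zero hb hf') (fun f _ => bump_D4 hb f) _
      (by positivity)
    intro f hfb
    have hd := dn_le_iff.2 hfb
    exact abs_mean_le hR1 hG (by omega)
  rw [abs_le] at h1 h2 ⊢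
  constructor <;> linarith [h1.1, h1.2, h2.1, h2.2]

/-- covariance of `h(Δψ)` with `h(y)` -/
theorem cov_bump (hI : E_incr) (hM : E_meas) (hCov : E_cov) (hC0 : 0 ≤ C)
    (hC : ∀ (T : Temp) (x : Pt) (n : ℕ), 1 ≤ n →
    2 * n ≤ dF T.faceSet x → ∀ ω ∈ DD T.V, badI A T κ x n ω = 0 →
    |cEx T.V (XB T x n) (lh x) ω| ≤ C * (n : ℝ) ^ (-3 + 4 * κ))
    {C1 C2 Cs : ℝ} (hC1 : 0 ≤ C1) (hC2 : 0 ≤ C2)
    (hRep : ∀ (G : Pt → Pt → ℝ) (y : Pt) (ρ : ℕ)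
      (η : ℝ), 1 ≤ ρ → 0 ≤ η → η ≤ 1 → (∀ b w, Black b → White w → b ∈ box y (2 * ρ + 4) →
      w ∈ box y (2 * ρ + 4) → |G b w - Kp A b w| ≤ η) →
      |coreSum G y ρ - coreSum (Kp A) y ρ| ≤ C1 * (ρ : ℝ) ^ 2 * η)
    (hConst : ∀ (y : Pt) (ρ : ℕ), 1 ≤ ρ →
      |coreSum (Kp A) y ρ + 4 / Real.pi| ≤ C2 * (ρ : ℝ) ^ (-(1 / 2) : ℝ))
    (hCs : ∀ (y : Pt) (ρ : ℕ) (S : Finset Pt), 1 ≤ ρ → (∀ f ∈ S, ρ < dn y f) →
      ∑ f ∈ S, ((dn y f - 1 : ℕ) : ℝ) ^ (-3 + 4 * κ) ≤ Cs * (ρ : ℝ) ^ (-(1 / 2) : ℝ))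
    (hκ : 0 < κ) (hκ' : κ < 1 / 10) (hR1 : 1 ≤ R) (hfit : Fits T R) (hdF : 2 * n ≤ dF T.faceSet x)
    (hω : ω ∈ DD T.V) (hG : Gd A T κ a R x n ω) (hn : 1 ≤ n) {t m m2 ρ : ℕ} {H : ℝ} {ψ : Pt → ℝ}
    (hb : IsBump x t H ψ) (ht2 : t + m2 ≤ n) (_ht3 : t + 2 ≤ n) (hρ : 1 ≤ ρ) (hmρ : m + 1 = ρ)
    (hm1 : 1 ≤ m) (hma : (R : ℝ) ^ a ≤ m) (hm21 : 1 ≤ m2) (hm2a : (R : ℝ) ^ a ≤ m2)
    (hy1 : t + 4 * ρ + 8 ≤ n) (hy2 : t + 2 * ρ + 4 ≤ ⌊(n : ℝ) ^ (1 - κ) / 20⌋₊)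
    {y : Pt} (hy : dn x y ≤ n) :
    |cCov T.V (XB T x n) (fun ω' => hf ω' (lap ψ)) (hR y) ω + 2 / Real.pi * ψ y| ≤
      (1 / 4) * (H * ((C + 8) * (R : ℝ) ^ (κ / 4)) *
        (Cs * (ρ : ℝ) ^ (-(1 / 2) : ℝ) + (2 * t + 1) ^ 2 * (m2 : ℝ) ^ (-3 + 4 * κ))) +
      (1 / 4) * ((2 * ρ + 1) ^ 2 * (2 * ρ * (H * (t : ℝ)⁻¹) * (8 * (R : ℝ) ^ (κ / 4)))) +
      (1 / 4) * (H * (2 * C1 * (ρ : ℝ) ^ 2 * (n : ℝ) ^ (-1 + 2 * κ) +
        2 * C2 * (ρ : ℝ) ^ (-(1 / 2) : ℝ) +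
        9 * (ρ : ℝ) ^ 2 * ((C + 8) * (R : ℝ) ^ (κ / 4) * (m : ℝ) ^ (-3 + 4 * κ)))) +
      (1 / 4) * ((2 * ((t + 2 : ℕ) : ℝ) + 1) ^ 2 *
        ((2 * H * ((t : ℝ)⁻¹) ^ 4) * (R : ℝ) ^ (κ / 2))) := by
  classical
  have hH := bump_H hb
  set b : Pt → ℝ := fun f => cCov T.V (XB T x n) (lh f) (hR y) ω with hbdef
  have hR0 : (0 : ℝ) ≤ (R : ℝ) ^ (κ / 4) := by positivity
  have hn' : (1 : ℝ) ≤ n := by exact_mod_cast hn
  rw [cCov_hf (x := x) (r := t + 1) (fun f hf' => bump_lap_zero hb hf'), parts (bump_fs hb)]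
  have e1 : ∑ᶠ f, ψ f * lap2 (fun f => cCov T.V (XB T x n) (hR f) (hR y) ω) f =
      ∑ f ∈ box x t, ψ f * b f := by
    rw [finsum_eq_box hb.1]
    exact Finset.sum_congr rfl (fun f _ => by rw [lap2_cCov])
  rw [e1]
  have e2 : ∑ f ∈ box x t, ψ f * b f =
      ∑ f ∈ box x t \ box y ρ, ψ f * b f + ∑ f ∈ box y ρ, ψ f * b f := by
    have h1 : ∑ f ∈ box y ρ, ψ f * b f = ∑ f ∈ box x t ∩ box y ρ, ψ f * b f := by
      symm
      apply Finset.sum_subset Finset.inter_subset_right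
      intro f hfy hfx
      have : f ∉ box x t := fun hc => hfx (Finset.mem_inter.2 ⟨hc, hfy⟩)
      rw [hb.1 f this, zero_mul]
    rw [h1, add_comm, Finset.sum_inter_add_sum_sdiff]
  have e3 : ∑ f ∈ box y ρ, ψ f * b f =
      ∑ f ∈ box y ρ, (ψ f - ψ y) * b f + ψ y * cCov T.V (XB T x n)
        (fun ω' => ∑ f ∈ box y ρ, lh f ω') (hR y) ω := by
    rw [cCov_sum_left, Finset.mul_sum, ← Finset.sum_add_distrib]
    exact Finset.sum_congr rfl (fun f _ => by simp only [hbdef]; ring)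
  -- far part
  have hfar : |∑ f ∈ box x t \ box y ρ, ψ f * b f| ≤ H * ((C + 8) * (R : ℝ) ^ (κ / 4)) *
        (Cs * (ρ : ℝ) ^ (-(1 / 2) : ℝ) + (2 * t + 1) ^ 2 * (m2 : ℝ) ^ (-3 + 4 * κ)) := by
    have h1 : ∀ f ∈ box x t \ box y ρ, |ψ f * b f| ≤ H * ((C + 8) * (R : ℝ) ^ (κ / 4)) *
        (((dn y f - 1 : ℕ) : ℝ) ^ (-3 + 4 * κ) + (m2 : ℝ) ^ (-3 + 4 * κ)) := by
      intro f hfS
      rw [Finset.mem_sdiff] at hfS
      have hdx := dn_le_iff.2 hfS.1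
      have hdy : ρ < dn y f := by
        by_contra hc
        exact hfS.2 (dn_le_iff.1 (not_lt.1 hc))
      rw [abs_mul]
      have h2 : |b f| ≤ (C + 8) * (R : ℝ) ^ (κ / 4) *
          ((min (dn y f - 1) m2 : ℕ) : ℝ) ^ (-3 + 4 * κ) := by
        apply cov_lh hI hM hC0 hC hκ hR1 hfit hdF hω hG
        · have := min_le_right (dn y f - 1) m2
          omega
        · rcases min_choice (dn y f - 1) m2 with h | h
          · rw [h]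
            have : m ≤ dn y f - 1 := by omega
            have : (m : ℝ) ≤ ((dn y f - 1 : ℕ) : ℝ) := by exact_mod_cast this
            linarith
          · rw [h]; exact hm2a
        · rw [le_min_iff]
          exact ⟨by omega, hm21⟩
        · rw [dn_comm f y]
          have := min_le_left (dn y f - 1) m2
          omega
        · exact hy
      have h3 : ((min (dn y f - 1) m2 : ℕ) : ℝ) ^ (-3 + 4 * κ) ≤
          ((dn y f - 1 : ℕ) : ℝ) ^ (-3 + 4 * κ) + (m2 : ℝ) ^ (-3 + 4 * κ) := by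
        rcases min_choice (dn y f - 1) m2 with h | h
        · rw [h]
          have : (0 : ℝ) ≤ (m2 : ℝ) ^ (-3 + 4 * κ) := by positivity
          linarith
        · rw [h]
          have : (0 : ℝ) ≤ ((dn y f - 1 : ℕ) : ℝ) ^ (-3 + 4 * κ) := by positivity
          linarith
      calc |ψ f| * |b f| ≤ H * ((C + 8) * (R : ℝ) ^ (κ / 4) *
          ((min (dn y f - 1) m2 : ℕ) : ℝ) ^ (-3 + 4 * κ)) :=
            mul_le_mul (bump_abs hb f) h2 (abs_nonneg _) hH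
        _ ≤ H * ((C + 8) * (R : ℝ) ^ (κ / 4) *
          (((dn y f - 1 : ℕ) : ℝ) ^ (-3 + 4 * κ) + (m2 : ℝ) ^ (-3 + 4 * κ))) := by
            apply mul_le_mul_of_nonneg_left _ hH
            exact mul_le_mul_of_nonneg_left h3 (by positivity)
        _ = _ := by ring
    refine (Finset.abs_sum_le_sum_abs _ _).trans ((Finset.sum_le_sum h1).trans ?_)
    rw [← Finset.mul_sum, Finset.sum_add_distrib, Finset.sum_const, nsmul_eq_mul]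
    apply mul_le_mul_of_nonneg_left _ (by positivity)
    apply add_le_add
    · apply hCs y ρ _ hρ
      intro f hfS
      rw [Finset.mem_sdiff] at hfS
      by_contra hc
      exact hfS.2 (dn_le_iff.1 (not_lt.1 hc))
    · apply mul_le_mul_of_nonneg_right _ (by positivity)
      have h4 : (box x t \ box y ρ).card ≤ (box x t).card := Finset.card_le_card Finset.sdiff_subset
      rw [card_box] at h4
      exact_mod_cast h4
  -- near part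
  have hnear : |∑ f ∈ box y ρ, (ψ f - ψ y) * b f| ≤
      (2 * ρ + 1) ^ 2 * (2 * ρ * (H * (t : ℝ)⁻¹) * (8 * (R : ℝ) ^ (κ / 4))) := by
    have h1 : ∀ f ∈ box y ρ, |(ψ f - ψ y) * b f| ≤
        2 * ρ * (H * (t : ℝ)⁻¹) * (8 * (R : ℝ) ^ (κ / 4)) := by
      intro f hfb
      rw [abs_mul]
      exact mul_le_mul (bump_lip hb hfb) (abs_cov_lh_le hI hR1 hω hG f hy) (abs_nonneg _)
        (by positivity)
    refine (Finset.abs_sum_le_sum_abs _ _).trans ((Finset.sum_le_sum h1).trans ?_)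
    rw [Finset.sum_const, nsmul_eq_mul, card_box]
    push_cast
    exact le_rfl
  -- core part
  set S := cCov T.V (XB T x n) (fun ω' => ∑ f ∈ box y ρ, lh f ω') (hR y) ω with hS
  have hcore : |ψ y * (S + 8 / Real.pi)| ≤ H * (2 * C1 * (ρ : ℝ) ^ 2 * (n : ℝ) ^ (-1 + 2 * κ) +
        2 * C2 * (ρ : ℝ) ^ (-(1 / 2) : ℝ) +
        9 * (ρ : ℝ) ^ 2 * ((C + 8) * (R : ℝ) ^ (κ / 4) * (m : ℝ) ^ (-3 + 4 * κ))) := by
    by_cases hyx : y ∈ box x t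
    · have hd := dn_le_iff.2 hyx
      rw [abs_mul]
      apply mul_le_mul (bump_abs hb y) _ (abs_nonneg _) hH
      exact core_bound hI hM hCov hC0 hC hRep hConst hκ hκ' hR1 hfit hdF hω hG hn hρ hmρ hm1 hma
        (by omega) (by omega)
    · rw [hb.1 y hyx, zero_mul, abs_zero]
      positivity
  -- fourth differences
  have hD : |∑ᶠ f, D4 ψ f * cCov T.V (XB T x n) (hR f) (hR y) ω| ≤
      (2 * ((t + 2 : ℕ) : ℝ) + 1) ^ 2 * ((2 * H * ((t : ℝ)⁻¹) ^ 4) * (R : ℝ) ^ (κ / 2)) := by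
    apply E1.abs_finsum_le (fun f hf' => bump_D4_zero hb hf') (fun f _ => bump_D4 hb f) _
      (by positivity)
    intro f hfb
    have hd := dn_le_iff.2 hfb
    exact abs_cov_le hR1 hω hG (by omega) hy
  rw [e2, e3]
  set D := ∑ᶠ f, D4 ψ f * cCov T.V (XB T x n) (hR f) (hR y) ω
  set F1 := ∑ f ∈ box x t \ box y ρ, ψ f * b f
  set F2 := ∑ f ∈ box y ρ, (ψ f - ψ y) * b f
  have key : 1 / 4 * (F1 + (F2 + ψ y * S)) - 1 / 4 * D + 2 / Real.pi * ψ y =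
      (1 / 4) * F1 + (1 / 4) * F2 + (1 / 4) * (ψ y * (S + 8 / Real.pi)) - (1 / 4) * D := by ring
  rw [key]
  rw [abs_le] at hfar hnear hcore hD ⊢
  constructor <;> linarith [hfar.1, hfar.2, hnear.1, hnear.2, hcore.1, hcore.2, hD.1, hD.2]

end Vale.Agent.P155.E
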