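import Vale.Agent.P155.E.Expand

/-!
# P155, block E: the local flux is `-8/π`
-/

namespace Vale.Agent.P155.E

open Finset Skel J

/-- replacement of a nearly plane inverse by the plane one in the core sum (owner helper862) -/
def E_replace : Prop := ∀ A, IsPlane A → ∃ C : ℝ, 0 ≤ C ∧ ∀ (G : Pt → Pt → ℝ) (y : Pt) (ρ : ℕ)
  (η : ℝ), 1 ≤ ρ → 0 ≤ η → η ≤ 1 → (∀ b w, Black b → White w → b ∈ box y (2 * ρ + 4) →
  w ∈ box y (2 * ρ + 4) → |G b w - Kp A b w| ≤ η) →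
  |coreSum G y ρ - coreSum (Kp A) y ρ| ≤ C * (ρ : ℝ) ^ 2 * η

variable {A : Pt → ℝ} {κ a C : ℝ} {R : ℕ} {T : Temp} {x : Pt} {n : ℕ} {ω : Conf}

theorem core_bound (hI : E_incr) (hM : E_meas) (hCov : E_cov) (hC0 : 0 ≤ C)
    (hC : ∀ (T : Temp) (x : Pt) (n : ℕ), 1 ≤ n →
    2 * n ≤ dF T.faceSet x → ∀ ω ∈ DD T.V, badI A T κ x n ω = 0 →
    |cEx T.V (XB T x n) (lh x) ω| ≤ C * (n : ℝ) ^ (-3 + 4 * κ))
    {C1 C2 : ℝ}
    (hRep : ∀ (G : Pt → Pt → ℝ) (y : Pt) (ρ : ℕ)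
      (η : ℝ), 1 ≤ ρ → 0 ≤ η → η ≤ 1 → (∀ b w, Black b → White w → b ∈ box y (2 * ρ + 4) →
      w ∈ box y (2 * ρ + 4) → |G b w - Kp A b w| ≤ η) →
      |coreSum G y ρ - coreSum (Kp A) y ρ| ≤ C1 * (ρ : ℝ) ^ 2 * η)
    (hConst : ∀ (y : Pt) (ρ : ℕ), 1 ≤ ρ →
      |coreSum (Kp A) y ρ + 4 / Real.pi| ≤ C2 * (ρ : ℝ) ^ (-(1 / 2) : ℝ))
    (hκ : 0 < κ) (hκ' : κ < 1 / 10) (hR1 : 1 ≤ R) (hf : Fits T R) (hdF : 2 * n ≤ dF T.faceSet x)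
    (hω : ω ∈ DD T.V) (hG : Gd A T κ a R x n ω) (hn : 1 ≤ n) {y : Pt} {ρ m : ℕ} (hρ : 1 ≤ ρ)
    (hmρ : m + 1 = ρ) (hm1 : 1 ≤ m) (hma : (R : ℝ) ^ a ≤ m)
    (hy : dn x y + 4 * ρ + 8 ≤ n)
    (hy2 : dn x y + 2 * ρ + 4 ≤ ⌊(n : ℝ) ^ (1 - κ) / 20⌋₊) :
    |cCov T.V (XB T x n) (fun ω' => ∑ f ∈ box y ρ, lh f ω') (hR y) ω + 8 / Real.pi| ≤
      2 * C1 * (ρ : ℝ) ^ 2 * (n : ℝ) ^ (-1 + 2 * κ) + 2 * C2 * (ρ : ℝ) ^ (-(1 / 2) : ℝ) +
      9 * (ρ : ℝ) ^ 2 * ((C + 8) * (R : ℝ) ^ (κ / 4) * (m : ℝ) ^ (-3 + 4 * κ)) := by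
  have hn' : (1 : ℝ) ≤ n := by exact_mod_cast hn
  set y0 : Pt := (y.1 + 2 * ρ, y.2) with hy0
  have hdy0 : dn y y0 ≤ 2 * ρ := by
    rw [dn_le_iff, mem_box, hy0]
    push_cast
    refine ⟨by linarith, by linarith, by linarith, by linarith⟩
  have e0 : cCov T.V (XB T x n) (fun ω' => ∑ f ∈ box y ρ, lh f ω') (hR y) ω =
      cCov T.V (XB T x n) (fun ω' => ∑ f ∈ box y ρ, lh f ω')
        (fun ω' => hR y ω' - hR y0 ω') ω +
      cCov T.V (XB T x n) (fun ω' => ∑ f ∈ box y ρ, lh f ω') (hR y0) ω := by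
    rw [cCov_sub_right]; ring
  have e1 := cov_flux_path hI hCov hdF hω y ρ (by omega)
  -- goodness
  have hη : (n : ℝ) ^ (-1 + 2 * κ) ≤ 1 :=
    Real.rpow_le_one_of_one_le_of_nonpos hn' (by linarith)
  have hgood : ∀ m' : Pt → Pt, GoodM A T κ κ x n m' →
      |coreSum (Kinv (Vin T.V (box x n) m')) y ρ - coreSum (Kp A) y ρ| ≤
        C1 * (ρ : ℝ) ^ 2 * (n : ℝ) ^ (-1 + 2 * κ) := by
    intro m' hgm
    apply hRep _ _ _ _ hρ (by positivity) hη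
    intro b w hb hw hbb hwb
    have hin : ∀ v, v ∈ box y (2 * ρ + 4) → v ∈ box x ⌊(n : ℝ) ^ (1 - κ) / 20⌋₊ := by
      intro v hv
      have hsub := box_sub (x := x) (f := y) (m := 2 * ρ + 4)
        (n := ⌊(n : ℝ) ^ (1 - κ) / 20⌋₊) (by omega)
      exact_mod_cast hsub hv
    have := hgm b w hb hw (hin b hbb) (hin w hwb)
    rwa [show -1 + κ + κ = -1 + 2 * κ by ring] at this
  have g1 := hgood ω.1 hG.good1
  have g2 := hgood ω.2 hG.good2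
  have g3 := hConst y ρ hρ
  -- the far reference point
  have e2 : |cCov T.V (XB T x n) (fun ω' => ∑ f ∈ box y ρ, lh f ω') (hR y0) ω| ≤
      9 * (ρ : ℝ) ^ 2 * ((C + 8) * (R : ℝ) ^ (κ / 4) * (m : ℝ) ^ (-3 + 4 * κ)) := by
    rw [cCov_sum_left]
    have h1 : ∀ f ∈ box y ρ, |cCov T.V (XB T x n) (lh f) (hR y0) ω| ≤
        (C + 8) * (R : ℝ) ^ (κ / 4) * (m : ℝ) ^ (-3 + 4 * κ) := by
      intro f hfb
      have hd1 : dn y f ≤ ρ := dn_le_iff.2 hfb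
      have hd2 := dn_triangle x y f
      have hd3 := dn_triangle x y y0
      have hd4 : m < dn f y0 := by
        rw [mem_box] at hfb
        by_contra hc
        have hc' : dn f y0 ≤ m := not_lt.1 hc
        rw [dn_le_iff, mem_box, hy0] at hc'
        simp only at hc'
        have : (m : ℤ) + 1 = ρ := by exact_mod_cast hmρ
        linarith [hc'.2.1, hfb.2.1]
      exact cov_lh hI hM hC0 hC hκ hR1 hf hdF hω hG (by omega) hma hm1 hd4 (by omega)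
    refine (Finset.abs_sum_le_sum_abs _ _).trans ((Finset.sum_le_sum h1).trans ?_)
    rw [Finset.sum_const, nsmul_eq_mul, card_box]
    apply mul_le_mul_of_nonneg_right _ (by positivity)
    push_cast
    have hρ' : (1 : ℝ) ≤ ρ := by exact_mod_cast hρ
    nlinarith
  rw [e0, e1]
  have key : coreSum (Kinv (Vin T.V (box x n) ω.1)) y ρ +
      coreSum (Kinv (Vin T.V (box x n) ω.2)) y ρ +
      cCov T.V (XB T x n) (fun ω' => ∑ f ∈ box y ρ, lh f ω') (hR y0) ω + 8 / Real.pi =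
      (coreSum (Kinv (Vin T.V (box x n) ω.1)) y ρ - coreSum (Kp A) y ρ) +
      (coreSum (Kinv (Vin T.V (box x n) ω.2)) y ρ - coreSum (Kp A) y ρ) +
      2 * (coreSum (Kp A) y ρ + 4 / Real.pi) +
      cCov T.V (XB T x n) (fun ω' => ∑ f ∈ box y ρ, lh f ω') (hR y0) ω := by ring
  rw [key]
  rw [abs_le] at g1 g2 g3 e2 ⊢
  constructor <;> linarith [g1.1, g1.2, g2.1, g2.2, g3.1, g3.2, e2.1, e2.2]

end Vale.Agent.P155.E
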