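import Vale.Agent.P155.E.Iface
import Vale.Agent.P155.E1.Glue
import Vale.Agent.P155.E1.Interior

/-!
# P155, block E: conditional covariances of the increments of the height
-/

namespace Vale.Agent.P155.E

open Finset Skel

/-- indicator that `w` is matched with `b` -/
noncomputable def ind (w b : Pt) (m : Pt → Pt) : ℝ := by classical exact if m w = b then 1 else 0

theorem ind_def (w b : Pt) (m : Pt → Pt) [Decidable (m w = b)] :
    ind w b m = if m w = b then 1 else 0 := by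
  unfold ind; congr

theorem adj_up (v : Pt) : Adj v (v.1, v.2 + 1) := by unfold Adj; simp

theorem adj_right (v : Pt) : Adj v (v.1 + 1, v.2) := by unfold Adj; simp

theorem white_up {v : Pt} : White (v.1, v.2 + 1) ↔ ¬ White v := by
  unfold White; simp only; rw [Int.odd_iff, Int.odd_iff]; omega

theorem white_right {v : Pt} : White (v.1 + 1, v.2) ↔ ¬ White v := by
  unfold White; simp only; rw [Int.odd_iff, Int.odd_iff]; omega

theorem adj_comm' {u v : Pt} : Adj u v ↔ Adj v u := by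
  unfold Adj; rw [abs_sub_comm u.1, abs_sub_comm u.2]

theorem vW_white (v : Pt) : White (vW v) := by
  unfold vW; split_ifs with h
  · exact h
  · exact white_up.2 h

theorem hW_white (v : Pt) : White (hW v) := by
  unfold hW; split_ifs with h
  · exact h
  · exact white_right.2 h

theorem v_adj (v : Pt) : Adj (vW v) (vB v) := by
  unfold vW vB; split_ifs with h
  · exact adj_up v
  · exact adj_comm'.1 (adj_up v)

theorem h_adj (v : Pt) : Adj (hW v) (hB v) := by
  unfold hW hB; split_ifs with h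
  · exact adj_right v
  · exact adj_comm'.1 (adj_right v)

theorem iv_eq {V : Finset Pt} {m : Pt → Pt} (hm : IsPM V m) (v : Pt) :
    iv m v = ind (vW v) (vB v) m := by
  classical
  unfold iv; rw [ind_def]
  unfold vW vB
  by_cases h : White v
  · simp [h]
  · simp only [h, if_false]
    congr 1
    apply propext
    constructor
    · intro e; rw [← e, hm.invol]
    · intro e; rw [← hm.invol (v.1, v.2 + 1), e]

theorem ih_eq {V : Finset Pt} {m : Pt → Pt} (hm : IsPM V m) (v : Pt) :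
    ih m v = ind (hW v) (hB v) m := by
  classical
  unfold ih; rw [ind_def]
  unfold hW hB
  by_cases h : White v
  · simp [h]
  · simp only [h, if_false]
    congr 1
    apply propext
    constructor
    · intro e; rw [← e, hm.invol]
    · intro e; rw [← hm.invol (v.1 + 1, v.2), e]

theorem Ex1_congr {V : Finset Pt} {g g' : (Pt → Pt) → ℝ} (h : ∀ m ∈ PM V, g m = g' m) :
    Ex1 V g = Ex1 V g' := by
  unfold Ex1
  rw [sum_congr rfl h]

theorem Ex1_zero (V : Finset Pt) : Ex1 V (fun _ => 0) = 0 := by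
  unfold Ex1; simp

/-- one copy: the covariance of two edge indicators -/
theorem cov_ind (h1 : A_one) (h2 : A_two) {T : Temp} {V : Finset Pt} (hV : Sub T V)
    {w b w' b' : Pt} (hw : w ∈ V) (hb : b ∈ V) (hw' : w' ∈ V) (hb' : b' ∈ V) (hW : White w)
    (hW' : White w') (ha : Adj w b) (ha' : Adj w' b') :
    Ex1 V (fun m => ind w b m * ind w' b' m) - Ex1 V (ind w b) * Ex1 V (ind w' b') =
      eCov (Kinv V) w b w' b' := by
  classical
  have e1 : Ex1 V (ind w b) = K w b * Kinv V b w := by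
    rw [← h1 T V hV w b hW hw hb ha]
    apply Ex1_congr; intro m _; rw [ind_def]
  have e2 : Ex1 V (ind w' b') = K w' b' * Kinv V b' w' := by
    rw [← h1 T V hV w' b' hW' hw' hb' ha']
    apply Ex1_congr; intro m _; rw [ind_def]
  rw [e1, e2]
  unfold eCov
  by_cases hww : w = w'
  · subst hww
    by_cases hbb : b = b'
    · subst hbb
      have e3 : Ex1 V (fun m => ind w b m * ind w b m) = Ex1 V (ind w b) := by
        apply Ex1_congr; intro m _; rw [ind_def]; split_ifs <;> simp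
      rw [e3, e1]
      simp only [and_self, if_true]
      ring
    · have e3 : Ex1 V (fun m => ind w b m * ind w b' m) = 0 := by
        rw [← Ex1_zero V]
        apply Ex1_congr; intro m _; rw [ind_def, ind_def]
        by_cases h : m w = b
        · have h' : m w ≠ b' := fun h' => hbb (h.symm.trans h')
          simp [h']
        · simp [h]
      rw [e3]
      simp only [true_and, hbb, if_false]
      ring
  · have e3 : Ex1 V (fun m => ind w b m * ind w' b' m) =
        K w b * K w' b' * (Kinv V b w * Kinv V b' w' - Kinv V b w' * Kinv V b' w) := by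
      rw [← h2 T V hV w b w' b' hW hW' hw hb hw' hb' ha ha' hww]
      apply Ex1_congr; intro m _; rw [ind_def, ind_def]
      by_cases h : m w = b <;> by_cases h' : m w' = b' <;> simp [h, h']
    rw [e3]
    simp only [hww, false_and, if_false]
    ring

theorem cov_prod {α β : Type*} {s : Finset α} {t : Finset β} (hs : s.Nonempty) (ht : t.Nonempty)
    (c c' : ℝ) (a a' : α → ℝ) (b b' : β → ℝ) :
    J.avg (s ×ˢ t) (fun p => (c * (a p.1 - b p.2)) * (c' * (a' p.1 - b' p.2))) -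
      J.avg (s ×ˢ t) (fun p => c * (a p.1 - b p.2)) * J.avg (s ×ˢ t) (fun p => c' * (a' p.1 - b' p.2))
    = c * c' * (J.avg s (fun x => a x * a' x) - J.avg s a * J.avg s a') +
      c * c' * (J.avg t (fun x => b x * b' x) - J.avg t b * J.avg t b') := by
  have e1 : J.avg (s ×ˢ t) (fun p => (c * (a p.1 - b p.2)) * (c' * (a' p.1 - b' p.2))) =
      c * c' * (J.avg s (fun x => a x * a' x) - J.avg s a * J.avg t b' - J.avg s a' * J.avg t b +
        J.avg t (fun x => b x * b' x)) := by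
    have h1 : (fun p : α × β => (c * (a p.1 - b p.2)) * (c' * (a' p.1 - b' p.2))) =
        fun p => (c * c') * (((a p.1 * a' p.1) - (a p.1 * b' p.2)) - (a' p.1 * b p.2) +
          (b p.2 * b' p.2)) := by funext p; ring
    rw [h1, J.avg_mul_left]
    congr 1
    rw [J.avg_add (s ×ˢ t) (fun p : α × β => ((a p.1 * a' p.1) - (a p.1 * b' p.2)) - (a' p.1 * b p.2))
      (fun p => b p.2 * b' p.2),
      J.avg_sub (s ×ˢ t) (fun p : α × β => (a p.1 * a' p.1) - (a p.1 * b' p.2))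
        (fun p => a' p.1 * b p.2),
      J.avg_sub (s ×ˢ t) (fun p : α × β => a p.1 * a' p.1) (fun p => a p.1 * b' p.2),
      E1.avg_prod_fst ht (fun x => a x * a' x), E1.avg_prod_snd hs (fun x => b x * b' x),
      E1.avg_prod_mul s t a b', E1.avg_prod_mul s t a' b]
  have e2 : ∀ (d : ℝ) (f : α → ℝ) (g : β → ℝ), J.avg (s ×ˢ t) (fun p => d * (f p.1 - g p.2)) =
      d * (J.avg s f - J.avg t g) := by
    intro d f g
    rw [J.avg_mul_left, J.avg_sub (s ×ˢ t) (fun p : α × β => f p.1) (fun p => g p.2),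
      E1.avg_prod_fst ht f, E1.avg_prod_snd hs g]
  rw [e1, e2, e2]
  ring

theorem dn_lt_mem {x v : Pt} {n : ℕ} (h : dn x v ≤ n) : v ∈ box x n := E1.dn_le_iff'.1 h

theorem dn_adj {x u v : Pt} (h : Adj u v) : dn x v ≤ dn x u + 1 := by
  unfold Adj at h
  unfold dn dinf
  have h1 := abs_nonneg (u.1 - v.1)
  have h2 := abs_nonneg (u.2 - v.2)
  have h3 : |x.1 - v.1| ≤ |x.1 - u.1| + |u.1 - v.1| := abs_sub_le _ _ _
  have h4 : |x.2 - v.2| ≤ |x.2 - u.2| + |u.2 - v.2| := abs_sub_le _ _ _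
  omega

/-- points well inside the box are in `Vin` -/
theorem mem_Vin_of {T : Temp} {x v : Pt} {n : ℕ} (hn : 2 * n ≤ dF T.faceSet x) {m : Pt → Pt}
    (hm : IsPM T.V m) (hv : dn x v + 1 ≤ n) : v ∈ Vin T.V (box x n) m := by
  have hvV : v ∈ T.V := by
    apply E1.mem_V_of_dF (x := x) (n := n - 1)
    · omega
    · exact dn_lt_mem (by omega)
  rw [E1.mem_Vin]
  refine ⟨hvV, dn_lt_mem (by omega), dn_lt_mem ?_⟩
  have := dn_adj (x := x) (hm.adj v hvV)
  omega

theorem vW_cases (v : Pt) : (vW v = v ∧ vB v = (v.1, v.2 + 1)) ∨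
    (vW v = (v.1, v.2 + 1) ∧ vB v = v) := by
  unfold vW vB; split_ifs <;> simp

theorem hW_cases (v : Pt) : (hW v = v ∧ hB v = (v.1 + 1, v.2)) ∨
    (hW v = (v.1 + 1, v.2) ∧ hB v = v) := by
  unfold hW hB; split_ifs <;> simp

theorem v_mem {T : Temp} {x v : Pt} {n : ℕ} (hn : 2 * n ≤ dF T.faceSet x) {m : Pt → Pt}
    (hm : IsPM T.V m) (hv : dn x v + 2 ≤ n) :
    vW v ∈ Vin T.V (box x n) m ∧ vB v ∈ Vin T.V (box x n) m := by
  have h1 : v ∈ Vin T.V (box x n) m := mem_Vin_of hn hm (by omega)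
  have h2 : (v.1, v.2 + 1) ∈ Vin T.V (box x n) m :=
    mem_Vin_of hn hm (by have := dn_adj (x := x) (adj_up v); omega)
  rcases vW_cases v with ⟨a, b⟩ | ⟨a, b⟩ <;> rw [a, b] <;> constructor <;> assumption

theorem h_mem {T : Temp} {x v : Pt} {n : ℕ} (hn : 2 * n ≤ dF T.faceSet x) {m : Pt → Pt}
    (hm : IsPM T.V m) (hv : dn x v + 2 ≤ n) :
    hW v ∈ Vin T.V (box x n) m ∧ hB v ∈ Vin T.V (box x n) m := by
  have h1 : v ∈ Vin T.V (box x n) m := mem_Vin_of hn hm (by omega)
  have h2 : (v.1 + 1, v.2) ∈ Vin T.V (box x n) m :=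
    mem_Vin_of hn hm (by have := dn_adj (x := x) (adj_right v); omega)
  rcases hW_cases v with ⟨a, b⟩ | ⟨a, b⟩ <;> rw [a, b] <;> constructor <;> assumption

theorem sub_Vin {T : Temp} {B : Finset Pt} {m : Pt → Pt} (hm : m ∈ PM T.V) :
    Sub T (Vin T.V B m) :=
  ⟨m, hm, fun _ hv => ⟨(E1.mem_Vin.1 hv).1, E1.Vin_closed (mem_PM.1 hm) hv⟩⟩

/-- the conditional covariance of `c (1_{wb}(m₁) - 1_{wb}(m₂))` and the same for `w'b'` -/
theorem cCov_edges (h1 : A_one) (h2 : A_two) {T : Temp} {x : Pt} {n : ℕ} {ω : Conf}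
    (hω : ω ∈ DD T.V) {w b w' b' : Pt} (hW : White w) (hW' : White w') (ha : Adj w b)
    (ha' : Adj w' b')
    (hm1 : w ∈ Vin T.V (box x n) ω.1 ∧ b ∈ Vin T.V (box x n) ω.1)
    (hm2 : w ∈ Vin T.V (box x n) ω.2 ∧ b ∈ Vin T.V (box x n) ω.2)
    (hm1' : w' ∈ Vin T.V (box x n) ω.1 ∧ b' ∈ Vin T.V (box x n) ω.1)
    (hm2' : w' ∈ Vin T.V (box x n) ω.2 ∧ b' ∈ Vin T.V (box x n) ω.2) (c c' : ℝ) :
    cCov T.V (XB T x n) (fun ω' => c * (ind w b ω'.1 - ind w b ω'.2))
      (fun ω' => c' * (ind w' b' ω'.1 - ind w' b' ω'.2)) ω =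
    c * c' * eCov (Kinv (Vin T.V (box x n) ω.1)) w b w' b' +
      c * c' * eCov (Kinv (Vin T.V (box x n) ω.2)) w b w' b' := by
  classical
  have hPM1 := (mem_product.1 hω).1
  have hPM2 := (mem_product.1 hω).2
  unfold cCov XB
  rw [E1.cEx_outside_eq hω, E1.cEx_outside_eq hω, E1.cEx_outside_eq hω]
  have hg1 : ∀ p : Conf, ∀ u ∈ Vin T.V (box x n) ω.1, ∀ z,
      ind u z (E1.glue2 T.V (box x n) ω p).1 = ind u z p.1 := by
    intro p u hu z
    rw [ind_def, ind_def]
    have : (E1.glue2 T.V (box x n) ω p).1 u = p.1 u := E1.glue_mem hu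
    rw [this]
  have hg2 : ∀ p : Conf, ∀ u ∈ Vin T.V (box x n) ω.2, ∀ z,
      ind u z (E1.glue2 T.V (box x n) ω p).2 = ind u z p.2 := by
    intro p u hu z
    rw [ind_def, ind_def]
    have : (E1.glue2 T.V (box x n) ω p).2 u = p.2 u := E1.glue_mem hu
    rw [this]
  simp only [hg1 _ _ hm1.1, hg2 _ _ hm2.1, hg1 _ _ hm1'.1, hg2 _ _ hm2'.1]
  have key := cov_prod (E1.PM_Vin_nonempty (B := box x n) (mem_PM.1 hPM1))
    (E1.PM_Vin_nonempty (B := box x n) (mem_PM.1 hPM2)) c c' (ind w b) (ind w' b') (ind w b)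
    (ind w' b')
  rw [key]
  have c1 := cov_ind h1 h2 (sub_Vin (B := box x n) hPM1) hm1.1 hm1.2 hm1'.1 hm1'.2 hW hW' ha ha'
  have c2 := cov_ind h1 h2 (sub_Vin (B := box x n) hPM2) hm2.1 hm2.2 hm2'.1 hm2'.2 hW hW' ha ha'
  rw [E1.Ex1_eq_avg, E1.Ex1_eq_avg, E1.Ex1_eq_avg] at c1 c2
  rw [c1, c2]

theorem cCov_congr_dir {V : Finset Pt} {X : Expl} {g g' k k' : Conf → ℝ} {ω : Conf}
    (hg : ∀ ω' ∈ atom V X ω, g ω' = k ω') (hg' : ∀ ω' ∈ atom V X ω, g' ω' = k' ω') :
    cCov V X g g' ω = cCov V X k k' ω := by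
  unfold cCov
  rw [J.cEx_eq_avg, J.cEx_eq_avg, J.cEx_eq_avg, J.cEx_eq_avg, J.cEx_eq_avg, J.cEx_eq_avg,
    J.avg_congr (fun a ha => hg a ha), J.avg_congr (fun a ha => hg' a ha),
    J.avg_congr (g' := fun a => k a * k' a) (fun a ha => by rw [hg a ha, hg' a ha])]

theorem e_cov (h1 : A_one) (h2 : A_two) : E_cov := by
  intro T x n hn ω hω v v' hv hv'
  have hm1 : IsPM T.V ω.1 := mem_PM.1 (mem_product.1 hω).1
  have hm2 : IsPM T.V ω.2 := mem_PM.1 (mem_product.1 hω).2
  have hat : ∀ ω' ∈ atom T.V (XB T x n) ω, IsPM T.V ω'.1 ∧ IsPM T.V ω'.2 := by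
    intro ω' hω'
    have := mem_product.1 (J.atom_sub hω')
    exact ⟨mem_PM.1 this.1, mem_PM.1 this.2⟩
  constructor
  · rw [cCov_congr_dir (k := fun ω' => ss v * (ind (vW v) (vB v) ω'.1 - ind (vW v) (vB v) ω'.2))
      (k' := fun ω' => ss v' * (ind (vW v') (vB v') ω'.1 - ind (vW v') (vB v') ω'.2))
      (fun ω' hω' => by rw [iv_eq (hat ω' hω').1, iv_eq (hat ω' hω').2])
      (fun ω' hω' => by rw [iv_eq (hat ω' hω').1, iv_eq (hat ω' hω').2])]
    rw [cCov_edges h1 h2 hω (vW_white v) (vW_white v') (v_adj v) (v_adj v')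
      (v_mem hn hm1 hv) (v_mem hn hm2 hv) (v_mem hn hm1 hv') (v_mem hn hm2 hv')]
    rfl
  · rw [cCov_congr_dir (k := fun ω' => (-ss v) * (ind (hW v) (hB v) ω'.1 - ind (hW v) (hB v) ω'.2))
      (k' := fun ω' => ss v' * (ind (vW v') (vB v') ω'.1 - ind (vW v') (vB v') ω'.2))
      (fun ω' hω' => by rw [ih_eq (hat ω' hω').1, ih_eq (hat ω' hω').2]; ring)
      (fun ω' hω' => by rw [iv_eq (hat ω' hω').1, iv_eq (hat ω' hω').2])]
    rw [cCov_edges h1 h2 hω (hW_white v) (vW_white v') (h_adj v) (v_adj v')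
      (h_mem hn hm1 hv) (h_mem hn hm2 hv) (v_mem hn hm1 hv') (v_mem hn hm2 hv')]
    unfold cYX
    ring

end Vale.Agent.P155.E
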