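import Vale.Agent.P155.E.Mean

/-!
# P155, block E: the covariance of the flux through a box with a height difference
-/

namespace Vale.Agent.P155.E

open Finset Skel J

/-- increments of the height as functions of the configuration -/
noncomputable def XX (v : Pt) (ω : Conf) : ℝ := ss v * (iv ω.1 v - iv ω.2 v)
noncomputable def YY (v : Pt) (ω : Conf) : ℝ := - (ss v * (ih ω.1 v - ih ω.2 v))

theorem sum_Icc_succ (F : ℤ → ℝ) (ρ : ℕ) :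
    ∑ u ∈ Finset.Icc (-((ρ + 1 : ℕ) : ℤ)) ((ρ + 1 : ℕ) : ℤ), F u =
      ∑ u ∈ Finset.Icc (-(ρ : ℤ)) ρ, F u + F (ρ + 1) + F (-ρ - 1) := by
  have h : Finset.Icc (-((ρ + 1 : ℕ) : ℤ)) ((ρ + 1 : ℕ) : ℤ) =
      insert ((ρ : ℤ) + 1) (insert (-(ρ : ℤ) - 1) (Finset.Icc (-(ρ : ℤ)) ρ)) := by
    ext u
    simp only [Finset.mem_insert, Finset.mem_Icc]
    push_cast
    constructor
    · intro h
      by_cases h1 : u = (ρ : ℤ) + 1
      · exact Or.inl h1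
      · by_cases h2 : u = -(ρ : ℤ) - 1
        · exact Or.inr (Or.inl h2)
        · right; right; omega
    · rintro (h | h | h) <;> omega
  rw [h, Finset.sum_insert, Finset.sum_insert]
  · ring
  · simp only [Finset.mem_Icc]; omega
  · simp only [Finset.mem_insert, Finset.mem_Icc]; omega

theorem tele_two (g : ℤ → ℝ) (ρ : ℕ) :
    ∑ u ∈ Finset.Icc (-(ρ : ℤ)) ρ, (g (u + 2) + g (u - 2) - 2 * g u) =
      g (ρ + 2) + g (ρ + 1) - g ρ - g (ρ - 1) - g (-ρ + 1) - g (-ρ) + g (-ρ - 1) + g (-ρ - 2) := by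
  induction ρ with
  | zero => simp; ring
  | succ ρ ih =>
    rw [sum_Icc_succ (fun u => g (u + 2) + g (u - 2) - 2 * g u), ih]
    push_cast
    have e1 : (ρ : ℤ) + 1 + 2 = ρ + 3 := by ring
    have e2 : (ρ : ℤ) + 1 - 2 = ρ - 1 := by ring
    have e3 : -(ρ : ℤ) - 1 + 2 = -ρ + 1 := by ring
    have e4 : -(ρ : ℤ) - 1 - 2 = -ρ - 3 := by ring
    have e5 : (ρ : ℤ) + 1 + 1 = ρ + 2 := by ring
    have e6 : (ρ : ℤ) + 1 - 1 = ρ := by ring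
    have e7 : -(ρ : ℤ) - 1 + 1 = -ρ := by ring
    have e8 : -((ρ : ℤ) + 1) = -ρ - 1 := by ring
    have e9 : -(ρ : ℤ) - 1 - 1 = -ρ - 2 := by ring
    simp only [e1, e2, e3, e4, e5, e6, e7, e8, e9]
    ring

theorem tele_one (g : ℤ → ℝ) (N : ℕ) :
    ∑ j ∈ Finset.Icc (1 : ℤ) N, (g j - g (j - 1)) = g N - g 0 := by
  induction N with
  | zero => simp
  | succ N ih =>
    have h : Finset.Icc (1 : ℤ) ((N + 1 : ℕ) : ℤ) = insert ((N : ℤ) + 1) (Finset.Icc (1 : ℤ) N) := by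
      ext u
      simp only [Finset.mem_insert, Finset.mem_Icc]
      push_cast
      omega
    rw [h, Finset.sum_insert, ih]
    · push_cast
      have e : (N : ℤ) + 1 - 1 = N := by ring
      rw [e]; ring
    · simp only [Finset.mem_Icc]; omega

theorem sum_box (y : Pt) (ρ : ℕ) (F : Pt → ℝ) :
    ∑ f ∈ box y ρ, F f = ∑ v ∈ Finset.Icc (-(ρ : ℤ)) ρ, ∑ u ∈ Finset.Icc (-(ρ : ℤ)) ρ,
      F (y.1 + u, y.2 + v) := by
  unfold box
  rw [Finset.sum_product_right]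
  have e : ∀ (c : ℤ), Finset.Icc (c - (ρ : ℤ)) (c + ρ) =
      (Finset.Icc (-(ρ : ℤ)) ρ).image (fun u => c + u) := by
    intro c
    ext u
    simp only [Finset.mem_Icc, Finset.mem_image]
    constructor
    · intro h
      exact ⟨u - c, ⟨by omega, by omega⟩, by ring⟩
    · rintro ⟨w, hw, rfl⟩
      omega
  rw [e y.2, Finset.sum_image (fun a _ b _ h => by simpa using h)]
  refine Finset.sum_congr rfl (fun v _ => ?_)
  rw [e y.1, Finset.sum_image (fun a _ b _ h => by simpa using h)]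

section
variable {V : Finset Pt} {ω : Conf}

theorem hR_sub_x (hI : E_incr) (hω : ω ∈ DD V) (x y : ℤ) :
    hR (x, y) ω - hR (x - 1, y) ω = XX (x, y) ω := (hI V ω hω (x, y)).1

theorem hR_sub_y (hI : E_incr) (hω : ω ∈ DD V) (x y : ℤ) :
    hR (x, y) ω - hR (x, y - 1) ω = YY (x, y) ω := (hI V ω hω (x, y)).2

/-- the path -/
theorem path_eq (hI : E_incr) (hω : ω ∈ DD V) (y : Pt) (ρ : ℕ) :
    hR y ω - hR (y.1 + 2 * ρ, y.2) ω =
      - ∑ j ∈ Finset.Icc (1 : ℤ) (2 * ρ), XX (y.1 + j, y.2) ω := by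
  have h := tele_one (fun j => hR (y.1 + j, y.2) ω) (2 * ρ)
  push_cast at h
  have h2 : ∀ j : ℤ, hR (y.1 + j, y.2) ω - hR (y.1 + (j - 1), y.2) ω = XX (y.1 + j, y.2) ω := by
    intro j
    have := hR_sub_x hI hω (y.1 + j) y.2
    rwa [show y.1 + j - 1 = y.1 + (j - 1) by ring] at this
  simp only [h2] at h
  rw [h]
  simp

/-- the flux -/
theorem flux_eq (hI : E_incr) (hω : ω ∈ DD V) (y : Pt) (ρ : ℕ) :
    ∑ f ∈ box y ρ, lh f ω =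
      (∑ v ∈ Finset.Icc (-(ρ : ℤ)) ρ,
      (XX (y.1 + ρ + 2, y.2 + v) ω + 2 * XX (y.1 + ρ + 1, y.2 + v) ω
        + XX (y.1 + ρ, y.2 + v) ω - XX (y.1 - ρ + 1, y.2 + v) ω
        - 2 * XX (y.1 - ρ, y.2 + v) ω - XX (y.1 - ρ - 1, y.2 + v) ω)) +
     ∑ u ∈ Finset.Icc (-(ρ : ℤ)) ρ,
      (YY (y.1 + u, y.2 + ρ + 2) ω + 2 * YY (y.1 + u, y.2 + ρ + 1) ω
        + YY (y.1 + u, y.2 + ρ) ω - YY (y.1 + u, y.2 - ρ + 1) ω
        - 2 * YY (y.1 + u, y.2 - ρ) ω - YY (y.1 + u, y.2 - ρ - 1) ω) := by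
  rw [sum_box]
  have h1 : ∀ u v : ℤ, lh (y.1 + u, y.2 + v) ω =
      ((fun s : ℤ => hR (y.1 + s, y.2 + v) ω) (u + 2) +
        (fun s : ℤ => hR (y.1 + s, y.2 + v) ω) (u - 2) -
        2 * (fun s : ℤ => hR (y.1 + s, y.2 + v) ω) u) +
      ((fun s : ℤ => hR (y.1 + u, y.2 + s) ω) (v + 2) +
        (fun s : ℤ => hR (y.1 + u, y.2 + s) ω) (v - 2) -
        2 * (fun s : ℤ => hR (y.1 + u, y.2 + s) ω) v) := by
    intro u v
    unfold lh lap2 hR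
    dsimp only
    rw [show y.1 + u + 2 = y.1 + (u + 2) by ring, show y.1 + u - 2 = y.1 + (u - 2) by ring,
      show y.2 + v + 2 = y.2 + (v + 2) by ring, show y.2 + v - 2 = y.2 + (v - 2) by ring]
    ring
  simp only [h1, Finset.sum_add_distrib]
  congr 1
  · refine Finset.sum_congr rfl (fun v _ => ?_)
    have h2 := tele_two (fun s : ℤ => hR (y.1 + s, y.2 + v) ω) ρ
    rw [h2]
    have s : ∀ s : ℤ, hR (y.1 + s, y.2 + v) ω - hR (y.1 + (s - 1), y.2 + v) ω =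
        XX (y.1 + s, y.2 + v) ω := by
      intro s
      have := hR_sub_x hI hω (y.1 + s) (y.2 + v)
      rwa [show y.1 + s - 1 = y.1 + (s - 1) by ring] at this
    have a1 := s (ρ + 2)
    have a2 := s (ρ + 1)
    have a3 := s ρ
    have a4 := s (-ρ + 1)
    have a5 := s (-ρ)
    have a6 := s (-ρ - 1)
    rw [show (ρ : ℤ) + 2 - 1 = ρ + 1 by ring] at a1
    rw [show (ρ : ℤ) + 1 - 1 = ρ by ring] at a2
    rw [show -(ρ : ℤ) + 1 - 1 = -ρ by ring] at a4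
    rw [show -(ρ : ℤ) - 1 - 1 = -ρ - 2 by ring] at a6
    rw [show y.1 + (ρ : ℤ) + 2 = y.1 + (ρ + 2) by ring, show y.1 + (ρ : ℤ) + 1 = y.1 + (ρ + 1) by ring,
      show y.1 - (ρ : ℤ) + 1 = y.1 + (-ρ + 1) by ring, show y.1 - (ρ : ℤ) = y.1 + -ρ by ring,
      show y.1 + -(ρ : ℤ) - 1 = y.1 + (-ρ - 1) by ring]
    linarith
  · rw [Finset.sum_comm]
    refine Finset.sum_congr rfl (fun u _ => ?_)
    have h2 := tele_two (fun s : ℤ => hR (y.1 + u, y.2 + s) ω) ρ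
    rw [h2]
    have s : ∀ s : ℤ, hR (y.1 + u, y.2 + s) ω - hR (y.1 + u, y.2 + (s - 1)) ω =
        YY (y.1 + u, y.2 + s) ω := by
      intro s
      have := hR_sub_y hI hω (y.1 + u) (y.2 + s)
      rwa [show y.2 + s - 1 = y.2 + (s - 1) by ring] at this
    have a1 := s (ρ + 2)
    have a2 := s (ρ + 1)
    have a3 := s ρ
    have a4 := s (-ρ + 1)
    have a5 := s (-ρ)
    have a6 := s (-ρ - 1)
    rw [show (ρ : ℤ) + 2 - 1 = ρ + 1 by ring] at a1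
    rw [show (ρ : ℤ) + 1 - 1 = ρ by ring] at a2
    rw [show -(ρ : ℤ) + 1 - 1 = -ρ by ring] at a4
    rw [show -(ρ : ℤ) - 1 - 1 = -ρ - 2 by ring] at a6
    rw [show y.2 + (ρ : ℤ) + 2 = y.2 + (ρ + 2) by ring, show y.2 + (ρ : ℤ) + 1 = y.2 + (ρ + 1) by ring,
      show y.2 - (ρ : ℤ) + 1 = y.2 + (-ρ + 1) by ring, show y.2 - (ρ : ℤ) = y.2 + -ρ by ring,
      show y.2 + -(ρ : ℤ) - 1 = y.2 + (-ρ - 1) by ring]
    linarith

end

/-- the six terms of the horizontal flux through the two vertical sides, at height `v` -/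
theorem cov_flux_path (hI : E_incr) (hCov : E_cov) {T : Temp} {x : Pt} {n : ℕ} {ω : Conf}
    (hdF : 2 * n ≤ dF T.faceSet x) (hω : ω ∈ DD T.V) (y : Pt) (ρ : ℕ)
    (hy : dn x y + 2 * ρ + 4 ≤ n) :
    cCov T.V (XB T x n) (fun ω' => ∑ f ∈ box y ρ, lh f ω')
      (fun ω' => hR y ω' - hR (y.1 + 2 * ρ, y.2) ω') ω =
    coreSum (Kinv (Vin T.V (box x n) ω.1)) y ρ + coreSum (Kinv (Vin T.V (box x n) ω.2)) y ρ := by
  set G1 := Kinv (Vin T.V (box x n) ω.1)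
  set G2 := Kinv (Vin T.V (box x n) ω.2)
  have hnear : ∀ a b : ℤ, |a| ≤ 2 * ρ + 2 → |b| ≤ 2 * ρ + 2 → dn x (y.1 + a, y.2 + b) + 2 ≤ n := by
    intro a b ha hb
    have h1 : dn y (y.1 + a, y.2 + b) ≤ 2 * ρ + 2 := by
      rw [dn_le_iff, mem_box]
      rw [abs_le] at ha hb
      push_cast
      refine ⟨by linarith [ha.1], by linarith [ha.2], by linarith [hb.1], by linarith [hb.2]⟩
    have h2 := dn_triangle x y (y.1 + a, y.2 + b)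
    omega
  have hX : ∀ a b j : ℤ, |a| ≤ 2 * ρ + 2 → |b| ≤ 2 * ρ + 2 → 1 ≤ j → j ≤ 2 * ρ →
      cCov T.V (XB T x n) (XX (y.1 + a, y.2 + b)) (XX (y.1 + j, y.2)) ω =
      cXX G1 (y.1 + a, y.2 + b) (y.1 + j, y.2) + cXX G2 (y.1 + a, y.2 + b) (y.1 + j, y.2) := by
    intro a b j ha hb hj1 hj2
    have h1 := hnear j 0 (abs_le.2 ⟨by linarith, by linarith⟩) (by simp; positivity)
    rw [add_zero] at h1
    exact (hCov T x n hdF ω hω _ _ (hnear a b ha hb) h1).1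
  have hY : ∀ a b j : ℤ, |a| ≤ 2 * ρ + 2 → |b| ≤ 2 * ρ + 2 → 1 ≤ j → j ≤ 2 * ρ →
      cCov T.V (XB T x n) (YY (y.1 + a, y.2 + b)) (XX (y.1 + j, y.2)) ω =
      cYX G1 (y.1 + a, y.2 + b) (y.1 + j, y.2) + cYX G2 (y.1 + a, y.2 + b) (y.1 + j, y.2) := by
    intro a b j ha hb hj1 hj2
    have h1 := hnear j 0 (abs_le.2 ⟨by linarith, by linarith⟩) (by simp; positivity)
    rw [add_zero] at h1
    exact (hCov T x n hdF ω hω _ _ (hnear a b ha hb) h1).2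
  rw [cCov_congr (g' := fun ω' => (∑ v ∈ Finset.Icc (-(ρ : ℤ)) ρ,
      (XX (y.1 + ρ + 2, y.2 + v) ω' + 2 * XX (y.1 + ρ + 1, y.2 + v) ω'
        + XX (y.1 + ρ, y.2 + v) ω' - XX (y.1 - ρ + 1, y.2 + v) ω'
        - 2 * XX (y.1 - ρ, y.2 + v) ω' - XX (y.1 - ρ - 1, y.2 + v) ω')) +
     ∑ u ∈ Finset.Icc (-(ρ : ℤ)) ρ,
      (YY (y.1 + u, y.2 + ρ + 2) ω' + 2 * YY (y.1 + u, y.2 + ρ + 1) ω'
        + YY (y.1 + u, y.2 + ρ) ω' - YY (y.1 + u, y.2 - ρ + 1) ω'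
        - 2 * YY (y.1 + u, y.2 - ρ) ω' - YY (y.1 + u, y.2 - ρ - 1) ω'))
    (f' := fun ω' => - ∑ j ∈ Finset.Icc (1 : ℤ) (2 * ρ), XX (y.1 + j, y.2) ω')
    (fun ω' hω' => flux_eq hI (mem_atom.1 hω').1 y ρ)
    (fun ω' hω' => path_eq hI (mem_atom.1 hω').1 y ρ)]
  rw [cCov_neg_right, cCov_sum_right]
  unfold coreSum
  rw [← neg_add, ← Finset.sum_add_distrib]
  congr 1
  refine Finset.sum_congr rfl (fun j hj => ?_)
  rw [Finset.mem_Icc] at hj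
  rw [cCov_add_left, cCov_sum_left, cCov_sum_left]
  have e1 : ∀ v ∈ Finset.Icc (-(ρ : ℤ)) ρ, cCov T.V (XB T x n) (fun ω' =>
      (XX (y.1 + ρ + 2, y.2 + v) ω' + 2 * XX (y.1 + ρ + 1, y.2 + v) ω'
        + XX (y.1 + ρ, y.2 + v) ω' - XX (y.1 - ρ + 1, y.2 + v) ω'
        - 2 * XX (y.1 - ρ, y.2 + v) ω' - XX (y.1 - ρ - 1, y.2 + v) ω'))
        (XX (y.1 + j, y.2)) ω =
      (cXX G1 (y.1 + ρ + 2, y.2 + v) (y.1 + j, y.2) + 2 * cXX G1 (y.1 + ρ + 1, y.2 + v) (y.1 + j, y.2)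
        + cXX G1 (y.1 + ρ, y.2 + v) (y.1 + j, y.2) - cXX G1 (y.1 - ρ + 1, y.2 + v) (y.1 + j, y.2)
        - 2 * cXX G1 (y.1 - ρ, y.2 + v) (y.1 + j, y.2)
        - cXX G1 (y.1 - ρ - 1, y.2 + v) (y.1 + j, y.2)) +
      (cXX G2 (y.1 + ρ + 2, y.2 + v) (y.1 + j, y.2) + 2 * cXX G2 (y.1 + ρ + 1, y.2 + v) (y.1 + j, y.2)
        + cXX G2 (y.1 + ρ, y.2 + v) (y.1 + j, y.2) - cXX G2 (y.1 - ρ + 1, y.2 + v) (y.1 + j, y.2)
        - 2 * cXX G2 (y.1 - ρ, y.2 + v) (y.1 + j, y.2)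
        - cXX G2 (y.1 - ρ - 1, y.2 + v) (y.1 + j, y.2)) := by
    intro v hv
    rw [Finset.mem_Icc] at hv
    have hv' : |v| ≤ 2 * ρ + 2 := abs_le.2 ⟨by linarith, by linarith⟩
    have hρ : (0 : ℤ) ≤ ρ := Int.natCast_nonneg ρ
    rw [cCov_sub_left, cCov_sub_left, cCov_sub_left, cCov_add_left, cCov_add_left, cCov_mul_left,
      cCov_mul_left]
    have b1 := hX (ρ + 2) v j (abs_le.2 ⟨by linarith, by linarith⟩) hv' hj.1 hj.2
    have b2 := hX (ρ + 1) v j (abs_le.2 ⟨by linarith, by linarith⟩) hv' hj.1 hj.2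
    have b3 := hX ρ v j (abs_le.2 ⟨by linarith, by linarith⟩) hv' hj.1 hj.2
    have b4 := hX (-ρ + 1) v j (abs_le.2 ⟨by linarith, by linarith⟩) hv' hj.1 hj.2
    have b5 := hX (-ρ) v j (abs_le.2 ⟨by linarith, by linarith⟩) hv' hj.1 hj.2
    have b6 := hX (-ρ - 1) v j (abs_le.2 ⟨by linarith, by linarith⟩) hv' hj.1 hj.2
    rw [show y.1 + ((ρ : ℤ) + 2) = y.1 + ρ + 2 by ring] at b1
    rw [show y.1 + ((ρ : ℤ) + 1) = y.1 + ρ + 1 by ring] at b2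
    rw [show y.1 + (-(ρ : ℤ) + 1) = y.1 - ρ + 1 by ring] at b4
    rw [show y.1 + -(ρ : ℤ) = y.1 - ρ by ring] at b5
    rw [show y.1 + (-(ρ : ℤ) - 1) = y.1 - ρ - 1 by ring] at b6
    rw [b1, b2, b3, b4, b5, b6]
    ring
  have e2 : ∀ u ∈ Finset.Icc (-(ρ : ℤ)) ρ, cCov T.V (XB T x n) (fun ω' =>
      (YY (y.1 + u, y.2 + ρ + 2) ω' + 2 * YY (y.1 + u, y.2 + ρ + 1) ω'
        + YY (y.1 + u, y.2 + ρ) ω' - YY (y.1 + u, y.2 - ρ + 1) ω'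
        - 2 * YY (y.1 + u, y.2 - ρ) ω' - YY (y.1 + u, y.2 - ρ - 1) ω'))
        (XX (y.1 + j, y.2)) ω =
      (cYX G1 (y.1 + u, y.2 + ρ + 2) (y.1 + j, y.2) + 2 * cYX G1 (y.1 + u, y.2 + ρ + 1) (y.1 + j, y.2)
        + cYX G1 (y.1 + u, y.2 + ρ) (y.1 + j, y.2) - cYX G1 (y.1 + u, y.2 - ρ + 1) (y.1 + j, y.2)
        - 2 * cYX G1 (y.1 + u, y.2 - ρ) (y.1 + j, y.2)
        - cYX G1 (y.1 + u, y.2 - ρ - 1) (y.1 + j, y.2)) +
      (cYX G2 (y.1 + u, y.2 + ρ + 2) (y.1 + j, y.2) + 2 * cYX G2 (y.1 + u, y.2 + ρ + 1) (y.1 + j, y.2)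
        + cYX G2 (y.1 + u, y.2 + ρ) (y.1 + j, y.2) - cYX G2 (y.1 + u, y.2 - ρ + 1) (y.1 + j, y.2)
        - 2 * cYX G2 (y.1 + u, y.2 - ρ) (y.1 + j, y.2)
        - cYX G2 (y.1 + u, y.2 - ρ - 1) (y.1 + j, y.2)) := by
    intro u hu
    rw [Finset.mem_Icc] at hu
    have hu' : |u| ≤ 2 * ρ + 2 := abs_le.2 ⟨by linarith, by linarith⟩
    have hρ : (0 : ℤ) ≤ ρ := Int.natCast_nonneg ρ
    rw [cCov_sub_left, cCov_sub_left, cCov_sub_left, cCov_add_left, cCov_add_left, cCov_mul_left,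
      cCov_mul_left]
    have b1 := hY u (ρ + 2) j hu' (abs_le.2 ⟨by linarith, by linarith⟩) hj.1 hj.2
    have b2 := hY u (ρ + 1) j hu' (abs_le.2 ⟨by linarith, by linarith⟩) hj.1 hj.2
    have b3 := hY u ρ j hu' (abs_le.2 ⟨by linarith, by linarith⟩) hj.1 hj.2
    have b4 := hY u (-ρ + 1) j hu' (abs_le.2 ⟨by linarith, by linarith⟩) hj.1 hj.2
    have b5 := hY u (-ρ) j hu' (abs_le.2 ⟨by linarith, by linarith⟩) hj.1 hj.2
    have b6 := hY u (-ρ - 1) j hu' (abs_le.2 ⟨by linarith, by linarith⟩) hj.1 hj.2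
    rw [show y.2 + ((ρ : ℤ) + 2) = y.2 + ρ + 2 by ring] at b1
    rw [show y.2 + ((ρ : ℤ) + 1) = y.2 + ρ + 1 by ring] at b2
    rw [show y.2 + (-(ρ : ℤ) + 1) = y.2 - ρ + 1 by ring] at b4
    rw [show y.2 + -(ρ : ℤ) = y.2 - ρ by ring] at b5
    rw [show y.2 + (-(ρ : ℤ) - 1) = y.2 - ρ - 1 by ring] at b6
    rw [b1, b2, b3, b4, b5, b6]
    ring
  rw [Finset.sum_congr rfl e1, Finset.sum_congr rfl e2, Finset.sum_add_distrib,
    Finset.sum_add_distrib]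
  ring

end Vale.Agent.P155.E
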