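import Mathlib

/-!
# P155, block E: numerical facts for large `n`
-/

namespace Vale.Agent.P155.E

open Filter Topology

theorem eventually_pow_le {α β C : ℝ} (h : α < β) :
    ∀ᶠ n : ℕ in atTop, C * (n : ℝ) ^ α ≤ (n : ℝ) ^ β := by
  have h1 : Tendsto (fun n : ℕ => (n : ℝ) ^ (β - α)) atTop atTop :=
    (tendsto_rpow_atTop (by linarith)).comp tendsto_natCast_atTop_atTop
  filter_upwards [h1.eventually_ge_atTop C, eventually_gt_atTop 0] with n hn hn0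
  have hn0' : (0 : ℝ) < n := by exact_mod_cast hn0
  have : (n : ℝ) ^ β = (n : ℝ) ^ (β - α) * (n : ℝ) ^ α := by
    rw [← Real.rpow_add hn0']; congr 1; ring
  rw [this]
  exact mul_le_mul_of_nonneg_right hn (by positivity)

/-- the scales used for given `n`: `t = ⌊n^{1-3κ}⌋`, `ρ = ⌊n^{1/5}⌋`, `m = ρ - 1`, `m₂ = n / 2` -/
structure Sc (κ a : ℝ) (R n t ρ m m2 : ℕ) : Prop where
  t1 : 1 ≤ t
  tlo : (n : ℝ) ^ (1 - 3 * κ) ≤ 2 * t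
  thi : (t : ℝ) ≤ (n : ℝ) ^ (1 - 3 * κ)
  ρ1 : 1 ≤ ρ
  ρlo : (n : ℝ) ^ (1 / 5 : ℝ) ≤ 2 * ρ
  ρhi : (ρ : ℝ) ≤ (n : ℝ) ^ (1 / 5 : ℝ)
  mρ : m + 1 = ρ
  m1 : 1 ≤ m
  mlo : (n : ℝ) ^ (1 / 5 : ℝ) ≤ 2 * m
  ma : (R : ℝ) ^ (a / 10) ≤ m
  m21 : 1 ≤ m2
  m2lo : (n : ℝ) ≤ 4 * m2
  m2a : (R : ℝ) ^ (a / 10) ≤ m2
  ht2 : t + m2 ≤ n
  ht3 : t + 2 ≤ n
  hy1 : t + 4 * ρ + 8 ≤ n
  hy2 : t + 2 * ρ + 4 ≤ ⌊(n : ℝ) ^ (1 - κ) / 20⌋₊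

theorem exists_large {κ a : ℝ} (hκ : 0 < κ) (hκ' : κ < 1 / 100) : ∃ n0 : ℕ, 1 ≤ n0 ∧
    ∀ (R n : ℕ), n0 ≤ n → (R : ℝ) ^ a ≤ n →
    Sc κ a R n ⌊(n : ℝ) ^ (1 - 3 * κ)⌋₊ ⌊(n : ℝ) ^ (1 / 5 : ℝ)⌋₊ (⌊(n : ℝ) ^ (1 / 5 : ℝ)⌋₊ - 1)
      (n / 2) := by
  have e1 : ∀ᶠ n : ℕ in atTop, 100 * (n : ℝ) ^ (1 - 3 * κ) ≤ (n : ℝ) ^ (1 - κ) :=
    eventually_pow_le (by linarith)
  have e2 : ∀ᶠ n : ℕ in atTop, 400 * (n : ℝ) ^ (1 / 5 : ℝ) ≤ (n : ℝ) ^ (1 - κ) :=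
    eventually_pow_le (by linarith)
  have e3 : ∀ᶠ n : ℕ in atTop, 8 * (n : ℝ) ^ (0 : ℝ) ≤ (n : ℝ) ^ (1 / 5 : ℝ) :=
    eventually_pow_le (by norm_num)
  have e4 : ∀ᶠ n : ℕ in atTop, 4 * (n : ℝ) ^ (1 / 10 : ℝ) ≤ (n : ℝ) ^ (1 / 5 : ℝ) :=
    eventually_pow_le (by norm_num)
  have e5 : ∀ᶠ n : ℕ in atTop, 2 * (n : ℝ) ^ (0 : ℝ) ≤ (n : ℝ) ^ (1 - 3 * κ) :=
    eventually_pow_le (by linarith)
  obtain ⟨n0, hn0⟩ := eventually_atTop.1 (e1.and (e2.and (e3.and (e4.and e5))))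
  refine ⟨max n0 4, by omega, ?_⟩
  intro R n hn hR
  obtain ⟨h1, h2, h3, h4, h5⟩ := hn0 n (le_trans (le_max_left _ _) hn)
  have hn4 : 4 ≤ n := le_trans (le_max_right _ _) hn
  have hnr : (4 : ℝ) ≤ n := by exact_mod_cast hn4
  have hn1 : (1 : ℝ) ≤ n := by linarith
  rw [Real.rpow_zero] at h3 h5
  set t := ⌊(n : ℝ) ^ (1 - 3 * κ)⌋₊ with ht
  set ρ := ⌊(n : ℝ) ^ (1 / 5 : ℝ)⌋₊ with hρ
  have t1 : (t : ℝ) ≤ (n : ℝ) ^ (1 - 3 * κ) := Nat.floor_le (by positivity)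
  have t2 : (n : ℝ) ^ (1 - 3 * κ) < t + 1 := Nat.lt_floor_add_one _
  have r1 : (ρ : ℝ) ≤ (n : ℝ) ^ (1 / 5 : ℝ) := Nat.floor_le (by positivity)
  have r2 : (n : ℝ) ^ (1 / 5 : ℝ) < ρ + 1 := Nat.lt_floor_add_one _
  have hkn : (n : ℝ) ^ (1 - κ) ≤ n := by
    calc (n : ℝ) ^ (1 - κ) ≤ (n : ℝ) ^ (1 : ℝ) :=
          Real.rpow_le_rpow_of_exponent_le hn1 (by linarith)
      _ = n := Real.rpow_one _
  have ρ7 : (7 : ℝ) < ρ := by linarith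
  have ρ7' : 7 < ρ := by exact_mod_cast ρ7
  have t1' : (1 : ℝ) < t := by linarith
  have t1'' : 1 < t := by exact_mod_cast t1'
  have hm : (((ρ - 1 : ℕ)) : ℝ) = (ρ : ℝ) - 1 := by
    rw [Nat.cast_sub (by omega)]; norm_num
  have hR0 : (0 : ℝ) ≤ R := Nat.cast_nonneg R
  have hRa : (R : ℝ) ^ (a / 10) ≤ (n : ℝ) ^ (1 / 10 : ℝ) := by
    have : (R : ℝ) ^ (a / 10) = ((R : ℝ) ^ a) ^ (1 / 10 : ℝ) := by
      rw [← Real.rpow_mul hR0]; congr 1; ring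
    rw [this]
    exact Real.rpow_le_rpow (by positivity) hR (by norm_num)
  have hn2 : ((n / 2 : ℕ) : ℝ) ≤ n / 2 := Nat.cast_div_le
  have hn2' : n ≤ 4 * (n / 2) := by omega
  have hn2'' : (n : ℝ) ≤ 4 * ((n / 2 : ℕ) : ℝ) := by exact_mod_cast hn2'
  have h10 : (n : ℝ) ^ (1 / 5 : ℝ) ≤ n := by
    calc (n : ℝ) ^ (1 / 5 : ℝ) ≤ (n : ℝ) ^ (1 : ℝ) :=
          Real.rpow_le_rpow_of_exponent_le hn1 (by norm_num)
      _ = n := Real.rpow_one _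
  refine ⟨by omega, by linarith, t1, by omega, by linarith, r1, by omega, by omega, ?_, ?_, by omega,
    hn2'', ?_, ?_, ?_, ?_, ?_⟩
  · rw [hm]; linarith
  · rw [hm]; linarith
  · linarith
  · have : ((t + n / 2 : ℕ) : ℝ) ≤ n := by push_cast; linarith
    exact_mod_cast this
  · have : ((t + 2 : ℕ) : ℝ) ≤ n := by push_cast; linarith
    exact_mod_cast this
  · have : ((t + 4 * ρ + 8 : ℕ) : ℝ) ≤ n := by push_cast; linarith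
    exact_mod_cast this
  · apply Nat.le_floor
    push_cast
    linarith

section bounds
variable {κ a : ℝ} {R n t ρ m m2 : ℕ}

theorem Sc.b1 (h : Sc κ a R n t ρ m m2) (hn : 1 ≤ n) :
    (ρ : ℝ) ^ (-(1 / 2) : ℝ) ≤ 2 * (n : ℝ) ^ (-(1 / 20) : ℝ) := by
  have hn' : (1 : ℝ) ≤ n := by exact_mod_cast hn
  have hρ : (0 : ℝ) < ρ := by exact_mod_cast h.ρ1
  have h1 : (n : ℝ) ^ (1 / 5 : ℝ) / 2 ≤ ρ := by linarith [h.ρlo]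
  calc (ρ : ℝ) ^ (-(1 / 2) : ℝ) ≤ ((n : ℝ) ^ (1 / 5 : ℝ) / 2) ^ (-(1 / 2) : ℝ) :=
        Real.rpow_le_rpow_of_nonpos (by positivity) h1 (by norm_num)
    _ = (n : ℝ) ^ (-(1 / 10) : ℝ) / (2 : ℝ) ^ (-(1 / 2) : ℝ) := by
        rw [Real.div_rpow (by positivity) (by norm_num), ← Real.rpow_mul (by positivity)]
        norm_num
    _ ≤ 2 * (n : ℝ) ^ (-(1 / 20) : ℝ) := by
        rw [Real.rpow_neg (by norm_num : (0 : ℝ) ≤ 2), div_inv_eq_mul, mul_comm]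
        apply mul_le_mul _ _ (by positivity) (by norm_num)
        · calc (2 : ℝ) ^ (1 / 2 : ℝ) ≤ (2 : ℝ) ^ (1 : ℝ) :=
                Real.rpow_le_rpow_of_exponent_le (by norm_num) (by norm_num)
            _ = 2 := Real.rpow_one _
        · exact Real.rpow_le_rpow_of_exponent_le hn' (by norm_num)

theorem Sc.m2pow (h : Sc κ a R n t ρ m m2) (hn : 1 ≤ n) (hκ : 0 < κ) (hκ' : κ < 1 / 100) :
    (m2 : ℝ) ^ (-3 + 4 * κ) ≤ 64 * (n : ℝ) ^ (-3 + 4 * κ) := by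
  have hn' : (1 : ℝ) ≤ n := by exact_mod_cast hn
  have h1 : (n : ℝ) / 4 ≤ m2 := by linarith [h.m2lo]
  calc (m2 : ℝ) ^ (-3 + 4 * κ) ≤ ((n : ℝ) / 4) ^ (-3 + 4 * κ) :=
        Real.rpow_le_rpow_of_nonpos (by positivity) h1 (by linarith)
    _ = (n : ℝ) ^ (-3 + 4 * κ) * (4 : ℝ) ^ (3 - 4 * κ) := by
        rw [Real.div_rpow (by positivity) (by norm_num), div_eq_mul_inv,
          ← Real.rpow_neg (by norm_num)]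
        congr 2; ring
    _ ≤ (n : ℝ) ^ (-3 + 4 * κ) * 64 := by
        apply mul_le_mul_of_nonneg_left _ (by positivity)
        calc (4 : ℝ) ^ (3 - 4 * κ) ≤ (4 : ℝ) ^ (3 : ℝ) :=
              Real.rpow_le_rpow_of_exponent_le (by norm_num) (by linarith)
          _ = 64 := by norm_num
    _ = _ := by ring

theorem Sc.tsq (h : Sc κ a R n t ρ m m2) (hn : 1 ≤ n) :
    (2 * (t : ℝ) + 1) ^ 2 ≤ 9 * (n : ℝ) ^ (2 - 6 * κ) := by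
  have hn' : (1 : ℝ) ≤ n := by exact_mod_cast hn
  have ht : (1 : ℝ) ≤ t := by exact_mod_cast h.t1
  have h1 : 2 * (t : ℝ) + 1 ≤ 3 * (n : ℝ) ^ (1 - 3 * κ) := by linarith [h.thi]
  calc (2 * (t : ℝ) + 1) ^ 2 ≤ (3 * (n : ℝ) ^ (1 - 3 * κ)) ^ 2 :=
        pow_le_pow_left₀ (by positivity) h1 2
    _ = 9 * ((n : ℝ) ^ (1 - 3 * κ) * (n : ℝ) ^ (1 - 3 * κ)) := by ring
    _ = 9 * (n : ℝ) ^ (2 - 6 * κ) := by
        rw [← Real.rpow_add (by linarith)]; congr 2; ring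

/-- `(2t+1)² m₂^{-3+4κ} ≤ 576 n^{-1-2κ}` -/
theorem Sc.b2 (h : Sc κ a R n t ρ m m2) (hn : 1 ≤ n) (hκ : 0 < κ) (hκ' : κ < 1 / 100) :
    (2 * (t : ℝ) + 1) ^ 2 * (m2 : ℝ) ^ (-3 + 4 * κ) ≤ 576 * (n : ℝ) ^ (-1 - 2 * κ) := by
  have hn' : (1 : ℝ) ≤ n := by exact_mod_cast hn
  calc (2 * (t : ℝ) + 1) ^ 2 * (m2 : ℝ) ^ (-3 + 4 * κ)
      ≤ (9 * (n : ℝ) ^ (2 - 6 * κ)) * (64 * (n : ℝ) ^ (-3 + 4 * κ)) :=
        mul_le_mul (h.tsq hn) (h.m2pow hn hκ hκ') (by positivity) (by positivity)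
    _ = 576 * ((n : ℝ) ^ (2 - 6 * κ) * (n : ℝ) ^ (-3 + 4 * κ)) := by ring
    _ = 576 * (n : ℝ) ^ (-1 - 2 * κ) := by
        rw [← Real.rpow_add (by linarith)]; congr 2; ring

theorem Sc.tinv (h : Sc κ a R n t ρ m m2) (hn : 1 ≤ n) :
    (t : ℝ)⁻¹ ≤ 2 * (n : ℝ) ^ (-1 + 3 * κ) := by
  have hn' : (1 : ℝ) ≤ n := by exact_mod_cast hn
  have ht : (0 : ℝ) < t := by exact_mod_cast h.t1
  have h1 := h.tlo
  have h2 : (n : ℝ) ^ (-1 + 3 * κ) = ((n : ℝ) ^ (1 - 3 * κ))⁻¹ := by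
    rw [← Real.rpow_neg (by linarith)]; congr 1; ring
  rw [h2, ← div_eq_mul_inv, inv_eq_one_div, div_le_div_iff₀ ht (by positivity)]
  linarith

theorem Sc.ρpow (h : Sc κ a R n t ρ m m2) (hn : 1 ≤ n) (k : ℕ) :
    (ρ : ℝ) ^ k ≤ (n : ℝ) ^ ((k : ℝ) / 5) := by
  have hn' : (1 : ℝ) ≤ n := by exact_mod_cast hn
  calc (ρ : ℝ) ^ k ≤ ((n : ℝ) ^ (1 / 5 : ℝ)) ^ k := pow_le_pow_left₀ (by positivity) h.ρhi k
    _ = (n : ℝ) ^ ((k : ℝ) / 5) := by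
        rw [← Real.rpow_natCast, ← Real.rpow_mul (by positivity)]; congr 1; ring

/-- near part -/
theorem Sc.b3 (h : Sc κ a R n t ρ m m2) (hn : 1 ≤ n) (hκ' : κ < 1 / 100) :
    (2 * (ρ : ℝ) + 1) ^ 2 * (2 * ρ * (t : ℝ)⁻¹) ≤ 36 * (n : ℝ) ^ (-(1 / 20) : ℝ) := by
  have hn' : (1 : ℝ) ≤ n := by exact_mod_cast hn
  have hρ : (1 : ℝ) ≤ ρ := by exact_mod_cast h.ρ1
  have h1 : (2 * (ρ : ℝ) + 1) ^ 2 ≤ 9 * (ρ : ℝ) ^ 2 := by nlinarith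
  calc (2 * (ρ : ℝ) + 1) ^ 2 * (2 * ρ * (t : ℝ)⁻¹)
      ≤ (9 * (ρ : ℝ) ^ 2) * (2 * ρ * (2 * (n : ℝ) ^ (-1 + 3 * κ))) := by
        apply mul_le_mul h1 _ (by positivity) (by positivity)
        exact mul_le_mul_of_nonneg_left (h.tinv hn) (by positivity)
    _ = 36 * ((ρ : ℝ) ^ 3 * (n : ℝ) ^ (-1 + 3 * κ)) := by ring
    _ ≤ 36 * ((n : ℝ) ^ (((3 : ℕ) : ℝ) / 5) * (n : ℝ) ^ (-1 + 3 * κ)) := by
        apply mul_le_mul_of_nonneg_left _ (by norm_num)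
        exact mul_le_mul_of_nonneg_right (h.ρpow hn 3) (by positivity)
    _ ≤ 36 * (n : ℝ) ^ (-(1 / 20) : ℝ) := by
        apply mul_le_mul_of_nonneg_left _ (by norm_num)
        rw [← Real.rpow_add (by linarith)]
        apply Real.rpow_le_rpow_of_exponent_le hn'
        push_cast
        linarith

theorem Sc.b4 (h : Sc κ a R n t ρ m m2) (hn : 1 ≤ n) (hκ' : κ < 1 / 100) :
    (ρ : ℝ) ^ 2 * (n : ℝ) ^ (-1 + 2 * κ) ≤ (n : ℝ) ^ (-(1 / 20) : ℝ) := by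
  have hn' : (1 : ℝ) ≤ n := by exact_mod_cast hn
  calc (ρ : ℝ) ^ 2 * (n : ℝ) ^ (-1 + 2 * κ)
      ≤ (n : ℝ) ^ (((2 : ℕ) : ℝ) / 5) * (n : ℝ) ^ (-1 + 2 * κ) :=
        mul_le_mul_of_nonneg_right (h.ρpow hn 2) (by positivity)
    _ ≤ (n : ℝ) ^ (-(1 / 20) : ℝ) := by
        rw [← Real.rpow_add (by linarith)]
        apply Real.rpow_le_rpow_of_exponent_le hn'
        push_cast
        linarith

theorem Sc.b5 (h : Sc κ a R n t ρ m m2) (hn : 1 ≤ n) (hκ : 0 < κ) (hκ' : κ < 1 / 100) :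
    (ρ : ℝ) ^ 2 * (m : ℝ) ^ (-3 + 4 * κ) ≤ 8 * (n : ℝ) ^ (-(1 / 20) : ℝ) := by
  have hn' : (1 : ℝ) ≤ n := by exact_mod_cast hn
  have h1 : (n : ℝ) ^ (1 / 5 : ℝ) / 2 ≤ m := by linarith [h.mlo]
  have h2 : (m : ℝ) ^ (-3 + 4 * κ) ≤ 8 * (n : ℝ) ^ ((-3 + 4 * κ) / 5) := by
    calc (m : ℝ) ^ (-3 + 4 * κ) ≤ ((n : ℝ) ^ (1 / 5 : ℝ) / 2) ^ (-3 + 4 * κ) :=
          Real.rpow_le_rpow_of_nonpos (by positivity) h1 (by linarith)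
      _ = (n : ℝ) ^ ((-3 + 4 * κ) / 5) * (2 : ℝ) ^ (3 - 4 * κ) := by
          rw [Real.div_rpow (by positivity) (by norm_num), div_eq_mul_inv,
            ← Real.rpow_neg (by norm_num), ← Real.rpow_mul (by positivity)]
          congr 2 <;> ring
      _ ≤ (n : ℝ) ^ ((-3 + 4 * κ) / 5) * 8 := by
          apply mul_le_mul_of_nonneg_left _ (by positivity)
          calc (2 : ℝ) ^ (3 - 4 * κ) ≤ (2 : ℝ) ^ (3 : ℝ) :=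
                Real.rpow_le_rpow_of_exponent_le (by norm_num) (by linarith)
            _ = 8 := by norm_num
      _ = _ := by ring
  calc (ρ : ℝ) ^ 2 * (m : ℝ) ^ (-3 + 4 * κ)
      ≤ (n : ℝ) ^ (((2 : ℕ) : ℝ) / 5) * (8 * (n : ℝ) ^ ((-3 + 4 * κ) / 5)) :=
        mul_le_mul (h.ρpow hn 2) h2 (by positivity) (by positivity)
    _ = 8 * ((n : ℝ) ^ (((2 : ℕ) : ℝ) / 5) * (n : ℝ) ^ ((-3 + 4 * κ) / 5)) := by ring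
    _ ≤ 8 * (n : ℝ) ^ (-(1 / 20) : ℝ) := by
        apply mul_le_mul_of_nonneg_left _ (by norm_num)
        rw [← Real.rpow_add (by linarith)]
        apply Real.rpow_le_rpow_of_exponent_le hn'
        push_cast
        linarith

theorem Sc.b6 (h : Sc κ a R n t ρ m m2) (hn : 1 ≤ n) :
    (2 * ((t + 2 : ℕ) : ℝ) + 1) ^ 2 * (2 * ((t : ℝ)⁻¹) ^ 4) ≤ 392 * (n : ℝ) ^ (-2 + 6 * κ) := by
  have hn' : (1 : ℝ) ≤ n := by exact_mod_cast hn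
  have ht : (1 : ℝ) ≤ t := by exact_mod_cast h.t1
  have h1 : (2 * ((t + 2 : ℕ) : ℝ) + 1) ≤ 7 * t := by push_cast; linarith
  have ht0 : (t : ℝ) ≠ 0 := by positivity
  calc (2 * ((t + 2 : ℕ) : ℝ) + 1) ^ 2 * (2 * ((t : ℝ)⁻¹) ^ 4)
      ≤ (7 * t) ^ 2 * (2 * ((t : ℝ)⁻¹) ^ 4) :=
        mul_le_mul_of_nonneg_right (pow_le_pow_left₀ (by positivity) h1 2) (by positivity)
    _ = 98 * ((t : ℝ)⁻¹ * (t : ℝ)⁻¹) := by field_simp; ring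
    _ ≤ 98 * ((2 * (n : ℝ) ^ (-1 + 3 * κ)) * (2 * (n : ℝ) ^ (-1 + 3 * κ))) := by
        apply mul_le_mul_of_nonneg_left _ (by norm_num)
        exact mul_le_mul (h.tinv hn) (h.tinv hn) (by positivity) (by positivity)
    _ = 392 * ((n : ℝ) ^ (-1 + 3 * κ) * (n : ℝ) ^ (-1 + 3 * κ)) := by ring
    _ = 392 * (n : ℝ) ^ (-2 + 6 * κ) := by
        rw [← Real.rpow_add (by linarith)]; congr 2; ring

end bounds

end Vale.Agent.P155.E
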