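import Vale.Agent.P155.E.Point

/-!
# P155, block E: pointwise bounds for conditional means and covariances
-/

namespace Vale.Agent.P155.E

open Finset Skel J

/-- the constant of `E_point` for given parameters, made nonnegative -/
theorem point_bound (hP : E_point) {A : Pt → ℝ} (hA : IsPlane A) {κ : ℝ} (hκ : 0 < κ)
    (hκ' : κ < 1 / 10) : ∃ C : ℝ, 0 ≤ C ∧ ∀ (T : Temp) (x : Pt) (n : ℕ), 1 ≤ n →
    2 * n ≤ dF T.faceSet x → ∀ ω ∈ DD T.V, badI A T κ x n ω = 0 →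
    |cEx T.V (XB T x n) (lh x) ω| ≤ C * (n : ℝ) ^ (-3 + 4 * κ) := by
  classical
  obtain ⟨C, hC⟩ := hP A hA κ κ hκ hκ' hκ
  refine ⟨|C|, abs_nonneg _, ?_⟩
  intro T x n h1 h2 ω hω hb
  have hg : GoodM A T κ κ x n ω.1 ∧ GoodM A T κ κ x n ω.2 := by
    by_contra hc
    unfold badI at hb
    rw [if_neg hc] at hb
    exact one_ne_zero hb
  have h3 := hC T x n h1 h2 ω hω hg.1 hg.2
  have h4 : lap2 (fun f => cEx T.V (XB T x n) (fun ω' => (h ω' f : ℝ)) ω) x =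
      cEx T.V (XB T x n) (lh x) ω := lap2_cEx T.V (XB T x n) ω x
  rw [h4] at h3
  refine h3.trans ?_
  have e : -3 + 3 * κ + κ = -3 + 4 * κ := by ring
  rw [e]
  exact mul_le_mul_of_nonneg_right (le_abs_self _) (by positivity)

/-- pointwise bound with the indicator of the bad event -/
theorem point_bound' (hI : E_incr) {A : Pt → ℝ} {κ C : ℝ}
    (hC0 : 0 ≤ C) (hC : ∀ (T : Temp) (x : Pt) (n : ℕ), 1 ≤ n →
    2 * n ≤ dF T.faceSet x → ∀ ω ∈ DD T.V, badI A T κ x n ω = 0 →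
    |cEx T.V (XB T x n) (lh x) ω| ≤ C * (n : ℝ) ^ (-3 + 4 * κ))
    (T : Temp) (x : Pt) (n : ℕ) (h1 : 1 ≤ n) (h2 : 2 * n ≤ dF T.faceSet x) (ω : Conf)
    (hω : ω ∈ DD T.V) :
    |cEx T.V (XB T x n) (lh x) ω| ≤ C * (n : ℝ) ^ (-3 + 4 * κ) + 8 * badI A T κ x n ω := by
  classical
  by_cases hb : badI A T κ x n ω = 0
  · rw [hb, mul_zero, add_zero]
    exact hC T x n h1 h2 ω hω hb
  · have hb1 : badI A T κ x n ω = 1 := by
      unfold badI at hb ⊢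
      split_ifs with hg
      · rw [if_pos hg] at hb; exact absurd rfl hb
      · rfl
    rw [hb1]
    have h3 : |cEx T.V (XB T x n) (lh x) ω| ≤ 8 := by
      refine (abs_cEx_le _).trans ?_
      exact avg_le_const (by norm_num) (fun ω' hω' => abs_lh_le hI (mem_atom.1 hω').1 x)
    have : 0 ≤ C * (n : ℝ) ^ (-3 + 4 * κ) := by positivity
    linarith

theorem R8_le {R m : ℕ} (hm : 1 ≤ m) (hmR : m ≤ R) {κ : ℝ} (hκ : 0 < κ) :
    (R : ℝ) ^ (-4 : ℝ) ≤ (m : ℝ) ^ (-3 + 4 * κ) := by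
  have hm' : (1 : ℝ) ≤ m := by exact_mod_cast hm
  have hmR' : (m : ℝ) ≤ R := by exact_mod_cast hmR
  calc (R : ℝ) ^ (-4 : ℝ) ≤ (m : ℝ) ^ (-4 : ℝ) :=
        Real.rpow_le_rpow_of_nonpos (by linarith) hmR' (by norm_num)
    _ ≤ (m : ℝ) ^ (-3 + 4 * κ) := Real.rpow_le_rpow_of_exponent_le hm' (by linarith)

variable {A : Pt → ℝ} {κ a C : ℝ} {R : ℕ} {T : Temp} {x : Pt} {n : ℕ} {ω : Conf}

/-- conditional mean of the step-two Laplacian -/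
theorem mean_lh (hI : E_incr) (hC0 : 0 ≤ C) (hC : ∀ (T : Temp) (x : Pt) (n : ℕ), 1 ≤ n →
    2 * n ≤ dF T.faceSet x → ∀ ω ∈ DD T.V, badI A T κ x n ω = 0 →
    |cEx T.V (XB T x n) (lh x) ω| ≤ C * (n : ℝ) ^ (-3 + 4 * κ))
    (hκ : 0 < κ) (hR1 : 1 ≤ R) (hf : Fits T R) (hdF : 2 * n ≤ dF T.faceSet x) (hω : ω ∈ DD T.V)
    (hG : Gd A T κ a R x n ω) {f : Pt} {m : ℕ} (hm : dn x f + m ≤ n) (hma : (R : ℝ) ^ a ≤ m)
    (hm1 : 1 ≤ m) :
    |cEx T.V (XB T x n) (lh f) ω| ≤ (C + 8) * (m : ℝ) ^ (-3 + 4 * κ) := by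
  have hR' : (1 : ℝ) ≤ R := by exact_mod_cast hR1
  have h1 : cEx T.V (XB T x n) (lh f) ω =
      cEx T.V (XB T x n) (cEx T.V (XB T f m) (lh f)) ω := (cEx_nested (box_sub hm) hω _).symm
  rw [h1]
  refine (abs_cEx_le _).trans ?_
  have h2 : cEx T.V (XB T x n) (fun ω' => |cEx T.V (XB T f m) (lh f) ω'|) ω ≤
      cEx T.V (XB T x n) (fun ω' => C * (m : ℝ) ^ (-3 + 4 * κ) + 8 * badI A T κ f m ω') ω :=
    cEx_mono (fun ω' hω' => point_bound' hI hC0 hC T f m hm1 (two_le_dF hdF hm) ω'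
      (mem_atom.1 hω').1)
  refine h2.trans ?_
  rw [cEx_add, cEx_const hω, cEx_const_mul]
  have h3 := hG.bad f m hm hma
  have hmR : m ≤ R := by have := n_le_R hf hdF; omega
  have h4 : (R : ℝ) ^ (-8 : ℝ) ≤ (m : ℝ) ^ (-3 + 4 * κ) :=
    (Real.rpow_le_rpow_of_exponent_le hR' (by norm_num)).trans (R8_le hm1 hmR hκ)
  nlinarith

/-- second moments under the good event -/
theorem mom2 (_hR1 : 1 ≤ R) (hG : Gd A T κ a R x n ω) {y : Pt} (hy : dn x y ≤ n) :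
    cEx T.V (XB T x n) (fun ω' => (hR y ω') ^ 2) ω ≤ (R : ℝ) ^ (κ / 2) := by
  have hR0 : (0 : ℝ) ≤ R := Nat.cast_nonneg R
  have h1 := cEx_sq_le (V := T.V) (X := XB T x n) (ω := ω) (fun ω' => (h ω' y : ℝ)) (hG.mom y hy)
  refine h1.trans (le_of_eq ?_)
  rw [Real.sqrt_eq_rpow, ← Real.rpow_mul hR0]
  congr 1; ring

theorem var2 (hR1 : 1 ≤ R) (hω : ω ∈ DD T.V) (hG : Gd A T κ a R x n ω) {y : Pt} (hy : dn x y ≤ n) :
    Real.sqrt (cEx T.V (XB T x n) (fun ω' => (hR y ω' - cEx T.V (XB T x n) (hR y) ω) ^ 2) ω) ≤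
      (R : ℝ) ^ (κ / 4) := by
  have hR0 : (0 : ℝ) ≤ R := Nat.cast_nonneg R
  have h1 := (var_le (X := XB T x n) hω (hR y)).trans (mom2 hR1 hG hy)
  refine (Real.sqrt_le_sqrt h1).trans (le_of_eq ?_)
  rw [Real.sqrt_eq_rpow, ← Real.rpow_mul hR0]
  congr 1; ring

theorem abs_mean_le (hR1 : 1 ≤ R) (hG : Gd A T κ a R x n ω) {y : Pt} (hy : dn x y ≤ n) :
    |cEx T.V (XB T x n) (hR y) ω| ≤ (R : ℝ) ^ (κ / 4) := by
  have hR0 : (0 : ℝ) ≤ R := Nat.cast_nonneg R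
  have h0 : (cEx T.V (XB T x n) (hR y) ω) ^ 2 ≤ (R : ℝ) ^ (κ / 2) :=
    (sq_avg_le _ _).trans (mom2 hR1 hG hy)
  have h1 : |cEx T.V (XB T x n) (hR y) ω| ≤ Real.sqrt ((R : ℝ) ^ (κ / 2)) := by
    rw [← Real.sqrt_sq_eq_abs]; exact Real.sqrt_le_sqrt h0
  refine h1.trans (le_of_eq ?_)
  rw [Real.sqrt_eq_rpow, ← Real.rpow_mul hR0]
  congr 1; ring

/-- covariances are bounded -/
theorem abs_cov_le (hR1 : 1 ≤ R) (hω : ω ∈ DD T.V) (hG : Gd A T κ a R x n ω) {f y : Pt}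
    (hfn : dn x f ≤ n) (hy : dn x y ≤ n) :
    |cCov T.V (XB T x n) (hR f) (hR y) ω| ≤ (R : ℝ) ^ (κ / 2) := by
  have hR0 : (0 : ℝ) < R := by exact_mod_cast hR1
  rw [cCov_eq_centred]
  refine (abs_avg_mul_le _ _ _).trans ?_
  have h1 : Real.sqrt (avg (atom T.V (XB T x n) ω)
      (fun ω' => (hR y ω' - cEx T.V (XB T x n) (hR y) ω) ^ 2)) ≤ (R : ℝ) ^ (κ / 4) :=
    var2 hR1 hω hG hy
  have h2 : Real.sqrt (avg (atom T.V (XB T x n) ω) (fun ω' => (hR f ω') ^ 2)) ≤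
      (R : ℝ) ^ (κ / 4) := by
    refine (Real.sqrt_le_sqrt (mom2 hR1 hG hfn)).trans (le_of_eq ?_)
    rw [Real.sqrt_eq_rpow, ← Real.rpow_mul hR0.le]
    congr 1; ring
  calc _ ≤ (R : ℝ) ^ (κ / 4) * (R : ℝ) ^ (κ / 4) :=
        mul_le_mul h1 h2 (Real.sqrt_nonneg _) (by positivity)
    _ = (R : ℝ) ^ (κ / 2) := by rw [← Real.rpow_add hR0]; congr 1; ring

/-- trivial bound for the covariance of the step-two Laplacian -/
theorem abs_cov_lh_le (hI : E_incr) (hR1 : 1 ≤ R) (hω : ω ∈ DD T.V) (hG : Gd A T κ a R x n ω)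
    (f : Pt) {y : Pt} (hy : dn x y ≤ n) :
    |cCov T.V (XB T x n) (lh f) (hR y) ω| ≤ 8 * (R : ℝ) ^ (κ / 4) := by
  rw [cCov_eq_centred]
  refine (abs_avg_mul_le _ _ _).trans ?_
  have h1 : Real.sqrt (avg (atom T.V (XB T x n) ω)
      (fun ω' => (hR y ω' - cEx T.V (XB T x n) (hR y) ω) ^ 2)) ≤ (R : ℝ) ^ (κ / 4) :=
    var2 hR1 hω hG hy
  have h2 : Real.sqrt (avg (atom T.V (XB T x n) ω) (fun ω' => (lh f ω') ^ 2)) ≤ 8 := by
    rw [Real.sqrt_le_left (by norm_num)]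
    refine avg_le_const (by norm_num) (fun ω' hω' => ?_)
    have := abs_lh_le hI (mem_atom.1 hω').1 f
    rw [← sq_abs]
    exact pow_le_pow_left₀ (abs_nonneg _) this 2
  calc _ ≤ (R : ℝ) ^ (κ / 4) * 8 := mul_le_mul h1 h2 (Real.sqrt_nonneg _) (by positivity)
    _ = 8 * (R : ℝ) ^ (κ / 4) := by ring

/-- The covariance of the step-two Laplacian at `f` with the height at `y` is small if `y` is far
from `f`. -/
theorem cov_lh (hI : E_incr) (hM : E_meas) (hC0 : 0 ≤ C)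
    (hC : ∀ (T : Temp) (x : Pt) (n : ℕ), 1 ≤ n →
    2 * n ≤ dF T.faceSet x → ∀ ω ∈ DD T.V, badI A T κ x n ω = 0 →
    |cEx T.V (XB T x n) (lh x) ω| ≤ C * (n : ℝ) ^ (-3 + 4 * κ))
    (hκ : 0 < κ) (hR1 : 1 ≤ R) (hf : Fits T R) (hdF : 2 * n ≤ dF T.faceSet x) (hω : ω ∈ DD T.V)
    (hG : Gd A T κ a R x n ω) {f y : Pt} {m : ℕ} (hm : dn x f + m ≤ n) (hma : (R : ℝ) ^ a ≤ m)
    (hm1 : 1 ≤ m) (hmy : m < dn f y) (hy : dn x y ≤ n) :
    |cCov T.V (XB T x n) (lh f) (hR y) ω| ≤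
      (C + 8) * (R : ℝ) ^ (κ / 4) * (m : ℝ) ^ (-3 + 4 * κ) := by
  have hR' : (1 : ℝ) ≤ R := by exact_mod_cast hR1
  have hR0 : (0 : ℝ) < R := by linarith
  set μ := cEx T.V (XB T x n) (hR y) ω with hμ
  set F : Conf → ℝ := fun ω' => hR y ω' - μ with hF
  have h0 : cCov T.V (XB T x n) (lh f) (hR y) ω =
      cEx T.V (XB T x n) (fun ω' => F ω' * lh f ω') ω := cCov_eq_centred _ _
  have h1 : cEx T.V (XB T x n) (fun ω' => F ω' * lh f ω') ω =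
      cEx T.V (XB T x n) (fun ω' => F ω' * cEx T.V (XB T f m) (lh f) ω') ω := by
    symm
    apply cEx_nested_mul (box_sub hm) hω
    intro ω' hω' ω'' hω''
    have := hM T f m ω' (mem_atom.1 hω').1 ω'' hω'' y hmy
    simp only [hF, hR, this]
  rw [h0, h1]
  refine (abs_cEx_le _).trans ?_
  have h2 : cEx T.V (XB T x n) (fun ω' => |F ω' * cEx T.V (XB T f m) (lh f) ω'|) ω ≤
      cEx T.V (XB T x n) (fun ω' => C * (m : ℝ) ^ (-3 + 4 * κ) * |F ω'| +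
        8 * (|F ω'| * badI A T κ f m ω')) ω := by
    apply cEx_mono
    intro ω' hω'
    have h3 := point_bound' hI hC0 hC T f m hm1 (two_le_dF hdF hm) ω' (mem_atom.1 hω').1
    rw [abs_mul]
    calc |F ω'| * |cEx T.V (XB T f m) (lh f) ω'|
        ≤ |F ω'| * (C * (m : ℝ) ^ (-3 + 4 * κ) + 8 * badI A T κ f m ω') :=
          mul_le_mul_of_nonneg_left h3 (abs_nonneg _)
      _ = _ := by ring
  refine h2.trans ?_
  rw [cEx_add, cEx_const_mul, cEx_const_mul]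
  have hv : Real.sqrt (avg (atom T.V (XB T x n) ω) (fun ω' => (F ω') ^ 2)) ≤
      (R : ℝ) ^ (κ / 4) := var2 hR1 hω hG hy
  have h4 : cEx T.V (XB T x n) (fun ω' => |F ω'|) ω ≤ (R : ℝ) ^ (κ / 4) := by
    refine (cEx_le_sqrt _ _ _ _).trans (le_trans (le_of_eq ?_) hv)
    congr 1
    exact avg_congr (fun ω' _ => by simp only [sq_abs])
  have h5 : cEx T.V (XB T x n) (fun ω' => |F ω'| * badI A T κ f m ω') ω ≤
      (R : ℝ) ^ (κ / 4) * (R : ℝ) ^ (-4 : ℝ) := by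
    have h6 := abs_avg_mul_le (atom T.V (XB T x n) ω) (fun ω' => |F ω'|)
      (fun ω' => badI A T κ f m ω')
    have h7 : Real.sqrt (avg (atom T.V (XB T x n) ω) (fun ω' => (badI A T κ f m ω') ^ 2)) ≤
        (R : ℝ) ^ (-4 : ℝ) := by
      have h8 : avg (atom T.V (XB T x n) ω) (fun ω' => (badI A T κ f m ω') ^ 2) ≤
          (R : ℝ) ^ (-8 : ℝ) := by
        refine le_trans (le_of_eq ?_) (hG.bad f m hm hma)
        exact avg_congr (fun ω' _ => badI_sq _ _ _ _ _ _)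
      refine (Real.sqrt_le_sqrt h8).trans (le_of_eq ?_)
      rw [Real.sqrt_eq_rpow, ← Real.rpow_mul hR0.le]
      norm_num
    refine (le_abs_self _).trans (h6.trans ?_)
    apply mul_le_mul _ h7 (Real.sqrt_nonneg _) (by positivity)
    refine le_trans (le_of_eq ?_) hv
    congr 1
    exact avg_congr (fun ω' _ => by simp only [sq_abs])
  have hmR : m ≤ R := by have := n_le_R hf hdF; omega
  have h9 := R8_le hm1 hmR hκ
  have hRk : 0 ≤ (R : ℝ) ^ (κ / 4) := by positivity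
  have hmk : 0 ≤ C * (m : ℝ) ^ (-3 + 4 * κ) := by positivity
  calc C * (m : ℝ) ^ (-3 + 4 * κ) * cEx T.V (XB T x n) (fun ω' => |F ω'|) ω +
        8 * cEx T.V (XB T x n) (fun ω' => |F ω'| * badI A T κ f m ω') ω
      ≤ C * (m : ℝ) ^ (-3 + 4 * κ) * (R : ℝ) ^ (κ / 4) +
        8 * ((R : ℝ) ^ (κ / 4) * (R : ℝ) ^ (-4 : ℝ)) := by
        have := mul_le_mul_of_nonneg_left h4 hmk
        linarith
    _ ≤ C * (m : ℝ) ^ (-3 + 4 * κ) * (R : ℝ) ^ (κ / 4) +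
        8 * ((R : ℝ) ^ (κ / 4) * (m : ℝ) ^ (-3 + 4 * κ)) := by
        have := mul_le_mul_of_nonneg_left h9 hRk
        linarith
    _ = _ := by ring

end Vale.Agent.P155.E
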