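import Vale.Agent.P155.E1.Small

/-!
# P155, block E: the height outside the box is explored (`E_meas`)
-/

namespace Vale.Agent.P155.E

open Finset Skel

/-- agreement off the box -/
theorem agree_off_box {T : Temp} {x : Pt} {n : ℕ} {ω ω' : Conf}
    (h : ω' ∈ atom T.V (XB T x n) ω) {v : Pt} (hv : v ∉ box x n) :
    ω'.1 v = ω.1 v ∧ ω'.2 v = ω.2 v := by
  classical
  unfold atom at h
  rw [mem_filter] at h
  obtain ⟨-, h1, h2⟩ := h
  exact ⟨h1 v (fun hm => hv (by exact_mod_cast hm.2.1)),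
    h2 v (fun hm => hv (by exact_mod_cast hm.2.1))⟩

theorem dh_eq_of_agree {ω ω' : Conf} {j y : ℤ} (h1 : ω'.1 (j, y) = ω.1 (j, y))
    (h2 : ω'.2 (j, y) = ω.2 (j, y)) : dh ω' j y = dh ω j y := by
  unfold dh
  rw [h1, h2]

/-- if the ray to the left of the face is explored, so is its height -/
theorem h_eq_of_ray {ω ω' : Conf} {f : Pt}
    (hr : ∀ j ≤ f.1, ω'.1 (j, f.2) = ω.1 (j, f.2) ∧ ω'.2 (j, f.2) = ω.2 (j, f.2)) :
    h ω' f = h ω f := by
  unfold h
  apply finsum_congr
  intro j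
  apply finsum_congr
  intro hj
  exact dh_eq_of_agree (hr j hj).1 (hr j hj).2

theorem not_mem_box {x v : Pt} {n : ℕ}
    (h : v.1 < x.1 - n ∨ x.1 + n < v.1 ∨ v.2 < x.2 - n ∨ x.2 + n < v.2) : v ∉ box x n := by
  unfold box
  rw [mem_product, mem_Icc, mem_Icc]
  omega

theorem e_meas : E_meas := by
  intro T x n ω hω ω' hω' f hf
  have hω'D : ω' ∈ DD T.V := by
    classical
    unfold atom at hω'
    exact (mem_filter.1 hω').1
  have hray : ∀ g : Pt, (g.1 < x.1 - n ∨ g.2 < x.2 - n ∨ x.2 + n < g.2) → h ω' g = h ω g := by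
    intro g hg
    apply h_eq_of_ray
    intro j hj
    apply agree_off_box hω'
    apply not_mem_box
    simp only
    omega
  have hcase : f.1 < x.1 - n ∨ x.1 + n < f.1 ∨ f.2 < x.2 - n ∨ x.2 + n < f.2 := by
    unfold dn dinf at hf
    rcases abs_cases (x.1 - f.1) with ⟨h1, _⟩ | ⟨h1, _⟩ <;>
      rcases abs_cases (x.2 - f.2) with ⟨h2, _⟩ | ⟨h2, _⟩ <;>
      rcases max_cases |x.1 - f.1| |x.2 - f.2| with ⟨h3, _⟩ | ⟨h3, _⟩ <;>
      omega
  rcases hcase with h1 | h1 | h1 | h1
  · exact hray f (Or.inl h1)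
  · -- go up the column
    have hup : ∀ k : ℕ, h ω' f = h ω f ↔ h ω' (f.1, f.2 + k) = h ω (f.1, f.2 + k) := by
      intro k
      induction k with
      | zero => simp
      | succ k hk =>
        rw [hk]
        obtain ⟨-, e1⟩ := E1.e_incr T.V ω hω (f.1, f.2 + ((k + 1 : ℕ) : ℤ))
        obtain ⟨-, e2⟩ := E1.e_incr T.V ω' hω'D (f.1, f.2 + ((k + 1 : ℕ) : ℤ))
        have hag := agree_off_box hω' (v := (f.1, f.2 + ((k + 1 : ℕ) : ℤ)))
          (not_mem_box (Or.inr (Or.inl h1)))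
        have e3 : f.2 + ((k + 1 : ℕ) : ℤ) - 1 = f.2 + k := by push_cast; ring
        simp only [e3] at e1 e2
        unfold E.ih at e1 e2
        rw [hag.1, hag.2] at e2
        rw [← e1] at e2
        constructor
        · intro h4
          rw [h4] at e2
          have : ((h ω' (f.1, f.2 + ((k + 1 : ℕ) : ℤ)) : ℤ) : ℝ) =
              h ω (f.1, f.2 + ((k + 1 : ℕ) : ℤ)) := by linarith
          exact_mod_cast this
        · intro h4
          rw [h4] at e2
          have : ((h ω' (f.1, f.2 + k) : ℤ) : ℝ) = h ω (f.1, f.2 + k) := by linarith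
          exact_mod_cast this
    rw [hup (x.2 + n + 1 - f.2).toNat]
    apply hray
    right; right
    simp only
    omega
  · exact hray f (Or.inr (Or.inl h1))
  · exact hray f (Or.inr (Or.inr h1))

end Vale.Agent.P155.E
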