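import Vale.Agent.P155.E.Core
import Vale.Agent.P155.E1.Main

/-!
# P155, block E: summation by parts against bumps, sums over shells
-/

namespace Vale.Agent.P155.E

open Finset Skel J

/-- sum of the two pure fourth differences, centred -/
def D4 (ψ : Pt → ℝ) (f : Pt) : ℝ :=
  (ψ (f.1 + 2, f.2) - 4 * ψ (f.1 + 1, f.2) + 6 * ψ f - 4 * ψ (f.1 - 1, f.2) + ψ (f.1 - 2, f.2)) +
  (ψ (f.1, f.2 + 2) - 4 * ψ (f.1, f.2 + 1) + 6 * ψ f - 4 * ψ (f.1, f.2 - 1) + ψ (f.1, f.2 - 2))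

theorem lap_eq (ψ : Pt → ℝ) (f : Pt) : lap ψ f = (1 / 4) * lap2 ψ f - (1 / 4) * D4 ψ f := by
  unfold lap lap2 D4; ring

theorem fs_lap2 {ψ : Pt → ℝ} (hψ : FS ψ) : FS (lap2 ψ) := by
  have h : lap2 ψ = fun x => ψ (tr 2 0 x) + ψ (tr (-2) 0 x) + ψ (tr 0 2 x) + ψ (tr 0 (-2) x) -
      4 * ψ x := by
    funext x; simp [lap2, tr, sub_eq_add_neg]
  rw [h]
  exact ((((hψ.comp_equiv _).add (hψ.comp_equiv _)).add (hψ.comp_equiv _)).add
    (hψ.comp_equiv _)).sub (hψ.mul_left (fun _ => 4))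

theorem fs_D4 {ψ : Pt → ℝ} (hψ : FS ψ) : FS (D4 ψ) := by
  have h : D4 ψ = fun x => lap2 ψ x - 4 * lap ψ x := by
    funext x; rw [lap_eq]; ring
  rw [h]
  exact (fs_lap2 hψ).sub ((fs_lap hψ).mul_left (fun _ => 4))

theorem parts {ψ : Pt → ℝ} (hψ : FS ψ) (c : Pt → ℝ) :
    ∑ᶠ f, lap ψ f * c f = (1 / 4) * ∑ᶠ f, ψ f * lap2 c f - (1 / 4) * ∑ᶠ f, D4 ψ f * c f := by
  have e : ∀ f, lap ψ f * c f = (1 / 4) * (lap2 ψ f * c f) - (1 / 4) * (D4 ψ f * c f) := by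
    intro f; rw [lap_eq]; ring
  have h2 : ∑ᶠ f, lap2 ψ f * c f = ∑ᶠ f, ψ f * lap2 c f := E1.parts_lap2 hψ c
  have f1 : FS (fun f => lap2 ψ f * c f) := (fs_lap2 hψ).mul_right c
  have f2 : FS (fun f => D4 ψ f * c f) := (fs_D4 hψ).mul_right c
  rw [finsum_congr e, finsum_sub_distrib (f1.mul_left (fun _ => 1 / 4)) (f2.mul_left (fun _ => 1 / 4)),
    ← mul_finsum, ← mul_finsum, h2]

section bump

variable {x : Pt} {t : ℕ} {H : ℝ} {ψ : Pt → ℝ}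

theorem bump_fs (hb : IsBump x t H ψ) : FS ψ := FS.of_box hb.1

theorem bump_abs (hb : IsBump x t H ψ) (f : Pt) : |ψ f| ≤ H := by
  have := hb.2 0 0 (by norm_num) f
  simpa using this

theorem bump_H (hb : IsBump x t H ψ) : 0 ≤ H := (abs_nonneg _).trans (bump_abs hb (0, 0))

theorem bump_D4 (hb : IsBump x t H ψ) (f : Pt) : |D4 ψ f| ≤ 2 * H * ((t : ℝ)⁻¹) ^ 4 := by
  have h1 := hb.2 4 0 (by norm_num) (f.1 - 2, f.2)
  have h2 := hb.2 0 4 (by norm_num) (f.1, f.2 - 2)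
  have e1 : (Dx^[4] (Dy^[0] ψ)) (f.1 - 2, f.2) =
      ψ (f.1 + 2, f.2) - 4 * ψ (f.1 + 1, f.2) + 6 * ψ f - 4 * ψ (f.1 - 1, f.2) + ψ (f.1 - 2, f.2) := by
    simp only [Function.iterate_succ, Function.iterate_zero, Function.comp_apply, id_eq, Dx]
    rw [show f.1 - 2 + 1 + 1 + 1 + 1 = f.1 + 2 by ring, show f.1 - 2 + 1 + 1 + 1 = f.1 + 1 by ring,
      show f.1 - 2 + 1 + 1 = f.1 by ring, show f.1 - 2 + 1 = f.1 - 1 by ring]
    simp only [Prod.mk.eta]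
    ring
  have e2 : (Dx^[0] (Dy^[4] ψ)) (f.1, f.2 - 2) =
      ψ (f.1, f.2 + 2) - 4 * ψ (f.1, f.2 + 1) + 6 * ψ f - 4 * ψ (f.1, f.2 - 1) + ψ (f.1, f.2 - 2) := by
    simp only [Function.iterate_succ, Function.iterate_zero, Function.comp_apply, id_eq, Dy]
    rw [show f.2 - 2 + 1 + 1 + 1 + 1 = f.2 + 2 by ring, show f.2 - 2 + 1 + 1 + 1 = f.2 + 1 by ring,
      show f.2 - 2 + 1 + 1 = f.2 by ring, show f.2 - 2 + 1 = f.2 - 1 by ring]
    simp only [Prod.mk.eta]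
    ring
  rw [e1] at h1
  rw [e2] at h2
  unfold D4
  refine (abs_add_le _ _).trans ?_
  norm_num at h1 h2 ⊢
  linarith

theorem bump_lap (hb : IsBump x t H ψ) (f : Pt) : |lap ψ f| ≤ 2 * H * ((t : ℝ)⁻¹) ^ 2 := by
  have h1 := hb.2 2 0 (by norm_num) (f.1 - 1, f.2)
  have h2 := hb.2 0 2 (by norm_num) (f.1, f.2 - 1)
  have e1 : (Dx^[2] (Dy^[0] ψ)) (f.1 - 1, f.2) = ψ (f.1 + 1, f.2) - 2 * ψ f + ψ (f.1 - 1, f.2) := by
    simp only [Function.iterate_succ, Function.iterate_zero, Function.comp_apply, id_eq, Dx]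
    rw [show f.1 - 1 + 1 + 1 = f.1 + 1 by ring, show f.1 - 1 + 1 = f.1 by ring]
    simp only [Prod.mk.eta]
    ring
  have e2 : (Dx^[0] (Dy^[2] ψ)) (f.1, f.2 - 1) = ψ (f.1, f.2 + 1) - 2 * ψ f + ψ (f.1, f.2 - 1) := by
    simp only [Function.iterate_succ, Function.iterate_zero, Function.comp_apply, id_eq, Dy]
    rw [show f.2 - 1 + 1 + 1 = f.2 + 1 by ring, show f.2 - 1 + 1 = f.2 by ring]
    simp only [Prod.mk.eta]
    ring
  rw [e1] at h1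
  rw [e2] at h2
  have e3 : lap ψ f = (ψ (f.1 + 1, f.2) - 2 * ψ f + ψ (f.1 - 1, f.2)) +
      (ψ (f.1, f.2 + 1) - 2 * ψ f + ψ (f.1, f.2 - 1)) := by unfold lap; ring
  rw [e3]
  refine (abs_add_le _ _).trans ?_
  norm_num at h1 h2 ⊢
  linarith

theorem notMem_box_shift {f : Pt} {r k : ℕ} (hf : f ∉ box x (r + k)) {a b : ℤ} (ha : |a| ≤ k)
    (hb : |b| ≤ k) : (f.1 + a, f.2 + b) ∉ box x r := by
  intro hc
  apply hf
  rw [mem_box] at hc ⊢
  rw [abs_le] at ha hb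
  simp only at hc
  push_cast
  refine ⟨by linarith [hc.1], by linarith [hc.2.1], by linarith [hc.2.2.1],
    by linarith [hc.2.2.2]⟩

theorem bump_lap_zero (hb : IsBump x t H ψ) {f : Pt} (hf : f ∉ box x (t + 1)) : lap ψ f = 0 := by
  have h : ∀ a b : ℤ, |a| ≤ 1 → |b| ≤ 1 → ψ (f.1 + a, f.2 + b) = 0 := fun a b ha hb' =>
    hb.1 _ (notMem_box_shift hf (by exact_mod_cast ha) (by exact_mod_cast hb'))
  have h0 := h 0 0 (by norm_num) (by norm_num)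
  have h1 := h 1 0 (by norm_num) (by norm_num)
  have h2 := h (-1) 0 (by norm_num) (by norm_num)
  have h3 := h 0 1 (by norm_num) (by norm_num)
  have h4 := h 0 (-1) (by norm_num) (by norm_num)
  simp only [add_zero, Prod.mk.eta, ← sub_eq_add_neg] at h0 h1 h2 h3 h4
  unfold lap
  rw [h0, h1, h2, h3, h4]; ring

theorem bump_D4_zero (hb : IsBump x t H ψ) {f : Pt} (hf : f ∉ box x (t + 2)) : D4 ψ f = 0 := by
  have h : ∀ a b : ℤ, |a| ≤ 2 → |b| ≤ 2 → ψ (f.1 + a, f.2 + b) = 0 := fun a b ha hb' =>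
    hb.1 _ (notMem_box_shift hf (by exact_mod_cast ha) (by exact_mod_cast hb'))
  have h0 := h 0 0 (by norm_num) (by norm_num)
  have h1 := h 1 0 (by norm_num) (by norm_num)
  have h2 := h (-1) 0 (by norm_num) (by norm_num)
  have h3 := h 0 1 (by norm_num) (by norm_num)
  have h4 := h 0 (-1) (by norm_num) (by norm_num)
  have h5 := h 2 0 (by norm_num) (by norm_num)
  have h6 := h (-2) 0 (by norm_num) (by norm_num)
  have h7 := h 0 2 (by norm_num) (by norm_num)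
  have h8 := h 0 (-2) (by norm_num) (by norm_num)
  simp only [add_zero, Prod.mk.eta, ← sub_eq_add_neg] at h0 h1 h2 h3 h4 h5 h6 h7 h8
  unfold D4
  rw [h0, h1, h2, h3, h4, h5, h6, h7, h8]; ring

theorem bump_dx (hb : IsBump x t H ψ) (f : Pt) : |ψ (f.1 + 1, f.2) - ψ f| ≤ H * (t : ℝ)⁻¹ := by
  have h1 := hb.2 1 0 (by norm_num) f
  simpa [Dx] using h1

theorem bump_dy (hb : IsBump x t H ψ) (f : Pt) : |ψ (f.1, f.2 + 1) - ψ f| ≤ H * (t : ℝ)⁻¹ := by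
  have h1 := hb.2 0 1 (by norm_num) f
  simpa [Dy] using h1

theorem lip_nat (g : ℤ → ℝ) {c : ℝ} (h : ∀ u, |g (u + 1) - g u| ≤ c) (u : ℤ) (k : ℕ) :
    |g (u + k) - g u| ≤ k * c := by
  induction k with
  | zero => simp
  | succ k ih =>
    have h1 := h (u + k)
    have e : g (u + ((k + 1 : ℕ) : ℤ)) - g u = (g (u + k + 1) - g (u + k)) + (g (u + k) - g u) := by
      push_cast; rw [← add_assoc]; ring
    rw [e]
    refine (abs_add_le _ _).trans ?_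
    push_cast
    linarith

theorem lip_int (g : ℤ → ℝ) {c : ℝ} (h : ∀ u, |g (u + 1) - g u| ≤ c) (u v : ℤ) {k : ℕ}
    (hk : |u - v| ≤ k) : |g u - g v| ≤ k * c := by
  have hc : 0 ≤ c := (abs_nonneg _).trans (h 0)
  rcases le_total u v with huv | huv
  · have h1 := lip_nat g h u (v - u).toNat
    have e : ((v - u).toNat : ℤ) = v - u := Int.toNat_of_nonneg (by linarith)
    rw [e, show u + (v - u) = v by ring] at h1
    rw [abs_sub_comm]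
    refine h1.trans ?_
    apply mul_le_mul_of_nonneg_right _ hc
    have : ((v - u).toNat : ℤ) ≤ k := by rw [e]; rw [abs_le] at hk; linarith [hk.1]
    exact_mod_cast this
  · have h1 := lip_nat g h v (u - v).toNat
    have e : ((u - v).toNat : ℤ) = u - v := Int.toNat_of_nonneg (by linarith)
    rw [e, show v + (u - v) = u by ring] at h1
    refine h1.trans ?_
    apply mul_le_mul_of_nonneg_right _ hc
    have : ((u - v).toNat : ℤ) ≤ k := by rw [e]; rw [abs_le] at hk; linarith [hk.2]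
    exact_mod_cast this

/-- Lipschitz bound for bumps -/
theorem bump_lip (hb : IsBump x t H ψ) {f y : Pt} {k : ℕ} (h : f ∈ box y k) :
    |ψ f - ψ y| ≤ 2 * k * (H * (t : ℝ)⁻¹) := by
  rw [mem_box] at h
  have h1 : |f.1 - y.1| ≤ k := abs_le.2 ⟨by linarith [h.1], by linarith [h.2.1]⟩
  have h2 : |f.2 - y.2| ≤ k := abs_le.2 ⟨by linarith [h.2.2.1], by linarith [h.2.2.2]⟩
  have a1 := lip_int (fun u => ψ (u, f.2)) (fun u => bump_dx hb (u, f.2)) f.1 y.1 h1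
  have a2 := lip_int (fun v => ψ (y.1, v)) (fun v => bump_dy hb (y.1, v)) f.2 y.2 h2
  simp only [Prod.mk.eta] at a1 a2
  have e : ψ f - ψ y = (ψ f - ψ (y.1, f.2)) + (ψ (y.1, f.2) - ψ y) := by ring
  rw [e]
  refine (abs_add_le _ _).trans ?_
  linarith

end bump

/-! ## `hf` as a finite sum -/

theorem hf_eq_sum {g : Pt → ℝ} {x : Pt} {r : ℕ} (hg : ∀ f, f ∉ box x r → g f = 0) (ω : Conf) :
    hf ω g = ∑ f ∈ box x r, g f * hR f ω := by
  unfold hf hR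
  apply finsum_eq_sum_of_support_subset
  intro f hf'
  by_contra hc
  apply hf'
  simp only
  rw [hg f hc, zero_mul]

theorem finsum_eq_box {g : Pt → ℝ} {x : Pt} {r : ℕ} (hg : ∀ f, f ∉ box x r → g f = 0)
    (c : Pt → ℝ) : ∑ᶠ f, g f * c f = ∑ f ∈ box x r, g f * c f := by
  apply finsum_eq_sum_of_support_subset
  intro f hf'
  by_contra hc
  apply hf'
  simp only
  rw [hg f hc, zero_mul]

theorem cEx_hf {g : Pt → ℝ} {x : Pt} {r : ℕ} (hg : ∀ f, f ∉ box x r → g f = 0) (V : Finset Pt)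
    (X : Expl) (ω : Conf) :
    cEx V X (fun ω' => hf ω' g) ω = ∑ᶠ f, g f * cEx V X (hR f) ω := by
  rw [finsum_eq_box hg, cEx_congr (g' := fun ω' => ∑ f ∈ box x r, g f * hR f ω')
    (fun ω' _ => hf_eq_sum hg ω'), cEx_sum]
  exact Finset.sum_congr rfl (fun f _ => cEx_const_mul _ _)

theorem cCov_hf {g : Pt → ℝ} {x : Pt} {r : ℕ} (hg : ∀ f, f ∉ box x r → g f = 0) (V : Finset Pt)
    (X : Expl) (F : Conf → ℝ) (ω : Conf) :
    cCov V X (fun ω' => hf ω' g) F ω = ∑ᶠ f, g f * cCov V X (hR f) F ω := by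
  rw [finsum_eq_box hg, cCov_congr (g' := fun ω' => ∑ f ∈ box x r, g f * hR f ω') (f' := F)
    (fun ω' _ => hf_eq_sum hg ω') (fun _ _ => rfl), cCov_sum_left]
  exact Finset.sum_congr rfl (fun f _ => cCov_mul_left _ _ _)

/-! ## Sums over shells -/

theorem card_shell (y : Pt) (S : Finset Pt) (r : ℕ) (hr : 1 ≤ r) :
    (S.filter (fun f => dn y f = r)).card ≤ 8 * r := by
  obtain ⟨s, rfl⟩ : ∃ s, r = s + 1 := ⟨r - 1, by omega⟩
  have h1 : (S.filter (fun f => dn y f = s + 1)) ⊆ box y (s + 1) \ box y s := by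
    intro f hf
    rw [Finset.mem_filter] at hf
    rw [Finset.mem_sdiff, ← dn_le_iff, ← dn_le_iff]
    omega
  have h2 := Finset.card_le_card h1
  have h3 : box y s ⊆ box y (s + 1) := by
    intro f hf
    rw [← dn_le_iff] at hf ⊢
    omega
  rw [Finset.card_sdiff_of_subset h3, card_box, card_box] at h2
  refine h2.trans ?_
  have : (2 * (s + 1) + 1) ^ 2 = 8 * (s + 1) + (2 * s + 1) ^ 2 := by ring
  omega

theorem shell_sum {κ : ℝ} (hκ : 0 < κ) (hκ' : κ < 1 / 100) : ∃ Cs : ℝ, 0 ≤ Cs ∧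
    ∀ (y : Pt) (ρ : ℕ) (S : Finset Pt), 1 ≤ ρ → (∀ f ∈ S, ρ < dn y f) →
    ∑ f ∈ S, ((dn y f - 1 : ℕ) : ℝ) ^ (-3 + 4 * κ) ≤ Cs * (ρ : ℝ) ^ (-(1 / 2) : ℝ) := by
  have hsum : Summable (fun k : ℕ => (k : ℝ) ^ (-3 / 2 + 4 * κ)) :=
    Real.summable_nat_rpow.2 (by linarith)
  refine ⟨16 * ∑' k : ℕ, (k : ℝ) ^ (-3 / 2 + 4 * κ), by
    have : 0 ≤ ∑' k : ℕ, (k : ℝ) ^ (-3 / 2 + 4 * κ) := tsum_nonneg (fun k => by positivity)
    positivity, ?_⟩
  intro y ρ S hρ hS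
  obtain ⟨M, hM⟩ : ∃ M : ℕ, ∀ f ∈ S, dn y f < M := by
    refine ⟨(S.sup (fun f => dn y f)) + 1, fun f hf => ?_⟩
    have : dn y f ≤ S.sup (fun f => dn y f) := Finset.le_sup (f := fun f => dn y f) hf
    omega
  have h1 : ∑ f ∈ S, ((dn y f - 1 : ℕ) : ℝ) ^ (-3 + 4 * κ) =
      ∑ r ∈ Finset.Ioo ρ M, ∑ f ∈ S.filter (fun f => dn y f = r),
        ((dn y f - 1 : ℕ) : ℝ) ^ (-3 + 4 * κ) := by
    symm
    apply Finset.sum_fiberwise_of_maps_to
    intro f hf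
    rw [Finset.mem_Ioo]
    exact ⟨hS f hf, hM f hf⟩
  rw [h1]
  have hρ' : (1 : ℝ) ≤ ρ := by exact_mod_cast hρ
  have h2 : ∀ r ∈ Finset.Ioo ρ M, ∑ f ∈ S.filter (fun f => dn y f = r),
        ((dn y f - 1 : ℕ) : ℝ) ^ (-3 + 4 * κ) ≤
      16 * (ρ : ℝ) ^ (-(1 / 2) : ℝ) * ((r - 1 : ℕ) : ℝ) ^ (-3 / 2 + 4 * κ) := by
    intro r hr
    rw [Finset.mem_Ioo] at hr
    have h3 : ∑ f ∈ S.filter (fun f => dn y f = r), ((dn y f - 1 : ℕ) : ℝ) ^ (-3 + 4 * κ) =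
        ∑ f ∈ S.filter (fun f => dn y f = r), ((r - 1 : ℕ) : ℝ) ^ (-3 + 4 * κ) := by
      refine Finset.sum_congr rfl (fun f hf => ?_)
      rw [Finset.mem_filter] at hf
      rw [hf.2]
    rw [h3, Finset.sum_const, nsmul_eq_mul]
    have h4 : ((S.filter (fun f => dn y f = r)).card : ℝ) ≤ 8 * r := by
      exact_mod_cast card_shell y S r (by omega)
    have hk : (1 : ℝ) ≤ ((r - 1 : ℕ) : ℝ) := by
      have : 1 ≤ r - 1 := by omega
      exact_mod_cast this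
    have hk0 : (0 : ℝ) < ((r - 1 : ℕ) : ℝ) := by linarith
    have h5 : (r : ℝ) ≤ 2 * ((r - 1 : ℕ) : ℝ) := by
      have : r ≤ 2 * (r - 1) := by omega
      exact_mod_cast this
    have h6 : (ρ : ℝ) ≤ ((r - 1 : ℕ) : ℝ) := by
      have : ρ ≤ r - 1 := by omega
      exact_mod_cast this
    calc ((S.filter (fun f => dn y f = r)).card : ℝ) * ((r - 1 : ℕ) : ℝ) ^ (-3 + 4 * κ)
        ≤ (16 * ((r - 1 : ℕ) : ℝ)) * ((r - 1 : ℕ) : ℝ) ^ (-3 + 4 * κ) :=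
          mul_le_mul_of_nonneg_right (by linarith) (by positivity)
      _ = 16 * (((r - 1 : ℕ) : ℝ) ^ (-(1 / 2) : ℝ) * ((r - 1 : ℕ) : ℝ) ^ (-3 / 2 + 4 * κ)) := by
          rw [mul_assoc]
          congr 1
          nth_rewrite 1 [← Real.rpow_one ((r - 1 : ℕ) : ℝ)]
          rw [← Real.rpow_add hk0, ← Real.rpow_add hk0]
          congr 1; ring
      _ ≤ 16 * ((ρ : ℝ) ^ (-(1 / 2) : ℝ) * ((r - 1 : ℕ) : ℝ) ^ (-3 / 2 + 4 * κ)) := by
          apply mul_le_mul_of_nonneg_left _ (by norm_num)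
          apply mul_le_mul_of_nonneg_right _ (by positivity)
          exact Real.rpow_le_rpow_of_nonpos (by linarith) h6 (by norm_num)
      _ = _ := by ring
  refine (Finset.sum_le_sum h2).trans ?_
  rw [← Finset.mul_sum]
  have h7 : ∑ r ∈ Finset.Ioo ρ M, ((r - 1 : ℕ) : ℝ) ^ (-3 / 2 + 4 * κ) ≤
      ∑' k : ℕ, (k : ℝ) ^ (-3 / 2 + 4 * κ) := by
    have h8 : ∑ r ∈ Finset.Ioo ρ M, ((r - 1 : ℕ) : ℝ) ^ (-3 / 2 + 4 * κ) =
        ∑ k ∈ ((Finset.Ioo ρ M).image (fun r : ℕ => (r - 1 : ℕ)) : Finset ℕ),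
          ((k : ℕ) : ℝ) ^ (-3 / 2 + 4 * κ) := by
      rw [Finset.sum_image]
      intro r hr s hs hrs
      rw [Finset.mem_coe, Finset.mem_Ioo] at hr hs
      have hrs' : r - 1 = s - 1 := hrs
      omega
    rw [h8]
    exact hsum.sum_le_tsum _ (fun k _ => by positivity)
  calc 16 * (ρ : ℝ) ^ (-(1 / 2) : ℝ) * ∑ r ∈ Finset.Ioo ρ M, ((r - 1 : ℕ) : ℝ) ^ (-3 / 2 + 4 * κ)
      ≤ 16 * (ρ : ℝ) ^ (-(1 / 2) : ℝ) * ∑' k : ℕ, (k : ℝ) ^ (-3 / 2 + 4 * κ) :=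
        mul_le_mul_of_nonneg_left h7 (by positivity)
    _ = _ := by ring

end Vale.Agent.P155.E
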