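import Vale.Agent.P155.E.Prob

/-!
# P155, block E: the good event, pointwise bounds for conditional means and covariances
-/

namespace Vale.Agent.P155.E

open Finset Skel J

/-! ## Distances -/

theorem dn_comm (u v : Pt) : dn u v = dn v u := by
  unfold dn dinf
  rw [abs_sub_comm, abs_sub_comm u.2]

theorem dn_triangle (u v w : Pt) : dn u w ≤ dn u v + dn v w := by
  have h1 : v ∈ box u (dn u v) := dn_le_iff.1 le_rfl
  have h2 : w ∈ box v (dn v w) := dn_le_iff.1 le_rfl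
  rw [dn_le_iff, mem_box]
  rw [mem_box] at h1 h2
  push_cast
  refine ⟨by linarith [h1.1, h2.1], by linarith [h1.2.1, h2.2.1], by linarith [h1.2.2.1, h2.2.2.1],
    by linarith [h1.2.2.2, h2.2.2.2]⟩

theorem dn_self (u : Pt) : dn u u = 0 := by
  unfold dn dinf; simp

theorem dF_le_add (O : Set Pt) (x y : Pt) : dF O x ≤ dn x y + dF O y := by
  unfold dF
  by_cases hne : {r | ∃ z, z ∉ O ∧ dn y z ≤ r}.Nonempty
  · obtain ⟨z, hz, hd⟩ := Nat.sInf_mem hne
    apply Nat.sInf_le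
    exact ⟨z, hz, (dn_triangle x y z).trans (Nat.add_le_add_left hd _)⟩
  · rw [Set.not_nonempty_iff_eq_empty] at hne
    have : {r | ∃ z, z ∉ O ∧ dn x z ≤ r} = ∅ := by
      ext r
      simp only [Set.mem_ofPred_eq, Set.mem_empty_iff_false, iff_false, not_exists, not_and]
      intro z hz _
      have : dn y z ∈ {r | ∃ z, z ∉ O ∧ dn y z ≤ r} := ⟨z, hz, le_rfl⟩
      rw [hne] at this
      exact this
    rw [this]
    simp

theorem dF_le_of_fits {T : Temp} {R : ℕ} (hR : Fits T R) (x : Pt) : dF T.faceSet x ≤ R + 1 := by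
  unfold dF
  apply Nat.sInf_le
  by_cases hx : x ∈ T.faceSet
  · have h1 := hR hx
    rw [Finset.mem_coe, mem_box] at h1
    simp only at h1
    rcases le_total 0 x.1 with h0 | h0
    · refine ⟨(R + 1, x.2), ?_, ?_⟩
      · intro hc
        have h2 := hR hc
        rw [Finset.mem_coe, mem_box] at h2
        simp only at h2
        linarith [h2.2.1]
      · rw [dn_le_iff, mem_box]
        push_cast
        refine ⟨by linarith, by linarith, by linarith, by linarith⟩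
    · refine ⟨(-(R + 1), x.2), ?_, ?_⟩
      · intro hc
        have h2 := hR hc
        rw [Finset.mem_coe, mem_box] at h2
        simp only at h2
        linarith [h2.1]
      · rw [dn_le_iff, mem_box]
        push_cast
        refine ⟨by linarith, by linarith, by linarith, by linarith⟩
  · exact ⟨x, hx, by rw [dn_self]; omega⟩

theorem n_le_R {T : Temp} {R : ℕ} (hR : Fits T R) {x : Pt} {n : ℕ} (hn : 2 * n ≤ dF T.faceSet x) :
    n ≤ R := by
  have := dF_le_of_fits hR x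
  omega

theorem two_le_dF {T : Temp} {x f : Pt} {n m : ℕ} (hn : 2 * n ≤ dF T.faceSet x)
    (h : dn x f + m ≤ n) : 2 * m ≤ dF T.faceSet f := by
  have := dF_le_add T.faceSet x f
  omega

/-! ## The step-two Laplacian of the height -/

/-- step-two Laplacian of the height -/
noncomputable def lh (f : Pt) (ω : Conf) : ℝ := lap2 (fun g => (h ω g : ℝ)) f

/-- the height at `y` as a real function of the configuration -/
noncomputable def hR (y : Pt) (ω : Conf) : ℝ := (h ω y : ℝ)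

theorem abs_ss (v : Pt) : |ss v| = 1 := by
  unfold ss; split_ifs <;> simp

theorem iv_mem (m : Pt → Pt) (v : Pt) : 0 ≤ iv m v ∧ iv m v ≤ 1 := by
  unfold iv; split_ifs <;> norm_num

theorem ih_mem (m : Pt → Pt) (v : Pt) : 0 ≤ ih m v ∧ ih m v ≤ 1 := by
  unfold ih; split_ifs <;> norm_num

theorem abs_incr_h (hI : E_incr) {V : Finset Pt} {ω : Conf} (hω : ω ∈ DD V) (f : Pt) :
    |(h ω f : ℝ) - h ω (f.1 - 1, f.2)| ≤ 1 ∧ |(h ω f : ℝ) - h ω (f.1, f.2 - 1)| ≤ 1 := by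
  obtain ⟨h1, h2⟩ := hI V ω hω f
  rw [h1, h2, abs_neg, abs_mul, abs_mul, abs_ss, one_mul, one_mul, abs_le, abs_le]
  have a := iv_mem ω.1 f
  have b := iv_mem ω.2 f
  have c := ih_mem ω.1 f
  have d := ih_mem ω.2 f
  exact ⟨⟨by linarith, by linarith⟩, ⟨by linarith, by linarith⟩⟩

theorem abs_lh_le (hI : E_incr) {V : Finset Pt} {ω : Conf} (hω : ω ∈ DD V) (f : Pt) :
    |lh f ω| ≤ 8 := by
  unfold lh lap2
  have a1 := (abs_incr_h hI hω (f.1 + 2, f.2)).1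
  have a2 := (abs_incr_h hI hω (f.1 + 1, f.2)).1
  have a3 := (abs_incr_h hI hω (f.1, f.2)).1
  have a4 := (abs_incr_h hI hω (f.1 - 1, f.2)).1
  have b1 := (abs_incr_h hI hω (f.1, f.2 + 2)).2
  have b2 := (abs_incr_h hI hω (f.1, f.2 + 1)).2
  have b3 := (abs_incr_h hI hω (f.1, f.2)).2
  have b4 := (abs_incr_h hI hω (f.1, f.2 - 1)).2
  have e1 : f.1 + 2 - 1 = f.1 + 1 := by ring
  have e2 : f.1 + 1 - 1 = f.1 := by ring
  have e3 : f.1 - 1 - 1 = f.1 - 2 := by ring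
  have e4 : f.2 + 2 - 1 = f.2 + 1 := by ring
  have e5 : f.2 + 1 - 1 = f.2 := by ring
  have e6 : f.2 - 1 - 1 = f.2 - 2 := by ring
  simp only [e1, e2, e3, e4, e5, e6] at a1 a2 a3 a4 b1 b2 b3 b4
  rw [abs_le] at *
  simp only [Prod.mk.eta] at *
  constructor <;> linarith [a1.1, a1.2, a2.1, a2.2, a3.1, a3.2, a4.1, a4.2, b1.1, b1.2, b2.1, b2.2,
    b3.1, b3.2, b4.1, b4.2]

theorem lap2_cEx (V : Finset Pt) (X : Expl) (ω : Conf) (f : Pt) :
    lap2 (fun g => cEx V X (hR g) ω) f = cEx V X (lh f) ω := by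
  unfold lh lap2
  have : (fun ω' : Conf => (h ω' (f.1 + 2, f.2) : ℝ) + h ω' (f.1 - 2, f.2) + h ω' (f.1, f.2 + 2) +
      h ω' (f.1, f.2 - 2) - 4 * h ω' f) = fun ω' => (hR (f.1 + 2, f.2) ω' + hR (f.1 - 2, f.2) ω' +
      hR (f.1, f.2 + 2) ω' + hR (f.1, f.2 - 2) ω') - 4 * hR f ω' := rfl
  rw [this, cEx_sub, cEx_add, cEx_add, cEx_add, cEx_const_mul]

theorem lap2_cCov (V : Finset Pt) (X : Expl) (ω : Conf) (F : Conf → ℝ) (f : Pt) :
    lap2 (fun g => cCov V X (hR g) F ω) f = cCov V X (lh f) F ω := by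
  unfold lh lap2
  have : (fun ω' : Conf => (h ω' (f.1 + 2, f.2) : ℝ) + h ω' (f.1 - 2, f.2) + h ω' (f.1, f.2 + 2) +
      h ω' (f.1, f.2 - 2) - 4 * h ω' f) = fun ω' => (hR (f.1 + 2, f.2) ω' + hR (f.1 - 2, f.2) ω' +
      hR (f.1, f.2 + 2) ω' + hR (f.1, f.2 - 2) ω') - 4 * hR f ω' := rfl
  rw [this, cCov_sub_left, cCov_add_left, cCov_add_left, cCov_add_left, cCov_mul_left]

/-! ## The good event -/

open Classical in
/-- indicator that the box `(f, m)` is bad for one of the two copies -/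
noncomputable def badI (A : Pt → ℝ) (T : Temp) (κ : ℝ) (f : Pt) (m : ℕ) (ω : Conf) : ℝ :=
  if GoodM A T κ κ f m ω.1 ∧ GoodM A T κ κ f m ω.2 then 0 else 1

theorem badI_nonneg (A : Pt → ℝ) (T : Temp) (κ : ℝ) (f : Pt) (m : ℕ) (ω : Conf) :
    0 ≤ badI A T κ f m ω := by
  unfold badI; split_ifs <;> norm_num

theorem badI_sq (A : Pt → ℝ) (T : Temp) (κ : ℝ) (f : Pt) (m : ℕ) (ω : Conf) :
    badI A T κ f m ω ^ 2 = badI A T κ f m ω := by
  unfold badI; split_ifs <;> norm_num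

/-- The good event for the box `(x, n)`. -/
structure Gd (A : Pt → ℝ) (T : Temp) (κ a : ℝ) (R : ℕ) (x : Pt) (n : ℕ) (ω : Conf) : Prop where
  good1 : GoodM A T κ κ x n ω.1
  good2 : GoodM A T κ κ x n ω.2
  bad : ∀ (f : Pt) (m : ℕ), dn x f + m ≤ n → (R : ℝ) ^ a ≤ m →
    cEx T.V (XB T x n) (badI A T κ f m) ω ≤ (R : ℝ) ^ (-8 : ℝ)
  mom : ∀ y, dn x y ≤ n →
    cEx T.V (XB T x n) (fun ω' => (h ω' y : ℝ) ^ 4) ω ≤ (R : ℝ) ^ κ

theorem card_box (x : Pt) (n : ℕ) : (box x n).card = (2 * n + 1) ^ 2 := by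
  unfold box
  rw [Finset.card_product, Int.card_Icc, Int.card_Icc]
  have e1 : (x.1 + (n : ℤ) + 1 - (x.1 - n)).toNat = 2 * n + 1 := by omega
  have e2 : (x.2 + (n : ℤ) + 1 - (x.2 - n)).toNat = 2 * n + 1 := by omega
  rw [e1, e2]; ring

theorem Gd_prob (hD : D_good) (hC : C_height) {A : Pt → ℝ} (hA : IsPlane A) {κ a p : ℝ}
    (hκ : 0 < κ) (hκ' : κ < 1 / 10) (ha : 0 < a) :
    ∃ C : ℝ, 0 ≤ C ∧ ∀ (R : ℕ) (T : Temp), 1 ≤ R → Fits T R → ∀ (x : Pt) (n : ℕ),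
    (R : ℝ) ^ a ≤ n → 2 * n ≤ dF T.faceSet x →
    Pr T.V (fun ω => ¬ Gd A T κ a R x n ω) ≤ C * (R : ℝ) ^ (-p) := by
  classical
  obtain ⟨C1, hC1⟩ := hD A hA κ κ a (|p| + 12) hκ hκ' hκ ha (by positivity)
  obtain ⟨C2, hC20, hC2⟩ := moment_cond hC (δ := κ) (p := |p| + 12) hκ
  refine ⟨2 * |C1| + 36 * |C1| + 9 * C2, by positivity, ?_⟩
  intro R T hR hf x n hn hdF
  have hR' : (1 : ℝ) ≤ R := by exact_mod_cast hR
  have hR0 : (0 : ℝ) < R := by linarith
  have hnR : n ≤ R := n_le_R hf hdF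
  have hRa : (1 : ℝ) ≤ (R : ℝ) ^ a := Real.one_le_rpow hR' ha.le
  -- probability that a box is bad
  have hbad : ∀ (f : Pt) (m : ℕ), dn x f + m ≤ n → (R : ℝ) ^ a ≤ m →
      Ex T.V (badI A T κ f m) ≤ 2 * |C1| * (R : ℝ) ^ (-(|p| + 12)) := by
    intro f m hm hma
    have h1 := hC1 R T hR hf f m hma (two_le_dF hdF hm)
    have h2 : ∀ ω : Conf, badI A T κ f m ω ≤
        (if GoodM A T κ κ f m ω.1 then (0 : ℝ) else 1) +
        (if GoodM A T κ κ f m ω.2 then (0 : ℝ) else 1) := by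
      intro ω
      unfold badI
      by_cases a1 : GoodM A T κ κ f m ω.1 <;> by_cases a2 : GoodM A T κ κ f m ω.2 <;>
        simp [a1, a2]
    have h3 : Ex T.V (badI A T κ f m) ≤
        Ex T.V (fun ω => (if GoodM A T κ κ f m ω.1 then (0 : ℝ) else 1)) +
        Ex T.V (fun ω => (if GoodM A T κ κ f m ω.2 then (0 : ℝ) else 1)) := by
      rw [Ex_eq_avg, Ex_eq_avg, Ex_eq_avg, ← avg_add]
      exact avg_mono (fun ω _ => h2 ω)
    have h4 : Ex T.V (fun ω => (if GoodM A T κ κ f m ω.1 then (0 : ℝ) else 1)) =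
        Ex1 T.V (fun m' => if GoodM A T κ κ f m m' then (0 : ℝ) else 1) :=
      Ex_fst T.V (fun m' => if GoodM A T κ κ f m m' then (0 : ℝ) else 1)
    have h5 : Ex T.V (fun ω => (if GoodM A T κ κ f m ω.2 then (0 : ℝ) else 1)) =
        Ex1 T.V (fun m' => if GoodM A T κ κ f m m' then (0 : ℝ) else 1) :=
      Ex_snd T.V (fun m' => if GoodM A T κ κ f m m' then (0 : ℝ) else 1)
    rw [h4, h5] at h3
    have h6 : C1 * (R : ℝ) ^ (-(|p| + 12)) ≤ |C1| * (R : ℝ) ^ (-(|p| + 12)) :=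
      mul_le_mul_of_nonneg_right (le_abs_self _) (by positivity)
    linarith
  -- decomposition
  have hsub : ∀ ω ∈ DD T.V, ¬ Gd A T κ a R x n ω →
      ((0 : ℝ) < badI A T κ x n ω) ∨
      ((∃ q ∈ (box x n) ×ˢ (Finset.range (n + 1)), dn x q.1 + q.2 ≤ n ∧ (R : ℝ) ^ a ≤ q.2 ∧
        (R : ℝ) ^ (-8 : ℝ) < cEx T.V (XB T x n) (badI A T κ q.1 q.2) ω) ∨
      (∃ y ∈ box x n, (R : ℝ) ^ κ < cEx T.V (XB T x n) (fun ω' => (h ω' y : ℝ) ^ 4) ω)) := by
    intro ω _ hG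
    by_contra hcon
    push Not at hcon
    obtain ⟨k1, k2, k3⟩ := hcon
    apply hG
    have k1' : GoodM A T κ κ x n ω.1 ∧ GoodM A T κ κ x n ω.2 := by
      by_contra hc
      unfold badI at k1
      rw [if_neg hc] at k1
      linarith
    refine ⟨k1'.1, k1'.2, ?_, ?_⟩
    · intro f m hm hma
      have hfb : f ∈ box x n := dn_le_iff.1 (by omega)
      exact k2 (f, m) (Finset.mem_product.2 ⟨hfb, Finset.mem_range.2 (by omega)⟩) hm hma
    · intro y hy
      exact k3 y (dn_le_iff.1 hy)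
  refine (Pr_mono hsub).trans ((Pr_or_le _ _ _).trans ?_)
  have p1 : Pr T.V (fun ω => (0 : ℝ) < badI A T κ x n ω) ≤ 2 * |C1| * (R : ℝ) ^ (-p) := by
    have : Pr T.V (fun ω => (0 : ℝ) < badI A T κ x n ω) ≤ Ex T.V (badI A T κ x n) := by
      rw [Pr_eq_avg, Ex_eq_avg]
      apply avg_mono
      intro ω _
      unfold badI
      split_ifs <;> norm_num at *
    refine this.trans ((hbad x n (by rw [dn_self]; omega) hn).trans ?_)
    apply mul_le_mul_of_nonneg_left _ (by positivity)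
    apply Real.rpow_le_rpow_of_exponent_le hR'
    linarith [le_abs_self p]
  have hcard : (((box x n) ×ˢ (Finset.range (n + 1))).card : ℝ) ≤ 18 * (R : ℝ) ^ (3 : ℝ) := by
    rw [Finset.card_product, card_box, Finset.card_range]
    have hn' : (n : ℝ) ≤ R := by exact_mod_cast hnR
    have hn0 : (0 : ℝ) ≤ n := Nat.cast_nonneg n
    push_cast
    have e : (R : ℝ) ^ (3 : ℝ) = (R : ℝ) ^ 3 := by norm_cast
    rw [e]
    have a1 : (2 * (n : ℝ) + 1) ^ 2 ≤ (3 * R) ^ 2 := pow_le_pow_left₀ (by positivity) (by linarith) 2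
    have a2 : (n : ℝ) + 1 ≤ 2 * R := by linarith
    calc (2 * (n : ℝ) + 1) ^ 2 * (n + 1) ≤ (3 * R) ^ 2 * (2 * R) :=
          mul_le_mul a1 a2 (by positivity) (by positivity)
      _ = 18 * (R : ℝ) ^ 3 := by ring
  have hcard2 : ((box x n).card : ℝ) ≤ 9 * (R : ℝ) ^ (3 : ℝ) := by
    rw [card_box]
    have hn' : (n : ℝ) ≤ R := by exact_mod_cast hnR
    push_cast
    have e : (R : ℝ) ^ (3 : ℝ) = (R : ℝ) ^ 3 := by norm_cast
    rw [e]
    have a1 : (2 * (n : ℝ) + 1) ^ 2 ≤ (3 * R) ^ 2 := pow_le_pow_left₀ (by positivity) (by linarith) 2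
    have a2 : (R : ℝ) ^ 2 ≤ (R : ℝ) ^ 3 := pow_le_pow_right₀ hR' (by norm_num)
    calc (2 * (n : ℝ) + 1) ^ 2 ≤ (3 * R) ^ 2 := a1
      _ = 9 * (R : ℝ) ^ 2 := by ring
      _ ≤ 9 * (R : ℝ) ^ 3 := by linarith
  have p2 : Pr T.V (fun ω => ∃ q ∈ (box x n) ×ˢ (Finset.range (n + 1)), dn x q.1 + q.2 ≤ n ∧
      (R : ℝ) ^ a ≤ q.2 ∧ (R : ℝ) ^ (-8 : ℝ) < cEx T.V (XB T x n) (badI A T κ q.1 q.2) ω) ≤
      36 * |C1| * (R : ℝ) ^ (-p) := by
    refine (Pr_exists_le_card T.V _ _ (b := 2 * |C1| * (R : ℝ) ^ (8 - (|p| + 12))) ?_).trans ?_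
    · intro q _
      by_cases hq : dn x q.1 + q.2 ≤ n ∧ (R : ℝ) ^ a ≤ q.2
      · have m1 := markov T.V (fun ω => cEx T.V (XB T x n) (badI A T κ q.1 q.2) ω)
          (fun ω _ => cEx_nonneg (fun ω' _ => badI_nonneg _ _ _ _ _ _))
          (t := (R : ℝ) ^ (-8 : ℝ)) (by positivity)
        have m2 : Ex T.V (fun ω => cEx T.V (XB T x n) (badI A T κ q.1 q.2) ω) =
            Ex T.V (badI A T κ q.1 q.2) := Ex_cEx (isExpl_XB T x n) _
        rw [m2] at m1
        refine (Pr_mono (fun ω _ hω => hω.2.2)).trans (m1.trans ?_)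
        refine (mul_le_mul_of_nonneg_left (hbad q.1 q.2 hq.1 hq.2) (by positivity)).trans
          (le_of_eq ?_)
        rw [← Real.rpow_neg hR0.le, sub_eq_add_neg 8, Real.rpow_add hR0]
        norm_num
        ring
      · have : Pr T.V (fun ω => dn x q.1 + q.2 ≤ n ∧ (R : ℝ) ^ a ≤ q.2 ∧
            (R : ℝ) ^ (-8 : ℝ) < cEx T.V (XB T x n) (badI A T κ q.1 q.2) ω) ≤
            Pr T.V (fun _ => False) := Pr_mono (fun ω _ hω => hq ⟨hω.1, hω.2.1⟩)
        refine this.trans ?_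
        rw [Pr_eq_avg]
        simp only [if_false]
        rw [avg_zero]
        positivity
    · calc (((box x n) ×ˢ (Finset.range (n + 1))).card : ℝ) * (2 * |C1| * (R : ℝ) ^ (8 - (|p| + 12)))
          ≤ (18 * (R : ℝ) ^ (3 : ℝ)) * (2 * |C1| * (R : ℝ) ^ (8 - (|p| + 12))) :=
            mul_le_mul_of_nonneg_right hcard (by positivity)
        _ = 36 * |C1| * ((R : ℝ) ^ (3 : ℝ) * (R : ℝ) ^ (8 - (|p| + 12))) := by ring
        _ ≤ 36 * |C1| * (R : ℝ) ^ (-p) := by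
            apply mul_le_mul_of_nonneg_left _ (by positivity)
            rw [← Real.rpow_add hR0]
            apply Real.rpow_le_rpow_of_exponent_le hR'
            linarith [le_abs_self p]
  have p3 : Pr T.V (fun ω => ∃ y ∈ box x n,
      (R : ℝ) ^ κ < cEx T.V (XB T x n) (fun ω' => (h ω' y : ℝ) ^ 4) ω) ≤
      9 * C2 * (R : ℝ) ^ (-p) := by
    refine (Pr_exists_le_card T.V _ _ (b := C2 * (R : ℝ) ^ (-(|p| + 12))) ?_).trans ?_
    · intro y _
      exact hC2 R T hR hf (XB T x n) (isExpl_XB T x n) y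
    · calc ((box x n).card : ℝ) * (C2 * (R : ℝ) ^ (-(|p| + 12)))
          ≤ (9 * (R : ℝ) ^ (3 : ℝ)) * (C2 * (R : ℝ) ^ (-(|p| + 12))) :=
            mul_le_mul_of_nonneg_right hcard2 (by positivity)
        _ = 9 * C2 * ((R : ℝ) ^ (3 : ℝ) * (R : ℝ) ^ (-(|p| + 12))) := by ring
        _ ≤ 9 * C2 * (R : ℝ) ^ (-p) := by
            apply mul_le_mul_of_nonneg_left _ (by positivity)
            rw [← Real.rpow_add hR0]
            apply Real.rpow_le_rpow_of_exponent_le hR'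
            linarith [le_abs_self p]
  have := (Pr_or_le T.V (fun ω => ∃ q ∈ (box x n) ×ˢ (Finset.range (n + 1)), dn x q.1 + q.2 ≤ n ∧
      (R : ℝ) ^ a ≤ q.2 ∧ (R : ℝ) ^ (-8 : ℝ) < cEx T.V (XB T x n) (badI A T κ q.1 q.2) ω)
      (fun ω => ∃ y ∈ box x n, (R : ℝ) ^ κ < cEx T.V (XB T x n) (fun ω' => (h ω' y : ℝ) ^ 4) ω))
  linarith

end Vale.Agent.P155.E
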