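import Vale.Agent.P155.E.Iface
import Vale.Agent.P155.B1b.PlaneMain
import Vale.Agent.P155.E1.Mix

/-!
# P155, block E: replacing the conditional inverse by the plane one in `coreSum`
-/

namespace Vale.Agent.P155.E

open Finset Skel
open Vale.Agent.P155.E1 (mem_box')

theorem abs_K_le_one (w b : Pt) : |K w b| ≤ 1 := by
  unfold K sg
  split_ifs <;> norm_num

theorem abs_ss_eq_one (v : Pt) : |ss v| = 1 := by
  unfold ss; split_ifs <;> norm_num

theorem vW_white (v : Pt) : White (vW v) := by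
  unfold vW
  split_ifs with h
  · exact h
  · unfold White at *; grind

theorem vB_black (v : Pt) : Black (vB v) := by
  unfold vB
  split_ifs with h
  · unfold White Black at *; grind
  · unfold White Black at *; grind

theorem hW_white (v : Pt) : White (hW v) := by
  unfold hW
  split_ifs with h
  · exact h
  · unfold White at *; grind

theorem hB_black (v : Pt) : Black (hB v) := by
  unfold hB
  split_ifs with h
  · unfold White Black at *; grind
  · unfold White Black at *; grind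

theorem box_up {y v : Pt} {r : ℕ} (h : v ∈ box y r) : (v.1, v.2 + 1) ∈ box y (r + 1) := by
  rw [mem_box'] at *
  obtain ⟨h1, h2⟩ := h
  push_cast
  constructor <;> rw [abs_le] at * <;> constructor <;> omega

theorem box_right {y v : Pt} {r : ℕ} (h : v ∈ box y r) : (v.1 + 1, v.2) ∈ box y (r + 1) := by
  rw [mem_box'] at *
  obtain ⟨h1, h2⟩ := h
  push_cast
  constructor <;> rw [abs_le] at * <;> constructor <;> omega

theorem box_succ {y v : Pt} {r : ℕ} (h : v ∈ box y r) : v ∈ box y (r + 1) := by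
  rw [mem_box'] at *
  push_cast
  constructor <;> linarith [h.1, h.2]

theorem ends_mem {y v : Pt} {r : ℕ} (h : v ∈ box y r) :
    vW v ∈ box y (r + 1) ∧ vB v ∈ box y (r + 1) ∧ hW v ∈ box y (r + 1) ∧ hB v ∈ box y (r + 1) := by
  unfold vW vB hW hB
  refine ⟨?_, ?_, ?_, ?_⟩ <;> split_ifs
  · exact box_succ h
  · exact box_up h
  · exact box_up h
  · exact box_succ h
  · exact box_succ h
  · exact box_right h
  · exact box_right h
  · exact box_succ h

/-- difference of edge covariances -/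
theorem abs_eCov_sub_le {G P : Pt → Pt → ℝ} {C η : ℝ} (hC : 0 ≤ C) (hη : 0 ≤ η) (hη1 : η ≤ 1)
    {w b w' b' : Pt} (h1 : |G b w - P b w| ≤ η) (h2 : |G b w' - P b w'| ≤ η)
    (h3 : |G b' w - P b' w| ≤ η) (p2 : |P b w'| ≤ C) (p3 : |P b' w| ≤ C) :
    |eCov G w b w' b' - eCov P w b w' b'| ≤ (2 * C + 2) * η := by
  unfold eCov
  have k1 := abs_K_le_one w b
  have k2 := abs_K_le_one w' b'
  have e1 : |(if w = w' ∧ b = b' then K w b * G b w else 0) -
      (if w = w' ∧ b = b' then K w b * P b w else 0)| ≤ η := by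
    split_ifs
    · rw [← mul_sub, abs_mul]
      calc |K w b| * |G b w - P b w| ≤ 1 * η := by gcongr
        _ = η := one_mul _
    · simpa using hη
  have g3 : |G b' w| ≤ C + 1 := by
    have : |G b' w| ≤ |G b' w - P b' w| + |P b' w| := by
      have := abs_add_le (G b' w - P b' w) (P b' w)
      rwa [sub_add_cancel] at this
    linarith
  have e2 : |G b w' * G b' w - P b w' * P b' w| ≤ (2 * C + 1) * η := by
    have e : G b w' * G b' w - P b w' * P b' w =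
        (G b w' - P b w') * G b' w + P b w' * (G b' w - P b' w) := by ring
    rw [e]
    refine (abs_add_le _ _).trans ?_
    rw [abs_mul, abs_mul]
    calc |G b w' - P b w'| * |G b' w| + |P b w'| * |G b' w - P b' w|
        ≤ η * (C + 1) + C * η := by gcongr
      _ = (2 * C + 1) * η := by ring
  have e3 : |K w b * K w' b' * G b w' * G b' w - K w b * K w' b' * P b w' * P b' w| ≤
      (2 * C + 1) * η := by
    have e : K w b * K w' b' * G b w' * G b' w - K w b * K w' b' * P b w' * P b' w =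
        K w b * K w' b' * (G b w' * G b' w - P b w' * P b' w) := by ring
    rw [e, abs_mul, abs_mul]
    calc |K w b| * |K w' b'| * |G b w' * G b' w - P b w' * P b' w|
        ≤ 1 * 1 * ((2 * C + 1) * η) := by gcongr
      _ = (2 * C + 1) * η := by ring
  have e4 : ((if w = w' ∧ b = b' then K w b * G b w else 0) - K w b * K w' b' * G b w' * G b' w) -
      ((if w = w' ∧ b = b' then K w b * P b w else 0) - K w b * K w' b' * P b w' * P b' w) =
      ((if w = w' ∧ b = b' then K w b * G b w else 0) -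
      (if w = w' ∧ b = b' then K w b * P b w else 0)) -
      (K w b * K w' b' * G b w' * G b' w - K w b * K w' b' * P b w' * P b' w) := by ring
  rw [e4]
  refine (abs_sub _ _).trans ?_
  linarith

theorem abs_Kp_le_const {A : Pt → ℝ} (hA : IsPlane A) : ∃ C : ℝ, 0 ≤ C ∧ ∀ b w, Black b → White w →
    |Kp A b w| ≤ C := by
  obtain ⟨C, hC0, hC⟩ := B1b.IsPlane.bound hA
  refine ⟨C, hC0, fun b w hb hw => ?_⟩
  have hodd : Odd ((b - w).1 + (b - w).2) := by
    unfold Black at hb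
    unfold White at hw
    have : (b - w).1 + (b - w).2 = (b.1 + b.2) - (w.1 + w.2) := by
      simp only [Prod.fst_sub, Prod.snd_sub]; ring
    rw [this]
    exact hb.sub_odd hw
  have h1 := hC _ hodd
  have h2 : 1 ≤ nsq (b - w) := by
    unfold nsq
    have h3 : (1 : ℤ) ≤ (b - w).1 ^ 2 + (b - w).2 ^ 2 := by
      by_contra hc
      push Not at hc
      have h4 := sq_nonneg (b - w).1
      have h5 := sq_nonneg (b - w).2
      have h6 : (b - w).1 ^ 2 = 0 := by linarith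
      have h7 : (b - w).2 ^ 2 = 0 := by linarith
      rw [pow_eq_zero_iff (by norm_num)] at h6 h7
      rw [h6, h7] at hodd
      simp at hodd
    exact_mod_cast h3
  have h3 : 1 ≤ Real.sqrt (nsq (b - w)) := by
    rw [Real.one_le_sqrt]; exact h2
  have h4 : C / Real.sqrt (nsq (b - w)) ≤ C := div_le_self hC0 h3
  unfold Kp
  rw [abs_mul]
  have h5 : |(if Odd (b.1 - w.1) then (1 : ℝ) else sg w.2)| = 1 := by
    unfold sg; split_ifs <;> norm_num
  rw [h5, one_mul]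
  linarith

theorem coreSum_replace {A : Pt → ℝ} (hA : IsPlane A) : ∃ C : ℝ, 0 ≤ C ∧
    ∀ (G : Pt → Pt → ℝ) (y : Pt) (ρ : ℕ) (η : ℝ), 1 ≤ ρ → 0 ≤ η → η ≤ 1 →
    (∀ b w, Black b → White w → b ∈ box y (2 * ρ + 4) → w ∈ box y (2 * ρ + 4) →
      |G b w - Kp A b w| ≤ η) →
    |coreSum G y ρ - coreSum (Kp A) y ρ| ≤ C * (ρ : ℝ) ^ 2 * η := by
  obtain ⟨C, hC0, hC⟩ := abs_Kp_le_const hA
  refine ⟨96 * (2 * C + 2), by positivity, ?_⟩
  intro G y ρ η hρ hη hη1 hG
  set D : ℝ := (2 * C + 2) * η with hD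
  have hD0 : 0 ≤ D := by positivity
  have hX : ∀ v v' : Pt, v ∈ box y (2 * ρ + 3) → v' ∈ box y (2 * ρ + 3) →
      |cXX G v v' - cXX (Kp A) v v'| ≤ D := by
    intro v v' hv hv'
    obtain ⟨a1, a2, _, _⟩ := ends_mem hv
    obtain ⟨c1, c2, _, _⟩ := ends_mem hv'
    unfold cXX
    rw [← mul_sub, abs_mul, abs_mul, abs_ss_eq_one, abs_ss_eq_one, one_mul, one_mul]
    exact abs_eCov_sub_le hC0 hη hη1 (hG _ _ (vB_black v) (vW_white v) a2 a1)
      (hG _ _ (vB_black v) (vW_white v') a2 c1) (hG _ _ (vB_black v') (vW_white v) c2 a1)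
      (hC _ _ (vB_black v) (vW_white v')) (hC _ _ (vB_black v') (vW_white v))
  have hY : ∀ v v' : Pt, v ∈ box y (2 * ρ + 3) → v' ∈ box y (2 * ρ + 3) →
      |cYX G v v' - cYX (Kp A) v v'| ≤ D := by
    intro v v' hv hv'
    obtain ⟨_, _, a1, a2⟩ := ends_mem hv
    obtain ⟨c1, c2, _, _⟩ := ends_mem hv'
    unfold cYX
    rw [neg_sub_neg, abs_sub_comm, ← mul_sub, abs_mul, abs_mul, abs_ss_eq_one, abs_ss_eq_one, one_mul, one_mul]
    exact abs_eCov_sub_le hC0 hη hη1 (hG _ _ (hB_black v) (hW_white v) a2 a1)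
      (hG _ _ (hB_black v) (vW_white v') a2 c1) (hG _ _ (vB_black v') (hW_white v) c2 a1)
      (hC _ _ (hB_black v) (vW_white v')) (hC _ _ (vB_black v') (hW_white v))
  have mb : ∀ a c : ℤ, |a| ≤ 2 * ρ + 3 → |c| ≤ 2 * ρ + 3 → (y.1 + a, y.2 + c) ∈ box y (2 * ρ + 3) := by
    intro a c h1 h2
    rw [mem_box']
    simp only [add_sub_cancel_left]
    push_cast
    exact ⟨h1, h2⟩
  have hρ' : (1 : ℤ) ≤ ρ := by exact_mod_cast hρ
  -- each inner term
  have hin1 : ∀ j ∈ Finset.Icc (1 : ℤ) (2 * ρ), ∀ v ∈ Finset.Icc (-(ρ : ℤ)) ρ,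
      |(cXX G (y.1 + ρ + 2, y.2 + v) (y.1 + j, y.2) + 2 * cXX G (y.1 + ρ + 1, y.2 + v) (y.1 + j, y.2)
        + cXX G (y.1 + ρ, y.2 + v) (y.1 + j, y.2) - cXX G (y.1 - ρ + 1, y.2 + v) (y.1 + j, y.2)
        - 2 * cXX G (y.1 - ρ, y.2 + v) (y.1 + j, y.2)
        - cXX G (y.1 - ρ - 1, y.2 + v) (y.1 + j, y.2)) -
       (cXX (Kp A) (y.1 + ρ + 2, y.2 + v) (y.1 + j, y.2) +
        2 * cXX (Kp A) (y.1 + ρ + 1, y.2 + v) (y.1 + j, y.2)
        + cXX (Kp A) (y.1 + ρ, y.2 + v) (y.1 + j, y.2) - cXX (Kp A) (y.1 - ρ + 1, y.2 + v) (y.1 + j, y.2)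
        - 2 * cXX (Kp A) (y.1 - ρ, y.2 + v) (y.1 + j, y.2)
        - cXX (Kp A) (y.1 - ρ - 1, y.2 + v) (y.1 + j, y.2))| ≤ 8 * D := by
    intro j hj v hv
    rw [Finset.mem_Icc] at hj hv
    have hj' := mb j 0 (by rw [abs_le]; constructor <;> omega) (by simp; omega)
    rw [add_zero] at hj'
    have m1 := mb (ρ + 2) v (by rw [abs_le]; constructor <;> omega) (by rw [abs_le]; constructor <;> omega)
    have m2 := mb (ρ + 1) v (by rw [abs_le]; constructor <;> omega) (by rw [abs_le]; constructor <;> omega)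
    have m3 := mb ρ v (by rw [abs_le]; constructor <;> omega) (by rw [abs_le]; constructor <;> omega)
    have m4 := mb (-ρ + 1) v (by rw [abs_le]; constructor <;> omega) (by rw [abs_le]; constructor <;> omega)
    have m5 := mb (-ρ) v (by rw [abs_le]; constructor <;> omega) (by rw [abs_le]; constructor <;> omega)
    have m6 := mb (-ρ - 1) v (by rw [abs_le]; constructor <;> omega) (by rw [abs_le]; constructor <;> omega)
    rw [show y.1 + ((ρ : ℤ) + 2) = y.1 + ρ + 2 by ring] at m1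
    rw [show y.1 + ((ρ : ℤ) + 1) = y.1 + ρ + 1 by ring] at m2
    rw [show y.1 + (-(ρ : ℤ) + 1) = y.1 - ρ + 1 by ring] at m4
    rw [show y.1 + (-(ρ : ℤ)) = y.1 - ρ by ring] at m5
    rw [show y.1 + (-(ρ : ℤ) - 1) = y.1 - ρ - 1 by ring] at m6
    have b1 := abs_le.1 (hX _ _ m1 hj')
    have b2 := abs_le.1 (hX _ _ m2 hj')
    have b3 := abs_le.1 (hX _ _ m3 hj')
    have b4 := abs_le.1 (hX _ _ m4 hj')
    have b5 := abs_le.1 (hX _ _ m5 hj')
    have b6 := abs_le.1 (hX _ _ m6 hj')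
    rw [abs_le]
    constructor <;> linarith [b1.1, b1.2, b2.1, b2.2, b3.1, b3.2, b4.1, b4.2, b5.1, b5.2, b6.1, b6.2]
  have hin2 : ∀ j ∈ Finset.Icc (1 : ℤ) (2 * ρ), ∀ u ∈ Finset.Icc (-(ρ : ℤ)) ρ,
      |(cYX G (y.1 + u, y.2 + ρ + 2) (y.1 + j, y.2) + 2 * cYX G (y.1 + u, y.2 + ρ + 1) (y.1 + j, y.2)
        + cYX G (y.1 + u, y.2 + ρ) (y.1 + j, y.2) - cYX G (y.1 + u, y.2 - ρ + 1) (y.1 + j, y.2)
        - 2 * cYX G (y.1 + u, y.2 - ρ) (y.1 + j, y.2)
        - cYX G (y.1 + u, y.2 - ρ - 1) (y.1 + j, y.2)) -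
       (cYX (Kp A) (y.1 + u, y.2 + ρ + 2) (y.1 + j, y.2) +
        2 * cYX (Kp A) (y.1 + u, y.2 + ρ + 1) (y.1 + j, y.2)
        + cYX (Kp A) (y.1 + u, y.2 + ρ) (y.1 + j, y.2) - cYX (Kp A) (y.1 + u, y.2 - ρ + 1) (y.1 + j, y.2)
        - 2 * cYX (Kp A) (y.1 + u, y.2 - ρ) (y.1 + j, y.2)
        - cYX (Kp A) (y.1 + u, y.2 - ρ - 1) (y.1 + j, y.2))| ≤ 8 * D := by
    intro j hj v hv
    rw [Finset.mem_Icc] at hj hv
    have hj' := mb j 0 (by rw [abs_le]; constructor <;> omega) (by simp; omega)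
    rw [add_zero] at hj'
    have m1 := mb v (ρ + 2) (by rw [abs_le]; constructor <;> omega) (by rw [abs_le]; constructor <;> omega)
    have m2 := mb v (ρ + 1) (by rw [abs_le]; constructor <;> omega) (by rw [abs_le]; constructor <;> omega)
    have m3 := mb v ρ (by rw [abs_le]; constructor <;> omega) (by rw [abs_le]; constructor <;> omega)
    have m4 := mb v (-ρ + 1) (by rw [abs_le]; constructor <;> omega) (by rw [abs_le]; constructor <;> omega)
    have m5 := mb v (-ρ) (by rw [abs_le]; constructor <;> omega) (by rw [abs_le]; constructor <;> omega)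
    have m6 := mb v (-ρ - 1) (by rw [abs_le]; constructor <;> omega) (by rw [abs_le]; constructor <;> omega)
    rw [show y.2 + ((ρ : ℤ) + 2) = y.2 + ρ + 2 by ring] at m1
    rw [show y.2 + ((ρ : ℤ) + 1) = y.2 + ρ + 1 by ring] at m2
    rw [show y.2 + (-(ρ : ℤ) + 1) = y.2 - ρ + 1 by ring] at m4
    rw [show y.2 + (-(ρ : ℤ)) = y.2 - ρ by ring] at m5
    rw [show y.2 + (-(ρ : ℤ) - 1) = y.2 - ρ - 1 by ring] at m6
    have b1 := abs_le.1 (hY _ _ m1 hj')
    have b2 := abs_le.1 (hY _ _ m2 hj')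
    have b3 := abs_le.1 (hY _ _ m3 hj')
    have b4 := abs_le.1 (hY _ _ m4 hj')
    have b5 := abs_le.1 (hY _ _ m5 hj')
    have b6 := abs_le.1 (hY _ _ m6 hj')
    rw [abs_le]
    constructor <;> linarith [b1.1, b1.2, b2.1, b2.2, b3.1, b3.2, b4.1, b4.2, b5.1, b5.2, b6.1, b6.2]
  unfold coreSum
  rw [neg_sub_neg, abs_sub_comm, ← Finset.sum_sub_distrib]
  have hcard1 : ((Finset.Icc (-(ρ : ℤ)) ρ).card : ℝ) ≤ 3 * ρ := by
    rw [Int.card_Icc]
    have : ((ρ : ℤ) + 1 - -(ρ : ℤ)).toNat = 2 * ρ + 1 := by omega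
    rw [this]
    push_cast
    have : (1 : ℝ) ≤ ρ := by exact_mod_cast hρ
    linarith
  have hcard2 : ((Finset.Icc (1 : ℤ) (2 * ρ)).card : ℝ) = 2 * ρ := by
    rw [Int.card_Icc]
    have : (2 * (ρ : ℤ) + 1 - 1).toNat = 2 * ρ := by omega
    rw [this]
    push_cast
    ring
  have hjb : ∀ j ∈ Finset.Icc (1 : ℤ) (2 * ρ), |((∑ v ∈ Finset.Icc (-(ρ : ℤ)) ρ,
      (cXX G (y.1 + ρ + 2, y.2 + v) (y.1 + j, y.2) + 2 * cXX G (y.1 + ρ + 1, y.2 + v) (y.1 + j, y.2)
        + cXX G (y.1 + ρ, y.2 + v) (y.1 + j, y.2) - cXX G (y.1 - ρ + 1, y.2 + v) (y.1 + j, y.2)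
        - 2 * cXX G (y.1 - ρ, y.2 + v) (y.1 + j, y.2)
        - cXX G (y.1 - ρ - 1, y.2 + v) (y.1 + j, y.2))) +
     ∑ u ∈ Finset.Icc (-(ρ : ℤ)) ρ,
      (cYX G (y.1 + u, y.2 + ρ + 2) (y.1 + j, y.2) + 2 * cYX G (y.1 + u, y.2 + ρ + 1) (y.1 + j, y.2)
        + cYX G (y.1 + u, y.2 + ρ) (y.1 + j, y.2) - cYX G (y.1 + u, y.2 - ρ + 1) (y.1 + j, y.2)
        - 2 * cYX G (y.1 + u, y.2 - ρ) (y.1 + j, y.2)
        - cYX G (y.1 + u, y.2 - ρ - 1) (y.1 + j, y.2))) -
      ((∑ v ∈ Finset.Icc (-(ρ : ℤ)) ρ,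
      (cXX (Kp A) (y.1 + ρ + 2, y.2 + v) (y.1 + j, y.2) +
        2 * cXX (Kp A) (y.1 + ρ + 1, y.2 + v) (y.1 + j, y.2)
        + cXX (Kp A) (y.1 + ρ, y.2 + v) (y.1 + j, y.2) - cXX (Kp A) (y.1 - ρ + 1, y.2 + v) (y.1 + j, y.2)
        - 2 * cXX (Kp A) (y.1 - ρ, y.2 + v) (y.1 + j, y.2)
        - cXX (Kp A) (y.1 - ρ - 1, y.2 + v) (y.1 + j, y.2))) +
     ∑ u ∈ Finset.Icc (-(ρ : ℤ)) ρ,
      (cYX (Kp A) (y.1 + u, y.2 + ρ + 2) (y.1 + j, y.2) +
        2 * cYX (Kp A) (y.1 + u, y.2 + ρ + 1) (y.1 + j, y.2)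
        + cYX (Kp A) (y.1 + u, y.2 + ρ) (y.1 + j, y.2) - cYX (Kp A) (y.1 + u, y.2 - ρ + 1) (y.1 + j, y.2)
        - 2 * cYX (Kp A) (y.1 + u, y.2 - ρ) (y.1 + j, y.2)
        - cYX (Kp A) (y.1 + u, y.2 - ρ - 1) (y.1 + j, y.2)))| ≤ 3 * ρ * (8 * D) + 3 * ρ * (8 * D) := by
    intro j hj
    rw [add_sub_add_comm, ← Finset.sum_sub_distrib, ← Finset.sum_sub_distrib]
    refine (abs_add_le _ _).trans (add_le_add ?_ ?_)
    · refine (Finset.abs_sum_le_sum_abs _ _).trans ?_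
      refine (Finset.sum_le_card_nsmul _ _ _ (hin1 j hj)).trans ?_
      rw [nsmul_eq_mul]
      exact mul_le_mul_of_nonneg_right hcard1 (by positivity)
    · refine (Finset.abs_sum_le_sum_abs _ _).trans ?_
      refine (Finset.sum_le_card_nsmul _ _ _ (hin2 j hj)).trans ?_
      rw [nsmul_eq_mul]
      exact mul_le_mul_of_nonneg_right hcard1 (by positivity)
  refine (Finset.abs_sum_le_sum_abs _ _).trans ?_
  refine (Finset.sum_le_card_nsmul _ _ _ hjb).trans ?_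
  rw [nsmul_eq_mul, hcard2, hD]
  apply le_of_eq
  ring

end Vale.Agent.P155.E
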