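import Vale.Agent.P155.E.Bump
import Vale.Agent.P155.E.Large

/-!
# P155, block E: local means and covariances (`E3`)
-/

namespace Vale.Agent.P155.E

open Finset Skel J

/-- local means and covariances, for large `n` -/
def E_loc : Prop := ∀ κ a p : ℝ, 0 < κ → κ < 1 / 100 → 0 < a →
  ∃ n0 : ℕ, 1 ≤ n0 ∧ ∃ C : ℝ, 0 ≤ C ∧
  ∀ (R : ℕ) (T : Temp), 1 ≤ R → Fits T R → ∀ (x : Pt) (n : ℕ), n0 ≤ n → (R : ℝ) ^ a ≤ n →
  2 * n ≤ dF T.faceSet x → ∃ G : Set Conf, Pr T.V (fun ω => ω ∉ G) ≤ C * (R : ℝ) ^ (-p) ∧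
  ∀ ω ∈ DD T.V, ω ∈ G →
  (∀ y, dn x y ≤ n →
    cEx T.V (XB T x n) (fun ω' => (h ω' y : ℝ) ^ 4) ω ≤ (R : ℝ) ^ κ) ∧
  ∀ (H : ℝ) (ψ : Pt → ℝ), IsBump x ⌊(n : ℝ) ^ (1 - 3 * κ)⌋₊ H ψ →
  |cEx T.V (XB T x n) (fun ω' => hf ω' (lap ψ)) ω| ≤ C * H * (R : ℝ) ^ κ * (n : ℝ) ^ (-1 + κ) ∧
  ∀ y, dn x y ≤ n → |cCov T.V (XB T x n) (fun ω' => hf ω' (lap ψ)) (hR y) ω +
    2 / Real.pi * ψ y| ≤ C * H * (R : ℝ) ^ κ * (n : ℝ) ^ (-(1 / 20) : ℝ)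

theorem comb4 {S1 S2 S3 S4 C Cs C1 C2 W : ℝ} (hC : 0 ≤ C) (hCs : 0 ≤ Cs) (hC1 : 0 ≤ C1)
    (hW : 0 ≤ W) (s1 : S1 ≤ (C + 8) * (2 * Cs + 576) * W) (s2 : S2 ≤ 288 * W)
    (s3 : S3 ≤ (2 * C1 + 4 * C2 + 72 * (C + 8)) * W) (s4 : S4 ≤ 392 * W) :
    1 / 4 * S1 + 1 / 4 * S2 + 1 / 4 * S3 + 1 / 4 * S4 ≤
      ((C + 8) * (Cs + 144) + 72 + (C1 + C2 + 18 * (C + 8)) + 98) * W := by
  have h1 : 0 ≤ (C + 8) * Cs * W := by positivity
  have h2 : 0 ≤ C1 * W := by positivity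
  have e1 : (C + 8) * (2 * Cs + 576) * W = 2 * ((C + 8) * Cs * W) + 576 * ((C + 8) * W) := by ring
  have e2 : ((C + 8) * (Cs + 144) + 72 + (C1 + C2 + 18 * (C + 8)) + 98) * W =
      (C + 8) * Cs * W + 162 * ((C + 8) * W) + 170 * W + C1 * W + C2 * W := by ring
  have e3 : (2 * C1 + 4 * C2 + 72 * (C + 8)) * W = 2 * (C1 * W) + 4 * (C2 * W) +
      72 * ((C + 8) * W) := by ring
  rw [e1] at s1
  rw [e3] at s3
  rw [e2]
  linarith only [s1, s2, s3, s4, h1, h2]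

theorem e_loc (hD : D_good) (hCh : C_height) (hPl : B_plane) (hP : E_point) (hK : E_const)
    (hI : E_incr) (hM : E_meas) (hCov : E_cov) (hRep : E_replace) : E_loc := by
  obtain ⟨A, hA⟩ := hPl
  intro κ a p hκ hκ' ha
  obtain ⟨n0, hn01, hn0⟩ := exists_large (κ := κ) (a := a) hκ hκ'
  obtain ⟨C, hC0, hC⟩ := point_bound hP hA hκ (by linarith : κ < 1 / 10)
  obtain ⟨C1, hC10, hC1⟩ := hRep A hA
  obtain ⟨C2', hC2'⟩ := hK A hA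
  obtain ⟨Cs, hCs0, hCs⟩ := shell_sum hκ hκ'
  obtain ⟨CG, hCG0, hCG⟩ := Gd_prob hD hCh hA (κ := κ) (a := a / 10) (p := p) hκ
    (by linarith) (by linarith)
  set C2 := |C2'| with hC2def
  have hC20 : 0 ≤ C2 := abs_nonneg _
  have hC2 : ∀ (y : Pt) (ρ : ℕ), 1 ≤ ρ →
      |coreSum (Kp A) y ρ + 4 / Real.pi| ≤ C2 * (ρ : ℝ) ^ (-(1 / 2) : ℝ) := fun y ρ hρ =>
    (hC2' y ρ hρ).trans (mul_le_mul_of_nonneg_right (le_abs_self _) (by positivity))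
  refine ⟨n0, hn01, CG + (144 * (C + 8) + 98) +
    ((C + 8) * (Cs + 144) + 72 + (C1 + C2 + 18 * (C + 8)) + 98), by positivity, ?_⟩
  intro R T hR1 hfit x n hnn hRa hdF
  have hsc := hn0 R n hnn hRa
  set t := ⌊(n : ℝ) ^ (1 - 3 * κ)⌋₊
  set ρ := ⌊(n : ℝ) ^ (1 / 5 : ℝ)⌋₊
  set m := ρ - 1
  set m2 := n / 2
  have hn : 1 ≤ n := le_trans hn01 hnn
  have hn' : (1 : ℝ) ≤ n := by exact_mod_cast hn
  have hR' : (1 : ℝ) ≤ R := by exact_mod_cast hR1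
  have hRa' : (R : ℝ) ^ (a / 10) ≤ n := by
    refine le_trans ?_ hRa
    exact Real.rpow_le_rpow_of_exponent_le hR' (by linarith)
  refine ⟨{ω | Gd A T κ (a / 10) R x n ω}, ?_, ?_⟩
  · have h1 := hCG R T hR1 hfit x n hRa' hdF
    refine le_trans h1 ?_
    apply mul_le_mul_of_nonneg_right _ (by positivity)
    have : 0 ≤ (C + 8) * (Cs + 144) := by positivity
    linarith
  intro ω hω hG
  have hG' : Gd A T κ (a / 10) R x n ω := hG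
  refine ⟨hG'.mom, ?_⟩
  intro H ψ hb
  have hH := bump_H hb
  -- auxiliary bounds
  have hRκ : 1 ≤ (R : ℝ) ^ κ := Real.one_le_rpow hR' hκ.le
  have hRκ4 : (R : ℝ) ^ (κ / 4) ≤ (R : ℝ) ^ κ :=
    Real.rpow_le_rpow_of_exponent_le hR' (by linarith)
  have hRκ2 : (R : ℝ) ^ (κ / 2) ≤ (R : ℝ) ^ κ :=
    Real.rpow_le_rpow_of_exponent_le hR' (by linarith)
  have n1 : (n : ℝ) ^ (-1 - 2 * κ) ≤ (n : ℝ) ^ (-1 + κ) :=
    Real.rpow_le_rpow_of_exponent_le hn' (by linarith)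
  have n2 : (n : ℝ) ^ (-2 + 6 * κ) ≤ (n : ℝ) ^ (-1 + κ) :=
    Real.rpow_le_rpow_of_exponent_le hn' (by linarith)
  have n3 : (n : ℝ) ^ (-1 - 2 * κ) ≤ (n : ℝ) ^ (-(1 / 20) : ℝ) :=
    Real.rpow_le_rpow_of_exponent_le hn' (by linarith)
  have n4 : (n : ℝ) ^ (-2 + 6 * κ) ≤ (n : ℝ) ^ (-(1 / 20) : ℝ) :=
    Real.rpow_le_rpow_of_exponent_le hn' (by linarith)
  have b1 := hsc.b1 hn
  have b2 := hsc.b2 hn hκ hκ'
  have b3 := hsc.b3 hn hκ'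
  have b4 := hsc.b4 hn hκ'
  have b5 := hsc.b5 hn hκ hκ'
  have b6 := hsc.b6 hn
  constructor
  · have h1 := mean_bump hI hC0 hC hκ hR1 hfit hdF hω hG' hb hsc.ht2 hsc.ht3 hsc.m2a hsc.m21
    refine h1.trans ?_
    set P := (R : ℝ) ^ κ
    set Q := (n : ℝ) ^ (-1 + κ)
    have hQ : 0 ≤ Q := by positivity
    have hHPQ : 0 ≤ H * (P * Q) := by positivity
    have s1 : (2 * (t : ℝ) + 1) ^ 2 * (H * ((C + 8) * (m2 : ℝ) ^ (-3 + 4 * κ))) ≤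
        576 * (C + 8) * (H * (P * Q)) := by
      calc (2 * (t : ℝ) + 1) ^ 2 * (H * ((C + 8) * (m2 : ℝ) ^ (-3 + 4 * κ)))
          = (H * (C + 8)) * ((2 * (t : ℝ) + 1) ^ 2 * (m2 : ℝ) ^ (-3 + 4 * κ)) := by ring
        _ ≤ (H * (C + 8)) * (576 * Q) := by
            apply mul_le_mul_of_nonneg_left _ (by positivity)
            linarith
        _ = 576 * (C + 8) * (H * (1 * Q)) := by ring
        _ ≤ 576 * (C + 8) * (H * (P * Q)) := by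
            apply mul_le_mul_of_nonneg_left _ (by positivity)
            apply mul_le_mul_of_nonneg_left _ hH
            exact mul_le_mul_of_nonneg_right hRκ hQ
    have s2 : (2 * ((t + 2 : ℕ) : ℝ) + 1) ^ 2 * ((2 * H * ((t : ℝ)⁻¹) ^ 4) * (R : ℝ) ^ (κ / 4)) ≤
        392 * (H * (P * Q)) := by
      calc (2 * ((t + 2 : ℕ) : ℝ) + 1) ^ 2 * ((2 * H * ((t : ℝ)⁻¹) ^ 4) * (R : ℝ) ^ (κ / 4))
          = H * (((2 * ((t + 2 : ℕ) : ℝ) + 1) ^ 2 * (2 * ((t : ℝ)⁻¹) ^ 4)) *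
            (R : ℝ) ^ (κ / 4)) := by ring
        _ ≤ H * ((392 * Q) * P) := by
            apply mul_le_mul_of_nonneg_left _ hH
            exact mul_le_mul (by linarith) hRκ4 (by positivity) (by positivity)
        _ = 392 * (H * (P * Q)) := by ring
    have s3 : 0 ≤ (CG + ((C + 8) * (Cs + 144) + 72 + (C1 + C2 + 18 * (C + 8)) + 98)) *
        (H * (P * Q)) := by positivity
    calc _ ≤ (144 * (C + 8) + 98) * (H * (P * Q)) := by linarith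
      _ ≤ _ := by linarith
  · intro y hy
    have h1 := cov_bump hI hM hCov hC0 hC hC10 hC20 hC1 hC2 hCs hκ (by linarith) hR1 hfit hdF hω
      hG' hn hb hsc.ht2 hsc.ht3 hsc.ρ1 hsc.mρ hsc.m1 hsc.ma hsc.m21 hsc.m2a hsc.hy1 hsc.hy2 hy
    refine h1.trans ?_
    set P := (R : ℝ) ^ κ
    set Q := (n : ℝ) ^ (-(1 / 20) : ℝ)
    have hQ : 0 ≤ Q := by positivity
    have hP : 0 ≤ P := by positivity
    have hHPQ : 0 ≤ H * (P * Q) := by positivity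
    have s1 : H * ((C + 8) * (R : ℝ) ^ (κ / 4)) *
        (Cs * (ρ : ℝ) ^ (-(1 / 2) : ℝ) + (2 * t + 1) ^ 2 * (m2 : ℝ) ^ (-3 + 4 * κ)) ≤
        (C + 8) * (2 * Cs + 576) * (H * (P * Q)) := by
      have k1 : Cs * (ρ : ℝ) ^ (-(1 / 2) : ℝ) + (2 * t + 1) ^ 2 * (m2 : ℝ) ^ (-3 + 4 * κ) ≤
          (2 * Cs + 576) * Q := by
        have := mul_le_mul_of_nonneg_left b1 hCs0
        linarith
      calc H * ((C + 8) * (R : ℝ) ^ (κ / 4)) *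
            (Cs * (ρ : ℝ) ^ (-(1 / 2) : ℝ) + (2 * t + 1) ^ 2 * (m2 : ℝ) ^ (-3 + 4 * κ))
          ≤ H * ((C + 8) * P) * ((2 * Cs + 576) * Q) := by
            apply mul_le_mul _ k1 (by positivity) (by positivity)
            apply mul_le_mul_of_nonneg_left _ hH
            exact mul_le_mul_of_nonneg_left hRκ4 (by positivity)
        _ = _ := by ring
    have s2 : (2 * (ρ : ℝ) + 1) ^ 2 * (2 * ρ * (H * (t : ℝ)⁻¹) * (8 * (R : ℝ) ^ (κ / 4))) ≤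
        288 * (H * (P * Q)) := by
      calc (2 * (ρ : ℝ) + 1) ^ 2 * (2 * ρ * (H * (t : ℝ)⁻¹) * (8 * (R : ℝ) ^ (κ / 4)))
          = 8 * H * (((2 * (ρ : ℝ) + 1) ^ 2 * (2 * ρ * (t : ℝ)⁻¹)) * (R : ℝ) ^ (κ / 4)) := by ring
        _ ≤ 8 * H * ((36 * Q) * P) := by
            apply mul_le_mul_of_nonneg_left _ (by positivity)
            exact mul_le_mul b3 hRκ4 (by positivity) (by positivity)
        _ = _ := by ring
    have s3 : H * (2 * C1 * (ρ : ℝ) ^ 2 * (n : ℝ) ^ (-1 + 2 * κ) +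
        2 * C2 * (ρ : ℝ) ^ (-(1 / 2) : ℝ) +
        9 * (ρ : ℝ) ^ 2 * ((C + 8) * (R : ℝ) ^ (κ / 4) * (m : ℝ) ^ (-3 + 4 * κ))) ≤
        (2 * C1 + 4 * C2 + 72 * (C + 8)) * (H * (P * Q)) := by
      have k1 : 2 * C1 * (ρ : ℝ) ^ 2 * (n : ℝ) ^ (-1 + 2 * κ) ≤ 2 * C1 * (P * Q) := by
        calc 2 * C1 * (ρ : ℝ) ^ 2 * (n : ℝ) ^ (-1 + 2 * κ)
            = 2 * C1 * (1 * ((ρ : ℝ) ^ 2 * (n : ℝ) ^ (-1 + 2 * κ))) := by ring
          _ ≤ 2 * C1 * (P * Q) := by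
              apply mul_le_mul_of_nonneg_left _ (by positivity)
              exact mul_le_mul hRκ b4 (by positivity) hP
      have k2 : 2 * C2 * (ρ : ℝ) ^ (-(1 / 2) : ℝ) ≤ 4 * C2 * (P * Q) := by
        calc 2 * C2 * (ρ : ℝ) ^ (-(1 / 2) : ℝ)
            = 2 * C2 * (1 * (ρ : ℝ) ^ (-(1 / 2) : ℝ)) := by ring
          _ ≤ 2 * C2 * (P * (2 * Q)) := by
              apply mul_le_mul_of_nonneg_left _ (by positivity)
              exact mul_le_mul hRκ b1 (by positivity) hP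
          _ = _ := by ring
      have k3 : 9 * (ρ : ℝ) ^ 2 * ((C + 8) * (R : ℝ) ^ (κ / 4) * (m : ℝ) ^ (-3 + 4 * κ)) ≤
          72 * (C + 8) * (P * Q) := by
        calc 9 * (ρ : ℝ) ^ 2 * ((C + 8) * (R : ℝ) ^ (κ / 4) * (m : ℝ) ^ (-3 + 4 * κ))
            = 9 * (C + 8) * ((R : ℝ) ^ (κ / 4) * ((ρ : ℝ) ^ 2 * (m : ℝ) ^ (-3 + 4 * κ))) := by ring
          _ ≤ 9 * (C + 8) * (P * (8 * Q)) := by
              apply mul_le_mul_of_nonneg_left _ (by positivity)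
              exact mul_le_mul hRκ4 b5 (by positivity) hP
          _ = _ := by ring
      calc _ ≤ H * (2 * C1 * (P * Q) + 4 * C2 * (P * Q) + 72 * (C + 8) * (P * Q)) := by
            apply mul_le_mul_of_nonneg_left _ hH
            linarith
        _ = _ := by ring
    have s4 : (2 * ((t + 2 : ℕ) : ℝ) + 1) ^ 2 * ((2 * H * ((t : ℝ)⁻¹) ^ 4) * (R : ℝ) ^ (κ / 2)) ≤
        392 * (H * (P * Q)) := by
      calc (2 * ((t + 2 : ℕ) : ℝ) + 1) ^ 2 * ((2 * H * ((t : ℝ)⁻¹) ^ 4) * (R : ℝ) ^ (κ / 2))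
          = H * (((2 * ((t + 2 : ℕ) : ℝ) + 1) ^ 2 * (2 * ((t : ℝ)⁻¹) ^ 4)) *
            (R : ℝ) ^ (κ / 2)) := by ring
        _ ≤ H * ((392 * Q) * P) := by
            apply mul_le_mul_of_nonneg_left _ hH
            exact mul_le_mul (by linarith) hRκ2 (by positivity) (by positivity)
        _ = 392 * (H * (P * Q)) := by ring
    have s5 : 0 ≤ (CG + (144 * (C + 8) + 98)) * (H * (P * Q)) := by positivity
    have s6 : 0 ≤ (C1 + 8) * (H * (P * Q)) := by positivity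
    refine (comb4 hC0 hCs0 hC10 hHPQ s1 s2 s3 s4).trans ?_
    have e : (CG + (144 * (C + 8) + 98) + ((C + 8) * (Cs + 144) + 72 +
        (C1 + C2 + 18 * (C + 8)) + 98)) * H * P * Q = (CG + (144 * (C + 8) + 98)) * (H * (P * Q)) +
        ((C + 8) * (Cs + 144) + 72 + (C1 + C2 + 18 * (C + 8)) + 98) * (H * (P * Q)) := by ring
    rw [e]
    linarith only [s5]

end Vale.Agent.P155.E
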