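import Vale.Agent.P155.E.Atom
import Vale.Agent.P155.E.Three
import Vale.Agent.P155.J.Decomp

/-!
# P155, block E: the local Schwinger–Dyson statement `E_SD`
-/

namespace Vale.Agent.P155.E

open Finset Skel J

/-- trivial bound, used for bounded `R` -/
theorem sd_trivial {T : Temp} {R : ℕ} (hR1 : 1 ≤ R) (hfit : Fits T R) {x : Pt} {n : ℕ}
    (hnR : n ≤ R) (hn1 : 1 ≤ n)
    {ω : Conf} {ψ φ : Pt → ℝ} {t : ℕ} {H : ℝ} (hb : IsBump x t H ψ)
    (htn : t ≤ n) {C0 : ℝ} (hC0 : 0 ≤ C0) (hφ : ∀ y, |φ y| ≤ C0 / (R : ℝ) ^ 2) (θ : ℝ) :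
    ‖cEx T.V (XB T x n)
        (fun ω' => (hf ω' (lap ψ) : ℂ) * Complex.exp (Complex.I * θ * hf ω' φ)) ω +
      Complex.I * θ * (2 / Real.pi) * pair ψ φ * cEx T.V (XB T x n)
        (fun ω' => Complex.exp (Complex.I * θ * hf ω' φ)) ω‖ ≤
    H * (1400 * (R : ℝ) ^ 3 + 9 * |θ| * C0) := by
  have hH := bump_H hb
  have hR' : (1 : ℝ) ≤ R := by exact_mod_cast hR1
  have hnR' : (n : ℝ) ≤ R := by exact_mod_cast hnR
  have hn' : (1 : ℝ) ≤ n := by exact_mod_cast hn1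
  have htR : (t : ℝ) ≤ R := by exact_mod_cast (htn.trans hnR)
  have hexp : ∀ ω', ‖Complex.exp (Complex.I * θ * hf ω' φ)‖ = 1 := by
    intro ω'
    have : Complex.I * θ * hf ω' φ = Complex.I * ((θ * hf ω' φ : ℝ) : ℂ) := by push_cast; ring
    rw [this, norm_exp_I']
  have h1 : ‖cEx T.V (XB T x n)
        (fun ω' => (hf ω' (lap ψ) : ℂ) * Complex.exp (Complex.I * θ * hf ω' φ)) ω‖ ≤
      H * (1400 * (R : ℝ) ^ 3) := by
    rw [cEx_eq_avg]
    apply norm_avg_le_const (by positivity)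
    intro ω' hω'
    rw [norm_mul, hexp, mul_one, Complex.norm_real, Real.norm_eq_abs]
    refine (abs_hf_lap_le hfit (atom_sub hω') hb).trans ?_
    have k1 : (2 * (t : ℝ) + 3) ^ 2 ≤ 25 * (R : ℝ) ^ 2 := by
      calc (2 * (t : ℝ) + 3) ^ 2 ≤ (5 * (R : ℝ)) ^ 2 :=
            pow_le_pow_left₀ (by positivity) (by linarith) 2
        _ = _ := by ring
    have k2 : 8 * H * (2 * (R : ℝ) + 5) ≤ 56 * H * R := by
      have := mul_le_mul_of_nonneg_left (show 2 * (R : ℝ) + 5 ≤ 7 * R by linarith)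
        (show 0 ≤ 8 * H by positivity)
      linarith
    calc (2 * (t : ℝ) + 3) ^ 2 * (8 * H * (2 * (R : ℝ) + 5))
        ≤ (25 * (R : ℝ) ^ 2) * (56 * H * R) :=
          mul_le_mul k1 k2 (by positivity) (by positivity)
      _ = _ := by ring
  have h2 : ‖cEx T.V (XB T x n) (fun ω' => Complex.exp (Complex.I * θ * hf ω' φ)) ω‖ ≤ 1 := by
    rw [cEx_eq_avg]
    exact norm_avg_le_const zero_le_one (fun ω' _ => (hexp ω').le)
  have hpair : |pair ψ φ| ≤ 9 * H * C0 := by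
    rw [pair_eq_box hb htn]
    calc |∑ y ∈ box x n, φ y * ψ y| ≤ ∑ y ∈ box x n, |φ y * ψ y| :=
          Finset.abs_sum_le_sum_abs _ _
      _ ≤ ∑ y ∈ box x n, (C0 / (R : ℝ) ^ 2) * H := Finset.sum_le_sum (fun y _ => by
          rw [abs_mul]
          exact mul_le_mul (hφ y) (bump_abs hb y) (abs_nonneg _) (by positivity))
      _ = (2 * (n : ℝ) + 1) ^ 2 * ((C0 / (R : ℝ) ^ 2) * H) := by
          rw [Finset.sum_const, nsmul_eq_mul, card_box]; push_cast; ring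
      _ ≤ (9 * (R : ℝ) ^ 2) * ((C0 / (R : ℝ) ^ 2) * H) := by
          apply mul_le_mul_of_nonneg_right _ (by positivity)
          calc (2 * (n : ℝ) + 1) ^ 2 ≤ (3 * (R : ℝ)) ^ 2 :=
                pow_le_pow_left₀ (by positivity) (by linarith) 2
            _ = _ := by ring
      _ = 9 * H * C0 := by field_simp
  have hpi : |2 / Real.pi| ≤ 1 := by
    rw [abs_of_pos (by positivity), div_le_one Real.pi_pos]
    linarith [Real.pi_gt_three]
  have h3 : ‖Complex.I * θ * (2 / Real.pi) * pair ψ φ * cEx T.V (XB T x n)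
        (fun ω' => Complex.exp (Complex.I * θ * hf ω' φ)) ω‖ ≤ H * (9 * |θ| * C0) := by
    have e : Complex.I * θ * (2 / Real.pi) * pair ψ φ =
        Complex.I * ((θ * (2 / Real.pi) * pair ψ φ : ℝ) : ℂ) := by push_cast; ring
    rw [e, norm_mul, norm_mul, Complex.norm_I, one_mul, Complex.norm_real, Real.norm_eq_abs,
      abs_mul, abs_mul]
    calc |θ| * |2 / Real.pi| * |pair ψ φ| * ‖cEx T.V (XB T x n)
          (fun ω' => Complex.exp (Complex.I * θ * hf ω' φ)) ω‖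
        ≤ |θ| * 1 * (9 * H * C0) * 1 := by
          apply mul_le_mul _ h2 (norm_nonneg _) (by positivity)
          apply mul_le_mul _ hpair (abs_nonneg _) (by positivity)
          exact mul_le_mul_of_nonneg_left hpi (abs_nonneg _)
      _ = _ := by ring
  refine (norm_add_le _ _).trans ?_
  linarith

theorem e_sd_of_loc (hI : E_incr) (hM : E_meas) (hL : E_loc) : E_SD := by
  refine ⟨1 / 20, by norm_num, ?_⟩
  intro κ a p Θ' C0' hκ hκ' ha hp
  obtain ⟨n1, hn11, C, hC0, hC⟩ := hL κ a p hκ hκ' ha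
  obtain ⟨n2, hn21, hn2⟩ := exists_large (κ := κ) (a := a) hκ hκ'
  set n0 := max n1 n2 with hn0
  have hn01 : 1 ≤ n0 := hn11.trans (le_max_left _ _)
  set Θ := |Θ'| with hΘ
  set C0 := |C0'| with hC0d
  have hΘ0 : 0 ≤ Θ := abs_nonneg _
  have hC00 : 0 ≤ C0 := abs_nonneg _
  set R0 : ℝ := (n0 : ℝ) ^ (1 / a) with hR0
  have hR00 : 0 ≤ R0 := by positivity
  set K1 : ℝ := n0 * (1400 * R0 ^ 3 + 9 * Θ * C0) with hK1
  have hK10 : 0 ≤ K1 := by positivity
  set K2 : ℝ := C + 9 * Θ * C0 * C + 32400 * Θ ^ 2 * C0 ^ 2 + 1458 * Θ ^ 3 * C0 ^ 3 with hK2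
  have hK20 : 0 ≤ K2 := by positivity
  refine ⟨C + K1 + K2, ?_⟩
  intro R T hR1 hfit x n hRa hdF
  have hR' : (1 : ℝ) ≤ R := by exact_mod_cast hR1
  have hnR : n ≤ R := n_le_R hfit hdF
  have hnR' : (n : ℝ) ≤ R := by exact_mod_cast hnR
  have hRa1 : 1 ≤ (R : ℝ) ^ a := Real.one_le_rpow hR' ha.le
  have hn' : (1 : ℝ) ≤ n := hRa1.trans hRa
  have hn1 : 1 ≤ n := by exact_mod_cast hn'
  have hRκ : 1 ≤ (R : ℝ) ^ κ := Real.one_le_rpow hR' hκ.le
  have ht : ((⌊(n : ℝ) ^ (1 - 3 * κ)⌋₊ : ℕ) : ℝ) ≤ n := by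
    refine (Nat.floor_le (by positivity)).trans ?_
    calc (n : ℝ) ^ (1 - 3 * κ) ≤ (n : ℝ) ^ (1 : ℝ) :=
          Real.rpow_le_rpow_of_exponent_le hn' (by linarith)
      _ = n := Real.rpow_one _
  have ht' : ⌊(n : ℝ) ^ (1 - 3 * κ)⌋₊ ≤ n := by exact_mod_cast ht
  set Q1 : ℝ := (n : ℝ) ^ (-1 + κ) with hQ1
  set Q2 : ℝ := (n / R : ℝ) ^ 2 * (n : ℝ) ^ (-(1 / 20) : ℝ) with hQ2
  set Q3 : ℝ := (n / R : ℝ) ^ 4 with hQ3
  have q1 : 0 ≤ Q1 := by positivity
  have q2 : 0 ≤ Q2 := by positivity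
  have q3 : 0 ≤ Q3 := by positivity
  rcases lt_or_ge n n0 with hlt | hge
  · -- bounded `R`
    refine ⟨Set.univ, ?_, ?_⟩
    · have h0 : Pr T.V (fun ω => ω ∉ (Set.univ : Set Conf)) ≤ 0 := by
        unfold Pr
        apply Ex_le_const le_rfl
        intro ω _
        simp
      exact h0.trans (by positivity)
    · intro ω hω _ H ψ φ hb hφ θ hθ
      have hH := bump_H hb
      have hφ' : ∀ y, |φ y| ≤ C0 / (R : ℝ) ^ 2 := fun y =>
        (hφ y).trans (div_le_div_of_nonneg_right (le_abs_self _) (by positivity))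
      have hθ' : |θ| ≤ Θ := hθ.trans (le_abs_self _)
      refine (sd_trivial hR1 hfit hnR hn1 hb ht' hC00 hφ' θ).trans ?_
      have hRR0 : (R : ℝ) ≤ R0 := by
        have h1 : (R : ℝ) ^ a ≤ n0 := hRa.trans (by exact_mod_cast hlt.le)
        calc (R : ℝ) = ((R : ℝ) ^ a) ^ (1 / a) := by
              rw [← Real.rpow_mul (by positivity), mul_one_div_cancel ha.ne', Real.rpow_one]
          _ ≤ (n0 : ℝ) ^ (1 / a) := Real.rpow_le_rpow (by positivity) h1 (by positivity)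
      have hQn : 1 ≤ n0 * Q1 := by
        have h1 : (n : ℝ) ^ (-1 : ℝ) ≤ Q1 := Real.rpow_le_rpow_of_exponent_le hn' (by linarith)
        have h2 : (n : ℝ) ≤ n0 := by exact_mod_cast hlt.le
        rw [Real.rpow_neg_one] at h1
        calc (1 : ℝ) = n * (n : ℝ)⁻¹ := by field_simp
          _ ≤ n0 * Q1 := mul_le_mul h2 h1 (by positivity) (by positivity)
      have e1 : 1400 * (R : ℝ) ^ 3 + 9 * |θ| * C0 ≤ 1400 * R0 ^ 3 + 9 * Θ * C0 := by
        have a1 : (R : ℝ) ^ 3 ≤ R0 ^ 3 := pow_le_pow_left₀ (by positivity) hRR0 3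
        have a2 : |θ| * C0 ≤ Θ * C0 := mul_le_mul_of_nonneg_right hθ' hC00
        linarith
      calc H * (1400 * (R : ℝ) ^ 3 + 9 * |θ| * C0)
          ≤ H * (1400 * R0 ^ 3 + 9 * Θ * C0) := mul_le_mul_of_nonneg_left e1 hH
        _ ≤ H * (1400 * R0 ^ 3 + 9 * Θ * C0) * (n0 * Q1) :=
            le_mul_of_one_le_right (by positivity) hQn
        _ = K1 * H * 1 * Q1 := by rw [hK1]; ring
        _ ≤ (C + K1 + K2) * H * (R : ℝ) ^ κ * (Q1 + Q2 + Q3) := by
            apply mul_le_mul _ (by linarith) q1 (by positivity)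
            apply mul_le_mul _ hRκ (by norm_num) (by positivity)
            exact mul_le_mul_of_nonneg_right (by linarith) hH
  · have hsc := hn2 R n ((le_max_right _ _).trans hge) hRa
    obtain ⟨G, hG, hG'⟩ := hC R T hR1 hfit x n ((le_max_left _ _).trans hge) hRa hdF
    refine ⟨G, ?_, ?_⟩
    · refine hG.trans ?_
      exact mul_le_mul_of_nonneg_right (by linarith) (by positivity)
    · intro ω hω hωG H ψ φ hb hφ θ hθ
      have hH := bump_H hb
      have hφ' : ∀ y, |φ y| ≤ C0 / (R : ℝ) ^ 2 := fun y =>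
        (hφ y).trans (div_le_div_of_nonneg_right (le_abs_self _) (by positivity))
      have hθ' : |θ| ≤ Θ := hθ.trans (le_abs_self _)
      obtain ⟨hmom, hloc⟩ := hG' ω hω hωG
      obtain ⟨hmean, hcov⟩ := hloc H ψ hb
      have hkey := sd_atom hI hM hfit hω hb hsc.t1 (by have := hsc.ht3; omega)
        (show 0 ≤ C0 / (R : ℝ) ^ 2 by positivity) hφ' hRκ hmom hmean hcov θ
        (S := (2 * (n : ℝ) + 1) ^ 2 * (C0 / (R : ℝ) ^ 2)) rfl
      refine hkey.trans ?_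
      set P : ℝ := (R : ℝ) ^ κ with hP
      set S : ℝ := (2 * (n : ℝ) + 1) ^ 2 * (C0 / (R : ℝ) ^ 2) with hS
      set u : ℝ := (n / R : ℝ) with hu
      have hu0 : 0 ≤ u := by positivity
      have hu1 : u ≤ 1 := by
        rw [hu, div_le_one (by linarith)]; exact hnR'
      have hS0 : 0 ≤ S := by positivity
      have hSu : S ≤ 9 * C0 * u ^ 2 := by
        have k1 : (2 * (n : ℝ) + 1) ^ 2 ≤ 9 * (n : ℝ) ^ 2 := by
          calc (2 * (n : ℝ) + 1) ^ 2 ≤ (3 * (n : ℝ)) ^ 2 :=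
                pow_le_pow_left₀ (by positivity) (by linarith) 2
            _ = _ := by ring
        calc S ≤ (9 * (n : ℝ) ^ 2) * (C0 / (R : ℝ) ^ 2) :=
              mul_le_mul_of_nonneg_right k1 (by positivity)
          _ = _ := by rw [hu, div_pow]; ring
      have hP0 : 0 ≤ P := by linarith
      have w2 : |θ| * (S * (C * H * P * (n : ℝ) ^ (-(1 / 20) : ℝ))) ≤
          (9 * Θ * C0 * C) * (H * P * Q2) := by
        calc |θ| * (S * (C * H * P * (n : ℝ) ^ (-(1 / 20) : ℝ)))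
            ≤ Θ * ((9 * C0 * u ^ 2) * (C * H * P * (n : ℝ) ^ (-(1 / 20) : ℝ))) := by
              apply mul_le_mul hθ' _ (by positivity) hΘ0
              exact mul_le_mul_of_nonneg_right hSu (by positivity)
          _ = _ := by rw [hQ2]; ring
      have w3 : 400 * θ ^ 2 * H * S ^ 2 * P ≤ (32400 * Θ ^ 2 * C0 ^ 2) * (H * P * Q3) := by
        have k1 : θ ^ 2 ≤ Θ ^ 2 := by
          rw [← sq_abs θ]
          exact pow_le_pow_left₀ (abs_nonneg _) hθ' 2
        have k2 : S ^ 2 ≤ (9 * C0 * u ^ 2) ^ 2 := pow_le_pow_left₀ hS0 hSu 2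
        calc 400 * θ ^ 2 * H * S ^ 2 * P = 400 * H * P * (θ ^ 2 * S ^ 2) := by ring
          _ ≤ 400 * H * P * (Θ ^ 2 * (9 * C0 * u ^ 2) ^ 2) := by
              apply mul_le_mul_of_nonneg_left _ (by positivity)
              exact mul_le_mul k1 k2 (by positivity) (by positivity)
          _ = _ := by rw [hQ3]; ring
      have w4 : 2 * |θ| ^ 3 * H * S ^ 3 * P ≤ (1458 * Θ ^ 3 * C0 ^ 3) * (H * P * Q3) := by
        have k1 : |θ| ^ 3 ≤ Θ ^ 3 := pow_le_pow_left₀ (abs_nonneg _) hθ' 3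
        have k2 : S ^ 3 ≤ (9 * C0 * u ^ 2) ^ 3 := pow_le_pow_left₀ hS0 hSu 3
        have k3 : u ^ 6 ≤ u ^ 4 := pow_le_pow_of_le_one hu0 hu1 (by norm_num)
        calc 2 * |θ| ^ 3 * H * S ^ 3 * P = 2 * H * P * (|θ| ^ 3 * S ^ 3) := by ring
          _ ≤ 2 * H * P * (Θ ^ 3 * (9 * C0 * u ^ 2) ^ 3) := by
              apply mul_le_mul_of_nonneg_left _ (by positivity)
              exact mul_le_mul k1 k2 (by positivity) (by positivity)
          _ = (1458 * Θ ^ 3 * C0 ^ 3 * H * P) * u ^ 6 := by ring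
          _ ≤ (1458 * Θ ^ 3 * C0 ^ 3 * H * P) * u ^ 4 :=
              mul_le_mul_of_nonneg_left k3 (by positivity)
          _ = _ := by rw [hQ3]; ring
      have w1 : C * H * P * (n : ℝ) ^ (-1 + κ) = C * (H * P * Q1) := by rw [hQ1]; ring
      have hHP : 0 ≤ H * P := by positivity
      have fin : C * (H * P * Q1) + (9 * Θ * C0 * C) * (H * P * Q2) +
          (32400 * Θ ^ 2 * C0 ^ 2) * (H * P * Q3) + (1458 * Θ ^ 3 * C0 ^ 3) * (H * P * Q3) ≤
          (C + K1 + K2) * H * P * (Q1 + Q2 + Q3) := by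
        have g1 : C * (H * P * Q1) ≤ (C + K1 + K2) * (H * P * Q1) :=
          mul_le_mul_of_nonneg_right (by linarith) (by positivity)
        have g2 : (9 * Θ * C0 * C) * (H * P * Q2) ≤ (C + K1 + K2) * (H * P * Q2) := by
          apply mul_le_mul_of_nonneg_right _ (by positivity)
          have a1 : 0 ≤ 32400 * Θ ^ 2 * C0 ^ 2 := by positivity
          have a2 : 0 ≤ 1458 * Θ ^ 3 * C0 ^ 3 := by positivity
          linarith
        have g3 : (32400 * Θ ^ 2 * C0 ^ 2 + 1458 * Θ ^ 3 * C0 ^ 3) * (H * P * Q3) ≤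
            (C + K1 + K2) * (H * P * Q3) := by
          apply mul_le_mul_of_nonneg_right _ (by positivity)
          have a1 : 0 ≤ 9 * Θ * C0 * C := by positivity
          linarith
        calc _ = C * (H * P * Q1) + (9 * Θ * C0 * C) * (H * P * Q2) +
              (32400 * Θ ^ 2 * C0 ^ 2 + 1458 * Θ ^ 3 * C0 ^ 3) * (H * P * Q3) := by ring
          _ ≤ (C + K1 + K2) * (H * P * Q1) + (C + K1 + K2) * (H * P * Q2) +
              (C + K1 + K2) * (H * P * Q3) := by linarith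
          _ = _ := by ring
      rw [w1]
      linarith

end Vale.Agent.P155.E
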