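import Vale.Agent.P155.E.SDMain
import Vale.Agent.P155.B1b.Const
import Vale.Agent.P155.B1b.PlaneMain

/-!
# P155, block E: `E_SD` from blocks A, C, D only
-/

namespace Vale.Agent.P155.E

open Skel

theorem e_sd_full (hD : D_good) (hCh : C_height) (h1 : A_one) (h2 : A_two) (hInv : A_inv) : E_SD :=
  e_sd hD hCh B1b.B_plane B1b.E_const h1 h2 hInv

end Vale.Agent.P155.E
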