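import Vale.Agent.P155.E.SD
import Vale.Agent.P155.E.Cov
import Vale.Agent.P155.E.Meas
import Vale.Agent.P155.E.Replace
import Vale.Agent.P155.E1.Point
import Vale.Agent.P155.E1.Small

/-!
# P155, block E: `E_SD` from the statements of the other blocks
-/

namespace Vale.Agent.P155.E

open Skel

theorem e_replace : E_replace := fun _ hA => coreSum_replace hA

/-- `E_SD` from blocks A, B, C, D and the plane constant. -/
theorem e_sd (hD : D_good) (hCh : C_height) (hPl : B_plane) (hK : E_const) (h1 : A_one)
    (h2 : A_two) (hInv : A_inv) : E_SD :=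
  e_sd_of_loc E1.e_incr e_meas
    (e_loc hD hCh hPl (E1.e_point h1 hInv) hK E1.e_incr e_meas (e_cov h1 h2) e_replace)

end Vale.Agent.P155.E
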