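import Vale.Agent.P155.E.Parts

/-!
# P155, block E: the height vanishes outside the domain; the field on an atom
-/

namespace Vale.Agent.P155.E

open Finset Skel J

theorem h_supp (hI : E_incr) {T : Temp} {R : ℕ} (hR : Fits T R) {ω : Conf} (hω : ω ∈ DD T.V)
    {f : Pt} (hf : f ∉ box (0, 0) (R + 2)) : (h ω f : ℝ) = 0 := by
  have hV : ∀ v : Pt, v ∉ box (0, 0) (R + 2) → v ∉ T.V := fun v hv hc => hv (mem_V_box hR hc)
  -- rows without vertices
  have hrow : ∀ g : Pt, (∀ j : ℤ, j ≤ g.1 → (j, g.2) ∉ T.V) → (h ω g : ℝ) = 0 := by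
    intro g hg
    rw [h_eq_sum hR hω]
    push_cast
    apply Finset.sum_eq_zero
    intro j _
    split_ifs with hj
    · rw [dh_eq_zero hω (hg j hj)]; simp
    · simp
  obtain ⟨a, b⟩ := f
  rw [mem_box] at hf
  simp only [zero_sub, zero_add] at hf
  push_cast at hf
  by_cases hb : -((R : ℤ) + 2) ≤ b ∧ b ≤ R + 2
  · by_cases ha : a < -((R : ℤ) + 2)
    · apply hrow
      intro j hj
      apply hV
      rw [mem_box]
      simp only [zero_sub, zero_add]
      push_cast
      simp only at hj
      omega
    · have ha' : (R : ℤ) + 2 < a := by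
        by_contra hc
        apply hf
        exact ⟨by omega, by omega, hb.1, hb.2⟩
      have hstep : ∀ u : ℤ, |(h ω (a, u + 1) : ℝ) - h ω (a, u)| ≤ 0 := by
        intro u
        have h1 := (hI T.V ω hω (a, u + 1)).2
        simp only [add_sub_cancel_right] at h1
        have hv : ((a, u + 1) : Pt) ∉ T.V := by
          apply hV
          rw [mem_box]
          simp only [zero_sub, zero_add]
          push_cast
          omega
        obtain ⟨p1, p2⟩ := PM_of_DD hω
        have i1 : ih ω.1 (a, u + 1) = 0 := by
          unfold ih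
          rw [if_neg]
          rw [p1.off _ hv]
          intro hc
          have := congrArg Prod.fst hc
          simp at this
        have i2 : ih ω.2 (a, u + 1) = 0 := by
          unfold ih
          rw [if_neg]
          rw [p2.off _ hv]
          intro hc
          have := congrArg Prod.fst hc
          simp at this
        rw [h1, i1, i2]
        simp
      have h2 := lip_int (fun u => (h ω (a, u) : ℝ)) hstep b (-((R : ℤ) + 3))
        (k := (b + (R + 3)).toNat) (by
          rw [abs_le]; constructor <;> omega)
      rw [mul_zero] at h2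
      have h3 : (h ω (a, b) : ℝ) = h ω (a, -((R : ℤ) + 3)) := by
        have := abs_nonpos_iff.1 h2
        linarith
      rw [h3]
      apply hrow
      intro j _
      apply hV
      rw [mem_box]
      simp only [zero_sub, zero_add]
      push_cast
      omega
  · apply hrow
    intro j _
    apply hV
    rw [mem_box]
    simp only [zero_sub, zero_add]
    push_cast
    omega

theorem fs_h (hI : E_incr) {T : Temp} {R : ℕ} (hR : Fits T R) {ω : Conf} (hω : ω ∈ DD T.V) :
    FS (fun f => (h ω f : ℝ)) := FS.of_box (fun _ hf => h_supp hI hR hω hf)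

/-- the field on an atom of the exploration of the outside of the box -/
theorem hf_split (hI : E_incr) (hM : E_meas) {T : Temp} {R : ℕ} (hfit : Fits T R) {x : Pt} {n : ℕ}
    {ω ω' : Conf} (hω : ω ∈ DD T.V) (hω' : ω' ∈ atom T.V (XB T x n) ω) (φ : Pt → ℝ) :
    hf ω' φ = hf ω φ + ∑ y ∈ box x n, φ y * (hR y ω' - hR y ω) := by
  have hω'' : ω' ∈ DD T.V := atom_sub hω'
  have f1 : (Function.support (fun y => φ y * (h ω' y : ℝ))).Finite :=
    (fs_h hI hfit hω'').mul_left φ
  have f2 : (Function.support (fun y => φ y * (h ω y : ℝ))).Finite := (fs_h hI hfit hω).mul_left φ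
  have e : hf ω' φ - hf ω φ = ∑ y ∈ box x n, φ y * (hR y ω' - hR y ω) := by
    unfold hf
    rw [← finsum_sub_distrib f1 f2]
    have e1 : ∀ y, φ y * (h ω' y : ℝ) - φ y * (h ω y : ℝ) = φ y * (hR y ω' - hR y ω) :=
      fun y => by unfold hR; ring
    rw [finsum_congr e1]
    apply finsum_eq_sum_of_support_subset
    intro y hy
    by_contra hc
    apply hy
    simp only
    have hd : n < dn x y := by
      by_contra hd
      exact hc (dn_le_iff.1 (not_lt.1 hd))
    unfold hR
    rw [hM T x n ω hω ω' hω' y hd, sub_self, mul_zero]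
  linarith

end Vale.Agent.P155.E
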