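import Vale.Agent.P155.E.Iface
import Vale.Agent.P155.J.Height

/-!
# P155, block E: tools (nested boxes, conditional covariances)
-/

namespace Vale.Agent.P155.E

open Finset Skel J

/-! ## The exploration `outside (Fk V 0) B` -/

theorem isExpl_F0 (V : Finset Pt) : IsExpl V (Fk V 0) where
  sub1 := by
    intro ω hω v hv
    have h1 := (PM_of_DD hω).1
    have hv' : v ∈ V := hv.1
    refine ⟨hv', ?_, Or.inl rfl⟩
    by_contra hc
    have e1 := h1.off _ hc
    rw [h1.invol] at e1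
    rw [← e1] at hc
    exact hc hv'
  sub2 := by
    intro ω hω v hv
    have h1 := (PM_of_DD hω).2
    have hv' : v ∈ V := hv.1
    refine ⟨hv', ?_, Or.inl rfl⟩
    by_contra hc
    have e1 := h1.off _ hc
    rw [h1.invol] at e1
    rw [← e1] at hc
    exact hc hv'
  det := by
    intro ω _ ω' _ _
    have : ∀ ω : Conf, Vk V 0 ω = {v | v ∈ V} := by
      intro ω; unfold Vk; ext v; simp
    unfold Fk
    rw [this, this]

theorem isExpl_out (V : Finset Pt) (B : Set Pt) : IsExpl V (outside (Fk V 0) B) :=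
  isExpl_outside (isExpl_F0 V) B

theorem isExpl_XB (T : Temp) (x : Pt) (n : ℕ) : IsExpl T.V (XB T x n) := isExpl_out _ _

/-- atoms of nested boxes -/
theorem atom_nested {V : Finset Pt} {B B' : Set Pt} (hB : B' ⊆ B) {ω ω' : Conf} (hω : ω ∈ DD V)
    (h' : ω' ∈ atom V (outside (Fk V 0) B) ω) :
    atom V (outside (Fk V 0) B') ω' ⊆ atom V (outside (Fk V 0) B) ω := by
  rw [← atom_eq (isExpl_out V B) hω h']
  intro ω'' h''
  obtain ⟨a, b⟩ := mem_atom.1 h''
  refine mem_atom.2 ⟨a, agreeOff_mono b ?_ ?_⟩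
  · rintro v ⟨h1, h2, h3⟩
    refine ⟨?_, hB h2, hB h3⟩
    have : v ∈ Vk V 0 ω' := h1
    exact this
  · rintro v ⟨h1, h2, h3⟩
    refine ⟨?_, hB h2, hB h3⟩
    have : v ∈ Vk V 0 ω' := h1
    exact this

/-- tower property for nested boxes -/
theorem cEx_nested {E : Type*} [AddCommGroup E] [Module ℝ E] {V : Finset Pt} {B B' : Set Pt}
    (hB : B' ⊆ B) {ω : Conf} (hω : ω ∈ DD V) (g : Conf → E) :
    cEx V (outside (Fk V 0) B) (cEx V (outside (Fk V 0) B') g) ω =
      cEx V (outside (Fk V 0) B) g ω :=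
  cEx_cEx (isExpl_out V B') (fun _ h' => atom_nested hB hω h') g

/-- tower property with a factor which is measurable for the smaller box -/
theorem cEx_nested_mul {V : Finset Pt} {B B' : Set Pt} (hB : B' ⊆ B) {ω : Conf} (hω : ω ∈ DD V)
    (g F : Conf → ℝ)
    (hF : ∀ ω' ∈ atom V (outside (Fk V 0) B) ω, ∀ ω'' ∈ atom V (outside (Fk V 0) B') ω',
      F ω'' = F ω') :
    cEx V (outside (Fk V 0) B) (fun ω' => F ω' * cEx V (outside (Fk V 0) B') g ω') ω =
      cEx V (outside (Fk V 0) B) (fun ω' => F ω' * g ω') ω := by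
  rw [← cEx_nested hB hω (fun ω' => F ω' * g ω')]
  exact avg_congr (fun ω' hω' => (cEx_mul_of_meas_real (hF ω' hω')).symm)

theorem box_sub {x f : Pt} {n m : ℕ} (h : dn x f + m ≤ n) : (box f m : Set Pt) ⊆ box x n := by
  intro v hv
  rw [Finset.mem_coe, mem_box] at hv ⊢
  have h1 : f ∈ box x (dn x f) := dn_le_iff.1 le_rfl
  rw [mem_box] at h1
  have h2 : ((dn x f : ℕ) : ℤ) + m ≤ n := by exact_mod_cast h
  refine ⟨by linarith [h1.1], by linarith [h1.2.1], by linarith [h1.2.2.1], by linarith [h1.2.2.2]⟩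

/-! ## Averages and Cauchy–Schwarz -/

section avg
variable {α : Type*}

theorem avg_abs_le (s : Finset α) (g : α → ℝ) : |avg s g| ≤ avg s (fun a => |g a|) := by
  have := norm_avg_le s g
  simpa [Real.norm_eq_abs] using this

theorem avg_mul_sq_le (s : Finset α) (f g : α → ℝ) :
    (avg s (fun a => f a * g a)) ^ 2 ≤ avg s (fun a => f a ^ 2) * avg s (fun a => g a ^ 2) := by
  unfold avg
  simp only [smul_eq_mul]
  have := Finset.sum_mul_sq_le_sq_mul_sq s f g
  calc ((s.card : ℝ)⁻¹ * ∑ a ∈ s, f a * g a) ^ 2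
      = ((s.card : ℝ)⁻¹) ^ 2 * (∑ a ∈ s, f a * g a) ^ 2 := by ring
    _ ≤ ((s.card : ℝ)⁻¹) ^ 2 * ((∑ a ∈ s, f a ^ 2) * ∑ a ∈ s, g a ^ 2) :=
        mul_le_mul_of_nonneg_left this (by positivity)
    _ = _ := by ring

theorem avg_mul_abs_le (s : Finset α) (f g : α → ℝ) :
    avg s (fun a => |f a * g a|) ≤
      Real.sqrt (avg s (fun a => f a ^ 2)) * Real.sqrt (avg s (fun a => g a ^ 2)) := by
  rw [← Real.sqrt_mul (avg_nonneg (fun a _ => sq_nonneg _))]
  apply Real.le_sqrt_of_sq_le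
  have h := avg_mul_sq_le s (fun a => |f a|) (fun a => |g a|)
  simp only [sq_abs] at h
  simpa [abs_mul] using h

theorem abs_avg_mul_le (s : Finset α) (f g : α → ℝ) :
    |avg s (fun a => f a * g a)| ≤
      Real.sqrt (avg s (fun a => f a ^ 2)) * Real.sqrt (avg s (fun a => g a ^ 2)) :=
  (avg_abs_le s _).trans (avg_mul_abs_le s f g)

/-- power mean inequality for averages -/
theorem avg_pow_le (s : Finset α) (g : α → ℝ) (hg : ∀ a ∈ s, 0 ≤ g a) (q : ℕ) (hq : 1 ≤ q) :
    (avg s g) ^ q ≤ avg s (fun a => g a ^ q) := by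
  rcases s.eq_empty_or_nonempty with rfl | hs
  · simp [avg, zero_pow (show q ≠ 0 by omega)]
  · have hc : (0 : ℝ) < s.card := by exact_mod_cast hs.card_pos
    have := Real.pow_arith_mean_le_arith_mean_pow s (fun _ => (s.card : ℝ)⁻¹) g
      (fun _ _ => by positivity) (by
        rw [Finset.sum_const, nsmul_eq_mul, mul_inv_cancel₀ hc.ne']) hg q
    unfold avg
    simp only [smul_eq_mul]
    rw [Finset.mul_sum, Finset.mul_sum]
    exact this

end avg

/-! ## Linearity of the conditional expectation and covariance -/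

section cov
variable {V : Finset Pt} {X : Expl} {ω : Conf}

theorem cEx_congr {E : Type*} [AddCommMonoid E] [Module ℝ E] {g g' : Conf → E}
    (h : ∀ ω' ∈ atom V X ω, g ω' = g' ω') : cEx V X g ω = cEx V X g' ω := avg_congr h

theorem cEx_add (g g' : Conf → ℝ) :
    cEx V X (fun ω' => g ω' + g' ω') ω = cEx V X g ω + cEx V X g' ω := avg_add _ _ _

theorem cEx_sub (g g' : Conf → ℝ) :
    cEx V X (fun ω' => g ω' - g' ω') ω = cEx V X g ω - cEx V X g' ω := avg_sub _ _ _

theorem cEx_neg (g : Conf → ℝ) : cEx V X (fun ω' => - g ω') ω = - cEx V X g ω := avg_neg _ _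

theorem cEx_sum {ι : Type*} (I : Finset ι) (g : ι → Conf → ℝ) :
    cEx V X (fun ω' => ∑ i ∈ I, g i ω') ω = ∑ i ∈ I, cEx V X (g i) ω := avg_sum _ _ _

theorem cEx_const_mul (c : ℝ) (g : Conf → ℝ) :
    cEx V X (fun ω' => c * g ω') ω = c * cEx V X g ω := avg_mul_left _ _ _

theorem cEx_mul_const (c : ℝ) (g : Conf → ℝ) :
    cEx V X (fun ω' => g ω' * c) ω = cEx V X g ω * c := avg_mul_right _ _ _

theorem cEx_const (hω : ω ∈ DD V) (c : ℝ) : cEx V X (fun _ => c) ω = c :=
  avg_const ⟨ω, self_mem_atom hω⟩ c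

theorem abs_cEx_le (g : Conf → ℝ) : |cEx V X g ω| ≤ cEx V X (fun ω' => |g ω'|) ω :=
  avg_abs_le _ _

theorem cCov_congr {g g' f f' : Conf → ℝ} (h : ∀ ω' ∈ atom V X ω, g ω' = g' ω')
    (hf : ∀ ω' ∈ atom V X ω, f ω' = f' ω') : cCov V X g f ω = cCov V X g' f' ω := by
  unfold cCov
  rw [cEx_congr (g := fun ω' => g ω' * f ω') (g' := fun ω' => g' ω' * f' ω')
    (fun ω' hω' => by rw [h ω' hω', hf ω' hω']), cEx_congr h, cEx_congr hf]

theorem cCov_add_left (g g' f : Conf → ℝ) :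
    cCov V X (fun ω' => g ω' + g' ω') f ω = cCov V X g f ω + cCov V X g' f ω := by
  unfold cCov
  simp only [add_mul, cEx_add]
  ring

theorem cCov_sub_left (g g' f : Conf → ℝ) :
    cCov V X (fun ω' => g ω' - g' ω') f ω = cCov V X g f ω - cCov V X g' f ω := by
  unfold cCov
  simp only [sub_mul, cEx_sub]
  ring

theorem cCov_neg_left (g f : Conf → ℝ) :
    cCov V X (fun ω' => - g ω') f ω = - cCov V X g f ω := by
  unfold cCov
  simp only [neg_mul, cEx_neg]
  ring

theorem cCov_mul_left (c : ℝ) (g f : Conf → ℝ) :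
    cCov V X (fun ω' => c * g ω') f ω = c * cCov V X g f ω := by
  unfold cCov
  simp only [mul_assoc, cEx_const_mul]
  ring

theorem cCov_comm (g f : Conf → ℝ) : cCov V X g f ω = cCov V X f g ω := by
  unfold cCov
  simp only [mul_comm]

theorem cCov_add_right (g f f' : Conf → ℝ) :
    cCov V X g (fun ω' => f ω' + f' ω') ω = cCov V X g f ω + cCov V X g f' ω := by
  rw [cCov_comm, cCov_add_left, cCov_comm f, cCov_comm f']

theorem cCov_sub_right (g f f' : Conf → ℝ) :
    cCov V X g (fun ω' => f ω' - f' ω') ω = cCov V X g f ω - cCov V X g f' ω := by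
  rw [cCov_comm, cCov_sub_left, cCov_comm f, cCov_comm f']

theorem cCov_neg_right (g f : Conf → ℝ) :
    cCov V X g (fun ω' => - f ω') ω = - cCov V X g f ω := by
  rw [cCov_comm, cCov_neg_left, cCov_comm f]

theorem cCov_mul_right (c : ℝ) (g f : Conf → ℝ) :
    cCov V X g (fun ω' => c * f ω') ω = c * cCov V X g f ω := by
  rw [cCov_comm, cCov_mul_left, cCov_comm f]

theorem cCov_sum_left {ι : Type*} (I : Finset ι) (g : ι → Conf → ℝ) (f : Conf → ℝ) :
    cCov V X (fun ω' => ∑ i ∈ I, g i ω') f ω = ∑ i ∈ I, cCov V X (g i) f ω := by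
  unfold cCov
  simp only [Finset.sum_mul, cEx_sum, Finset.sum_sub_distrib]

theorem cCov_sum_right {ι : Type*} (I : Finset ι) (g : ι → Conf → ℝ) (f : Conf → ℝ) :
    cCov V X f (fun ω' => ∑ i ∈ I, g i ω') ω = ∑ i ∈ I, cCov V X f (g i) ω := by
  rw [cCov_comm, cCov_sum_left]
  exact Finset.sum_congr rfl (fun i _ => cCov_comm _ _)

/-- covariance with a measurable function vanishes -/
theorem cCov_meas (hω : ω ∈ DD V) (g : Conf → ℝ) {F : Conf → ℝ}
    (hF : ∀ ω' ∈ atom V X ω, F ω' = F ω) : cCov V X g F ω = 0 := by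
  unfold cCov
  rw [cEx_congr (g := fun ω' => g ω' * F ω') (g' := fun ω' => g ω' * F ω)
    (fun ω' hω' => by rw [hF ω' hω']), cEx_mul_const, cEx_congr (g := F) (g' := fun _ => F ω) hF,
    cEx_const hω]
  ring

/-- centred form of the covariance -/
theorem cCov_eq_centred (g f : Conf → ℝ) :
    cCov V X g f ω = cEx V X (fun ω' => (f ω' - cEx V X f ω) * g ω') ω := by
  unfold cCov
  simp only [sub_mul, cEx_sub, cEx_const_mul]
  rw [cEx_congr (g := fun ω' => f ω' * g ω') (g' := fun ω' => g ω' * f ω')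
    (fun ω' _ => by ring)]
  ring

/-- variance at most second moment -/
theorem var_le (hω : ω ∈ DD V) (f : Conf → ℝ) :
    cEx V X (fun ω' => (f ω' - cEx V X f ω) ^ 2) ω ≤ cEx V X (fun ω' => f ω' ^ 2) ω := by
  have h : cEx V X (fun ω' => (f ω' - cEx V X f ω) ^ 2) ω =
      cEx V X (fun ω' => f ω' ^ 2) ω - (cEx V X f ω) ^ 2 := by
    have e : ∀ ω', (f ω' - cEx V X f ω) ^ 2 =
        f ω' ^ 2 - (2 * cEx V X f ω) * f ω' + (cEx V X f ω) ^ 2 := fun ω' => by ring
    simp only [e]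
    rw [cEx_add, cEx_sub, cEx_const_mul, cEx_const hω]
    ring
  rw [h]
  linarith [sq_nonneg (cEx V X f ω)]

/-- second moments from fourth moments -/
theorem cEx_sq_le (f : Conf → ℝ) {M : ℝ} (hM : cEx V X (fun ω' => f ω' ^ 4) ω ≤ M) :
    cEx V X (fun ω' => f ω' ^ 2) ω ≤ Real.sqrt M := by
  apply (cEx_le_sqrt V X (fun ω' => f ω' ^ 2) ω).trans
  apply Real.sqrt_le_sqrt
  refine le_trans (le_of_eq ?_) hM
  exact cEx_congr (fun ω' _ => by ring)

end cov

end Vale.Agent.P155.E
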